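import Vale.Agent.P218GA.Area
import Mathlib.Analysis.InnerProductSpace.NormDet
import Mathlib.Topology.Instances.Matrix

/-! Jacobians for the area formula: inner product parameter spaces and `ℝ × ℝ`. -/

open MeasureTheory Set Filter Topology Metric Module
open scoped ENNReal NNReal RealInnerProductSpace

namespace Vale.Agent.P218GA

set_option linter.unusedSectionVars false

/-- the ratio between the Hausdorff measure `μH[m]` and the normalised one -/
noncomputable def cH (m : ℕ) : ℝ≥0 :=
  (Measure.addHaarScalarFactor (volume : Measure (EuclideanSpace ℝ (Fin m))) μH[m])⁻¹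

lemma cH_pos (m : ℕ) : 0 < cH m :=
  inv_pos.2 (pos_iff_ne_zero.2 (Measure.addHaarScalarFactor_volume_hausdorffMeasure_ne_zero m))

lemma cH_pos' (m : ℕ) : (0 : ℝ) < cH m := by exact_mod_cast cH_pos m

lemma hausdorff_eq_smul {X : Type*} [EMetricSpace X] [MeasurableSpace X] [BorelSpace X] (m : ℕ) :
    (μH[m] : Measure X) = cH m • μHE[m] := by
  rw [Measure.euclideanHausdorffMeasure_def, smul_smul, cH,
    inv_mul_cancel₀ (Measure.addHaarScalarFactor_volume_hausdorffMeasure_ne_zero m), one_smul]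

variable {U V : Type*} [NormedAddCommGroup U] [InnerProductSpace ℝ U] [FiniteDimensional ℝ U]
  [NormedAddCommGroup V] [InnerProductSpace ℝ V]

lemma normDet_eq_sqrt {ι : Type*} [Fintype ι] [DecidableEq ι] (L : U →ₗ[ℝ] V)
    (b : OrthonormalBasis ι ℝ U) : L.normDet = √((Matrix.gram ℝ (L <| b ·)).det) := by
  have h := L.normDet_sq_eq_det_gram b
  simp only [RCLike.ofReal_real_eq_id, id_eq] at h
  rw [← h, Real.sqrt_sq L.normDet_nonneg]

lemma continuous_normDet : Continuous fun L : U →L[ℝ] V => (L : U →ₗ[ℝ] V).normDet := by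
  have e : (fun L : U →L[ℝ] V => (L : U →ₗ[ℝ] V).normDet) = fun L : U →L[ℝ] V =>
      √((Matrix.gram ℝ ((L : U →ₗ[ℝ] V) <| stdOrthonormalBasis ℝ U ·)).det) := by
    ext L; exact normDet_eq_sqrt _ _
  rw [e]
  refine Continuous.sqrt (Continuous.matrix_det (continuous_matrix fun i j => ?_))
  simp only [Matrix.gram_apply, ContinuousLinearMap.coe_coe]
  fun_prop

lemma normDet_pos {L : U →ₗ[ℝ] V} (hL : Function.Injective L) : 0 < L.normDet :=
  lt_of_le_of_ne L.normDet_nonneg fun h =>
    LinearMap.normDet_eq_zero_iff_ker_ne_bot.1 h.symm (LinearMap.ker_eq_bot.2 hL)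

variable [MeasurableSpace U] [BorelSpace U] [MeasurableSpace V] [BorelSpace V]

/-- the Jacobian for the Hausdorff measure on the parameter space -/
theorem isJac_hausdorff {m : ℕ} (hm : finrank ℝ U = m) :
    IsJac (μH[m] : Measure U) m fun L : U →L[ℝ] V => (L : U →ₗ[ℝ] V).normDet where
  nonneg := Nat.cast_nonneg m
  cont := continuous_normDet
  pos L hL := normDet_pos hL
  image L hL s := by
    subst hm
    exact (L : U →ₗ[ℝ] V).hausdorffMeasure_image s

/-- the Jacobian for the Lebesgue measure on the parameter space -/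
theorem isJac_volume {m : ℕ} (hm : finrank ℝ U = m) :
    IsJac (volume : Measure U) m fun L : U →L[ℝ] V => cH m * (L : U →ₗ[ℝ] V).normDet where
  nonneg := Nat.cast_nonneg m
  cont := continuous_const.mul continuous_normDet
  pos L hL := mul_pos (cH_pos' m) (normDet_pos hL)
  image L hL s := by
    subst hm
    have h := (L : U →ₗ[ℝ] V).euclideanHausdorffMeasure_image_eq_normDet_mul_volume s
    rw [hausdorff_eq_smul, Measure.smul_apply, ENNReal.ofReal_mul (cH _).coe_nonneg,
      ENNReal.ofReal_coe_nnreal, mul_assoc, ← h]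
    rfl

/-- the area of the parallelogram spanned by two vectors -/
noncomputable def par (a b : V) : ℝ := √(‖a‖ ^ 2 * ‖b‖ ^ 2 - ⟪a, b⟫ ^ 2)

/-- the Jacobian of a linear map on `ℝ × ℝ` -/
noncomputable def jac2 (L : ℝ × ℝ →L[ℝ] V) : ℝ := cH 2 * par (L (1, 0)) (L (0, 1))

/-- the plane -/
noncomputable def toProd : EuclideanSpace ℝ (Fin 2) ≃L[ℝ] ℝ × ℝ :=
  (EuclideanSpace.equiv (Fin 2) ℝ).trans (ContinuousLinearEquiv.finTwoArrow ℝ ℝ)

lemma toProd_apply (x : EuclideanSpace ℝ (Fin 2)) : toProd x = (x 0, x 1) := rfl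

lemma measurePreserving_toProd : MeasurePreserving toProd volume volume :=
  (volume_preserving_finTwoArrow ℝ).comp (PiLp.volume_preserving_ofLp (Fin 2))

lemma normDet_comp_toProd (L : ℝ × ℝ →L[ℝ] V) :
    ((L.comp (toProd : EuclideanSpace ℝ (Fin 2) →L[ℝ] ℝ × ℝ) : EuclideanSpace ℝ (Fin 2) →L[ℝ] V) :
      EuclideanSpace ℝ (Fin 2) →ₗ[ℝ] V).normDet = par (L (1, 0)) (L (0, 1)) := by
  rw [normDet_eq_sqrt _ (EuclideanSpace.basisFun (Fin 2) ℝ), Matrix.det_fin_two, par]
  congr 1
  simp only [Matrix.gram_apply, ContinuousLinearMap.coe_coe, ContinuousLinearMap.comp_apply,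
    ContinuousLinearEquiv.coe_coe, toProd_apply, EuclideanSpace.basisFun_apply]
  simp only [PiLp.single_eq_same, Fin.isValue, ne_eq, zero_ne_one, not_false_eq_true,
    PiLp.single_eq_of_ne, one_ne_zero, real_inner_self_eq_norm_sq]
  rw [real_inner_comm (L (1, 0)) (L (0, 1))]
  ring

/-- the Jacobian on `ℝ × ℝ` with the Lebesgue measure -/
theorem isJac_prod : IsJac (volume : Measure (ℝ × ℝ)) 2 (jac2 : (ℝ × ℝ →L[ℝ] V) → ℝ) where
  nonneg := by norm_num
  cont := by
    unfold jac2 par
    fun_prop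
  pos L hL := by
    rw [jac2, ← normDet_comp_toProd]
    exact mul_pos (cH_pos' 2) (normDet_pos (hL.comp toProd.injective))
  image L hL s := by
    have h := (isJac_volume (U := EuclideanSpace ℝ (Fin 2)) (V := V) (m := 2) (by simp)).image
      (L.comp (toProd : EuclideanSpace ℝ (Fin 2) →L[ℝ] ℝ × ℝ)) (hL.comp toProd.injective)
      (toProd ⁻¹' s)
    have e1 : (L.comp (toProd : EuclideanSpace ℝ (Fin 2) →L[ℝ] ℝ × ℝ)) '' (toProd ⁻¹' s)
        = L '' s := by
      rw [ContinuousLinearMap.coe_comp, image_comp, ContinuousLinearEquiv.coe_coe,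
        image_preimage_eq _ toProd.surjective]
    have e2 : volume (toProd ⁻¹' s) = volume s :=
      MeasurePreserving.measure_preimage_equiv (f := toProd.toHomeomorph.toMeasurableEquiv)
        measurePreserving_toProd s
    rw [e1, e2, normDet_comp_toProd] at h
    simpa [jac2] using h

end Vale.Agent.P218GA
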