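import Vale.Agent.P218GA.Mu

/-! First consequences of the working model. -/

open MeasureTheory Set Metric Filter Topology
open scoped RealInnerProductSpace ContDiff ENNReal NNReal

namespace Vale.Agent.P218GA

set_option linter.unusedSectionVars false

open Vale.Agent.P218.H63 (gaussArea IsTubeShrinker contDiff_gradient)
open Vale.Agent.P218.H313 (rho rho_pos)
open Vale.Agent.P218VA
open Vale.Agent.P272.K.LIN

lemma IsTube.gaussArea_ne_top {E : Type*} [NormedAddCommGroup E] [InnerProductSpace ℝ E]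
    [FiniteDimensional ℝ E] [MeasurableSpace E] [BorelSpace E] {k : ℕ} {w : E → ℝ} {δ C : ℝ}
    (h : IsTube w δ C) (hE : Module.finrank ℝ E = k + 1) :
    gaussArea k {x | w x = 0} univ ≠ ⊤ := by
  have h1 := ((exists_rho_bound hE h.pos C 0).choose_spec w h).1.lintegral_lt_top
  rw [gaussArea, withDensity_apply _ MeasurableSet.univ, Measure.restrict_univ]
  simpa [rho, area] using h1.ne

lemma norm_xi_sq {γ n : E3} (hγ : ‖γ‖ = 1) (hn : ‖n‖ = 1) (h : ⟪n, γ⟫ = 0) {w : ℝ} (hw : 0 ≤ w)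
    (t : ℝ) : ‖xi γ n w t‖ ^ 2 = 4 * w := by
  have h1 : ‖(1 - t ^ 2) • γ + (2 * t) • n‖ ^ 2 = (1 + t ^ 2) ^ 2 := by
    rw [norm_add_sq_real, norm_smul, norm_smul, hγ, hn, real_inner_smul_left,
      real_inner_smul_right, real_inner_comm, h, Real.norm_eq_abs, Real.norm_eq_abs, mul_one,
      mul_one, sq_abs, sq_abs]
    ring
  have h2 : 1 + t ^ 2 ≠ 0 := by positivity
  rw [xi, norm_smul, mul_pow, h1, Real.norm_eq_abs, sq_abs, div_pow, mul_pow, Real.sq_sqrt hw]
  field_simp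
  ring

lemma norm_e3 : ‖e3‖ = 1 := by
  rw [← sq_eq_sq₀ (norm_nonneg _) zero_le_one, ← real_inner_self_eq_norm_sq, inner3]
  simp [e3]

lemma norm_eth (θ : ℝ) : ‖eth θ‖ = 1 := by
  rw [← sq_eq_sq₀ (norm_nonneg _) zero_le_one, ← real_inner_self_eq_norm_sq, inner3]
  simp [eth, ← sq]

lemma inner_eth_e3 (θ : ℝ) : ⟪eth θ, e3⟫ = 0 := by simp [inner3, eth, e3]

lemma norm_xiCyl_sq {w : ℝ} (hw : 0 ≤ w) (θ U : ℝ) : ‖xiCyl w θ U‖ ^ 2 = 4 * w :=
  norm_xi_sq norm_e3 (norm_eth θ) (inner_eth_e3 θ) hw _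

lemma norm_xiCone_sq (L : Link) {w : ℝ} (hw : 0 ≤ w) (θ t : ℝ) : ‖xiCone L w θ t‖ ^ 2 = 4 * w :=
  norm_xi_sq (L.γ_unit θ) (L.n_unit θ) (L.orth θ) hw _

lemma norm_pol' (p : ℝ × ℝ) : ‖pol p‖ = Real.exp (-p.1) := by
  rw [← sq_eq_sq₀ (norm_nonneg _) (Real.exp_pos _).le, EuclideanSpace.real_norm_sq_eq]
  simp only [pol, Fin.sum_univ_two]
  simp [mul_pow, ← mul_add]

namespace Model

variable {S : Set E3} {w : E3 → ℝ} {δ C : ℝ} {ι κ M : Type} [TopologicalSpace M]
  [ChartedSpace E2 M] (m : Model S w δ C ι κ M)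

include m in
lemma tube : IsTube w δ C := isTube_of_shrinker m.shr

include m in
lemma S_eq : S = {x | w x = 0} := Set.ext m.shr.mem_iff

lemma F_mem {x : M} (hx : x ∈ m.reg) : m.F x ∈ S := m.image.subset (mem_image_of_mem _ hx)

lemma w_F {x : M} (hx : x ∈ m.reg) : w (m.F x) = 0 := (m.shr.mem_iff _).1 (m.F_mem hx)

lemma zero_mem (j : ι ⊕ κ) : (0 : E2) ∈ (m.φ j).target := by
  rw [m.target]; exact mem_ball_self (Real.exp_pos _)

lemma pol_mem (j : ι ⊕ κ) {p : ℝ × ℝ} (hp : m.w0 < p.1) : pol p ∈ (m.φ j).target := by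
  rw [m.target, mem_ball_zero_iff, norm_pol']
  exact Real.exp_lt_exp.2 (by linarith)

/-- in an end chart only the origin is singular -/
lemma symm_mem_reg (j : ι ⊕ κ) {y : E2} (hy : y ∈ (m.φ j).target) (h0 : y ≠ 0) :
    (m.φ j).symm y ∈ m.reg := by
  intro j' h
  have h1 := (m.φ j).map_target hy
  have h2 := (m.φ j').map_target (m.zero_mem j')
  obtain rfl := m.disj j j' _ h1 (h ▸ h2)
  exact h0 ((m.φ j).symm.injOn hy (m.zero_mem j) h)

lemma pol_mem_reg (j : ι ⊕ κ) {p : ℝ × ℝ} (hp : m.w0 < p.1) : (m.φ j).symm (pol p) ∈ m.reg :=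
  m.symm_mem_reg j (m.pol_mem j hp) fun h => by
    have := norm_pol' p
    rw [h, norm_zero] at this
    exact (Real.exp_pos _).ne this

lemma norm_F_pol (j : ι ⊕ κ) {p : ℝ × ℝ} (hp : m.w0 < p.1) :
    ‖m.F ((m.φ j).symm (pol p))‖ ^ 2 = 4 * p.1 := by
  have h0 : 0 ≤ p.1 := by linarith [m.one_le]
  cases j with
  | inl i => rw [m.cyl i p hp, LinearIsometryEquiv.norm_map, norm_xiCyl_sq h0]
  | inr j => rw [m.cone j p hp, norm_xiCone_sq _ h0]

lemma ckAt_F {x : M} (hx : x ∈ m.reg) : CkAt ∞ m.F x := fun e he hxe =>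
  (m.smooth e he (e x) (e.map_source hxe) (by rw [e.left_inv hxe]; exact hx)).1

/-- the unit normal -/
noncomputable def nu (x : M) : E3 := gradient w (m.F x)

lemma norm_nu {x : M} (hx : x ∈ m.reg) : ‖m.nu x‖ = 1 := m.tube.unit _ (m.w_F hx)

lemma ckAt_nu {x : M} (hx : x ∈ m.reg) : CkAt ∞ m.nu x := fun e he hxe =>
  (contDiff_gradient m.w_smooth (n := ∞) (by simp)).contDiffAt.comp _ (m.ckAt_F hx e he hxe)

variable [Finite ι] [Finite κ] [T2Space M]

lemma isOpen_reg : IsOpen m.reg := by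
  have : m.reg = (range fun j => (m.φ j).symm 0)ᶜ := by
    ext x
    simp only [reg, mem_ofPred_eq, mem_compl_iff, mem_range, not_exists]
    exact forall_congr' fun j => ne_comm
  rw [this]
  exact (finite_range _).isClosed.isOpen_compl

lemma rimm : RImm m.reg m.F :=
  ⟨m.isOpen_reg, fun _ hx => (m.ckAt_F hx).of_le two_le_inf, fun x hx e he hxe =>
    (m.smooth e he (e x) (e.map_source hxe) (by rw [e.left_inv hxe]; exact hx)).2⟩

lemma eventually_mem {e : OpenPartialHomeomorph M E2} {x : M} (hx : x ∈ m.reg)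
    (hxe : x ∈ e.source) : ∀ᶠ y in 𝓝 (e x), cX e m.F y ∈ S :=
  ((tendsto_symm hxe).eventually (m.isOpen_reg.mem_nhds hx)).mono fun _ hy => m.F_mem hy

/-- the shrinker equation in the charts of the atlas -/
theorem PPF_chart {e : OpenPartialHomeomorph M E2} (he : e ∈ atlas E2 M) {x : M} (hx : x ∈ m.reg)
    (hxe : x ∈ e.source) : PPF u1 u2 (cX e fun z => cx (m.F z)) (e x) = 0 :=
  PPF_zero m.shr (m.rimm.ck x hx e he hxe) (m.eventually_mem hx hxe) u1 u2

/-- the normal is orthogonal to the tangent vectors -/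
theorem inner_nu_pd {e : OpenPartialHomeomorph M E2} (he : e ∈ atlas E2 M) {x : M}
    (hx : x ∈ m.reg) (hxe : x ∈ e.source) (v : E2) : ⟪m.nu x, pd (cX e m.F) v (e x)⟫ = 0 := by
  have := inner_grad_pd (X := cX e m.F) (m.tube.cd1.differentiable one_ne_zero _)
    ((m.rimm.ck x hx e he hxe).differentiableAt (by simp))
    ((m.eventually_mem hx hxe).mono fun y hy => (m.shr.mem_iff _).1 hy) v
  rwa [show cX e m.F (e x) = m.F x by rw [cX, e.left_inv hxe]] at this

variable [RSm E2 M] [CompactSpace M] [MeasurableSpace M] [BorelSpace M]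

/-- the reference measure: the Gaussian area of `S` divided by `cH 2` -/
noncomputable def mu0 : Measure M := muX m.reg m.F

include m in
lemma gaussArea_ne_top : gaussArea 2 S univ ≠ ⊤ := by
  have := m.tube.gaussArea_ne_top (k := 2) (by simp)
  rwa [← m.S_eq] at this

lemma image_reg : m.F '' m.reg = S := m.image

theorem isArea : IsArea m.reg (fun x => cx (m.F x)) m.mu0 :=
  m.rimm.isArea m.inj (by rw [m.image_reg]; exact m.gaussArea_ne_top)

theorem mu0_univ : cH 2 * m.mu0 univ = gaussArea 2 S univ := by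
  have := m.rimm.muX_univ m.inj
  rwa [m.image_reg] at this

theorem integral_mu0 {V : Type*} [NormedAddCommGroup V] [NormedSpace ℝ V] (G : E3 → V) :
    (cH 2 : ℝ) • ∫ x, G (m.F x) ∂m.mu0 = ∫ y, G y ∂(gaussArea 2 S) := by
  have := m.rimm.integral_muX m.inj G
  rwa [m.image_reg] at this

theorem integrable_mu0 {V : Type*} [NormedAddCommGroup V] (G : E3 → V) :
    Integrable (fun x => G (m.F x)) m.mu0 ↔ Integrable G (gaussArea 2 S) := by
  have := m.rimm.integrable_muX m.inj G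
  rwa [m.image_reg] at this

lemma ae_reg : ∀ᵐ x ∂m.mu0, x ∈ m.reg := ae_muX m.isOpen_reg.measurableSet _

/-- the Gaussian area of a surface covered by an immersion is at most the action -/
theorem gaussArea_le {X : M → E3} (h : RImm m.reg X) {T : Set E3} (hT : MeasurableSet T)
    (hTX : T ⊆ X '' m.reg) : gaussArea 2 T univ ≤ cH 2 * ∫⁻ x,
      ENNReal.ofReal (LagM (fun z => cx (m.F z)) (fun z => cx (X z)) x).re ∂m.mu0 :=
  m.rimm.gaussArea_le m.inj h hT hTX

end Model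

end Vale.Agent.P218GA
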