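import Mathlib.MeasureTheory.Measure.Hausdorff
import Mathlib.MeasureTheory.Constructions.Polish.Basic
import Mathlib.MeasureTheory.Integral.Bochner.Set
import Mathlib.MeasureTheory.Measure.WithDensity
import Mathlib.MeasureTheory.Function.L1Space.Integrable
import Mathlib.MeasureTheory.Integral.Bochner.ContinuousLinearMap
import Mathlib.Analysis.Calculus.ContDiff.RCLike
import Mathlib.Analysis.Normed.Module.FiniteDimension

/-! The area formula for `C¹` injective immersions. -/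

open MeasureTheory Set Filter Topology Metric
open scoped ENNReal NNReal

namespace Vale.Agent.P218GA

set_option linter.unusedSectionVars false

/-- comparison of the Hausdorff measures of two images -/
lemma img_le {X Y Z : Type*} [MetricSpace Y] [MetricSpace Z] [MeasurableSpace Y] [BorelSpace Y]
    [MeasurableSpace Z] [BorelSpace Z] [Nonempty X] {f : X → Y} {L : X → Z} {t : Set X} {K : ℝ≥0}
    (h : ∀ a ∈ t, ∀ b ∈ t, dist (f a) (f b) ≤ K * dist (L a) (L b)) {d : ℝ} (hd : 0 ≤ d) :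
    μH[d] (f '' t) ≤ (K : ℝ≥0∞) ^ d * μH[d] (L '' t) := by
  have h1 : LipschitzOnWith K (f ∘ Function.invFunOn L t) (L '' t) := by
    refine LipschitzOnWith.of_dist_le_mul fun y hy z hz => ?_
    have hy' : ∃ a ∈ t, L a = y := hy
    have hz' : ∃ a ∈ t, L a = z := hz
    have := h _ (Function.invFunOn_mem hy') _ (Function.invFunOn_mem hz')
    rwa [Function.invFunOn_eq hy', Function.invFunOn_eq hz'] at this
  refine le_trans (measure_mono ?_) (h1.hausdorffMeasure_image_le hd)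
  rintro _ ⟨a, ha, rfl⟩
  have hy' : ∃ b ∈ t, L b = L a := ⟨a, ha, rfl⟩
  refine ⟨L a, ⟨a, ha, rfl⟩, ?_⟩
  have := h _ (Function.invFunOn_mem hy') _ ha
  rw [Function.invFunOn_eq hy', dist_self, mul_zero] at this
  exact dist_le_zero.1 this

/-- an inequality up to factors tending to one -/
lemma le_of_forall_pow {a b : ℝ≥0∞} {d : ℝ} (h : ∀ K : ℝ≥0, 1 < K → a ≤ (K : ℝ≥0∞) ^ d * K * b) :
    a ≤ b := by
  rcases eq_or_ne b ⊤ with rfl | hb
  · exact le_top
  have h1 : Tendsto (fun K : ℝ≥0 => (K : ℝ≥0∞)) (𝓝[>] 1) (𝓝 1) := by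
    have := (ENNReal.continuous_coe.tendsto (1 : ℝ≥0)).mono_left (nhdsWithin_le_nhds (s := Ioi 1))
    simpa using this
  have h2 : Tendsto (fun K : ℝ≥0 => (K : ℝ≥0∞) ^ d) (𝓝[>] 1) (𝓝 1) := by
    have := (ENNReal.continuous_rpow_const (y := d)).tendsto (1 : ℝ≥0∞)
    rw [ENNReal.one_rpow] at this
    exact this.comp h1
  have h3 : Tendsto (fun K : ℝ≥0 => (K : ℝ≥0∞) ^ d * K * b) (𝓝[>] 1) (𝓝 (1 * 1 * b)) :=
    ENNReal.Tendsto.mul_const (ENNReal.Tendsto.mul h2 (by simp) h1 (by simp)) (Or.inr hb)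
  rw [one_mul, one_mul] at h3
  exact ge_of_tendsto h3 (eventually_nhdsWithin_of_forall fun K hK => h K hK)

variable {D V : Type*} [NormedAddCommGroup D] [NormedSpace ℝ D] [FiniteDimensional ℝ D]
  [NormedAddCommGroup V] [NormedSpace ℝ V]

/-- a strictly differentiable map with injective derivative is almost isometric to it -/
lemma exists_biLip {f : D → V} {L : D →L[ℝ] V} {x : D} (hf : HasStrictFDerivAt f L x)
    (hL : Function.Injective L) {K : ℝ≥0} (hK : 1 < K) :
    ∃ t ∈ 𝓝 x, (∀ a ∈ t, ∀ b ∈ t, dist (f a) (f b) ≤ K * dist (L a) (L b)) ∧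
      ∀ a ∈ t, ∀ b ∈ t, dist (L a) (L b) ≤ K * dist (f a) (f b) := by
  obtain ⟨C, hC0, hC⟩ := (L : D →ₗ[ℝ] V).exists_antilipschitzWith (LinearMap.ker_eq_bot.2 hL)
  have hK' : (1 : ℝ) < K := by exact_mod_cast hK
  have hC' : (0 : ℝ) < C := by exact_mod_cast hC0
  set η : ℝ := (1 - 1 / K) with hη
  have hη0 : 0 < η := by
    rw [hη, sub_pos, div_lt_one (by linarith)]; exact hK'
  have hηK : η ≤ K - 1 := by
    rw [hη]
    have : 0 < (K : ℝ) := by linarith
    have h2 : 2 ≤ (K : ℝ) + 1 / K := by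
      rw [← sub_nonneg]
      have : (K : ℝ) + 1 / K - 2 = (K - 1) ^ 2 / K := by field_simp; ring
      rw [this]; positivity
    linarith
  have h1 := hf.isLittleO.bound (c := η / C) (by positivity)
  rw [nhds_prod_eq] at h1
  obtain ⟨t, ht, h2⟩ := (eventually_prod_self_iff (r := fun a b : D =>
    ‖f a - f b - L (a - b)‖ ≤ η / C * ‖a - b‖)).1 h1
  have key : ∀ a ∈ t, ∀ b ∈ t, ‖f a - f b - (L a - L b)‖ ≤ η * ‖L a - L b‖ := by
    intro a ha b hb
    have h3 := h2 a ha b hb
    simp only [map_sub] at h3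
    have h4 : ‖a - b‖ ≤ C * ‖L a - L b‖ := by
      have := hC.le_mul_dist a b
      rwa [dist_eq_norm, dist_eq_norm] at this
    refine h3.trans ?_
    calc η / C * ‖a - b‖ ≤ η / C * (C * ‖L a - L b‖) := by gcongr
      _ = η * ‖L a - L b‖ := by field_simp
  refine ⟨t, ht, fun a ha b hb => ?_, fun a ha b hb => ?_⟩
  · rw [dist_eq_norm, dist_eq_norm]
    have h3 := key a ha b hb
    have h4 := norm_add_le (f a - f b - (L a - L b)) (L a - L b)
    rw [sub_add_cancel] at h4
    nlinarith [norm_nonneg (L a - L b)]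
  · rw [dist_eq_norm, dist_eq_norm]
    have h3 := key a ha b hb
    have h4 := norm_sub_le (f a - f b) (f a - f b - (L a - L b))
    rw [sub_sub_cancel] at h4
    have h5 : (1 / K : ℝ) * ‖L a - L b‖ ≤ ‖f a - f b‖ := by
      rw [hη] at h3; linarith
    have : 0 < (K : ℝ) := by linarith
    rw [one_div, inv_mul_le_iff₀ this] at h5
    exact h5

variable [MeasurableSpace D] [BorelSpace D] [MeasurableSpace V] [BorelSpace V]

/-- `J` is a Jacobian for the measure `μ` on the parameter space and `H^d` on the target -/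
structure IsJac (μ : Measure D) (d : ℝ) (J : (D →L[ℝ] V) → ℝ) : Prop where
  nonneg : 0 ≤ d
  cont : Continuous J
  pos : ∀ L : D →L[ℝ] V, Function.Injective L → 0 < J L
  image : ∀ L : D →L[ℝ] V, Function.Injective L → ∀ s, μH[d] (L '' s) = ENNReal.ofReal (J L) * μ s

variable {μ : Measure D} {d : ℝ} {J : (D →L[ℝ] V) → ℝ} {f : D → V} {O : Set D}

/-- the local two-sided estimate -/
lemma IsJac.loc (hJ : IsJac μ d J) (hO : IsOpen O) (hf : ContDiffOn ℝ 1 f O)
    (hi : ∀ x ∈ O, Function.Injective (fderiv ℝ f x)) {K : ℝ≥0} (hK : 1 < K) {x : D} (hx : x ∈ O) :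
    ∃ t ∈ 𝓝 x, ∀ s ⊆ t, MeasurableSet s →
      μH[d] (f '' s) ≤ (K : ℝ≥0∞) ^ d * K * ∫⁻ y in s, ENNReal.ofReal (J (fderiv ℝ f y)) ∂μ ∧
      ∫⁻ y in s, ENNReal.ofReal (J (fderiv ℝ f y)) ∂μ ≤ (K : ℝ≥0∞) ^ d * K * μH[d] (f '' s) := by
  have hfx : ContDiffAt ℝ 1 f x := hf.contDiffAt (hO.mem_nhds hx)
  obtain ⟨t, ht, h1, h2⟩ := exists_biLip (hfx.hasStrictFDerivAt (by norm_num)) (hi x hx) hK
  have hK' : (1 : ℝ) < K := by exact_mod_cast hK
  have hc : ContinuousAt (fun y => J (fderiv ℝ f y)) x :=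
    hJ.cont.continuousAt.comp
      ((hf.continuousOn_fderiv_of_isOpen hO le_rfl).continuousAt (hO.mem_nhds hx))
  have hp := hJ.pos _ (hi x hx)
  set J₀ := J (fderiv ℝ f x) with hJ₀
  have e1 : ∀ᶠ y in 𝓝 x, J (fderiv ℝ f y) < K * J₀ :=
    hc.eventually (gt_mem_nhds (by nlinarith))
  have e2 : ∀ᶠ y in 𝓝 x, J₀ / K < J (fderiv ℝ f y) :=
    hc.eventually (lt_mem_nhds (by rw [div_lt_iff₀ (by linarith)]; nlinarith))
  refine ⟨_, inter_mem ht (e1.and e2), fun s hs hsm => ⟨?_, ?_⟩⟩
  · have a1 := img_le (f := f) (L := fderiv ℝ f x) (t := s) (K := K)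
      (fun a ha b hb => h1 a (hs ha).1 b (hs hb).1) hJ.nonneg
    rw [hJ.image _ (hi x hx)] at a1
    refine a1.trans ?_
    rw [mul_assoc]
    refine mul_le_mul_right ?_ _
    rw [← setLIntegral_const, ← lintegral_const_mul' _ _ ENNReal.coe_ne_top]
    refine setLIntegral_mono' hsm fun y hy => ?_
    have a2 : J₀ ≤ K * J (fderiv ℝ f y) := by
      have := (hs hy).2.2
      rw [div_lt_iff₀ (by linarith)] at this
      linarith
    calc ENNReal.ofReal J₀ ≤ ENNReal.ofReal (K * J (fderiv ℝ f y)) := ENNReal.ofReal_le_ofReal a2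
      _ = _ := by rw [ENNReal.ofReal_mul K.coe_nonneg, ENNReal.ofReal_coe_nnreal]
  · have a1 := img_le (f := fderiv ℝ f x) (L := f) (t := s) (K := K)
      (fun a ha b hb => h2 a (hs ha).1 b (hs hb).1) hJ.nonneg
    rw [hJ.image _ (hi x hx)] at a1
    calc ∫⁻ y in s, ENNReal.ofReal (J (fderiv ℝ f y)) ∂μ
        ≤ ∫⁻ y in s, (K : ℝ≥0∞) * ENNReal.ofReal J₀ ∂μ := by
          refine setLIntegral_mono' hsm fun y hy => ?_
          rw [← ENNReal.ofReal_coe_nnreal, ← ENNReal.ofReal_mul K.coe_nonneg]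
          exact ENNReal.ofReal_le_ofReal (hs hy).2.1.le
      _ = K * (ENNReal.ofReal J₀ * μ s) := by rw [setLIntegral_const, mul_assoc]
      _ ≤ K * ((K : ℝ≥0∞) ^ d * μH[d] (f '' s)) := by gcongr
      _ = _ := by ring

/-- a countable measurable partition subordinate to neighbourhoods -/
lemma exists_partition {X : Type*} [TopologicalSpace X] [SecondCountableTopology X]
    [MeasurableSpace X] [OpensMeasurableSpace X] {O : Set X} {t : X → Set X}
    (ht : ∀ x ∈ O, t x ∈ 𝓝 x) :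
    ∃ A : ℕ → Set X, (∀ n, MeasurableSet (A n)) ∧ Pairwise (Function.onFun Disjoint A) ∧
      O ⊆ ⋃ n, A n ∧ ∀ n, A n = ∅ ∨ ∃ x ∈ O, A n ⊆ t x := by
  obtain ⟨c, hcO, hcc, hcov⟩ := TopologicalSpace.countable_cover_nhdsWithin
    (s := O) (f := fun x => interior (t x))
    (fun x hx => mem_nhdsWithin_of_mem_nhds (interior_mem_nhds.2 (ht x hx)))
  rcases c.eq_empty_or_nonempty with rfl | hne
  · refine ⟨fun _ => ∅, fun _ => MeasurableSet.empty, fun _ _ _ => by simp [Function.onFun], ?_,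
      fun _ => Or.inl rfl⟩
    simpa using hcov
  obtain ⟨u, hu⟩ := hcc.exists_eq_range hne
  refine ⟨disjointed fun n => interior (t (u n)),
    MeasurableSet.disjointed fun n => isOpen_interior.measurableSet, disjoint_disjointed _, ?_,
    fun n => Or.inr ⟨u n, hcO (hu ▸ mem_range_self n),
      (disjointed_subset _ n).trans interior_subset⟩⟩
  rw [iUnion_disjointed]
  intro x hx
  obtain ⟨y, hy, hxy⟩ := mem_iUnion₂.1 (hcov hx)
  rw [hu] at hy
  obtain ⟨n, rfl⟩ := hy
  exact mem_iUnion.2 ⟨n, hxy⟩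

variable [FiniteDimensional ℝ V]

lemma measurableSet_image (hf : ContinuousOn f O) {s : Set D} (hs : MeasurableSet s) (hsO : s ⊆ O)
    (hinj : InjOn f s) : MeasurableSet (f '' s) :=
  hs.image_of_continuousOn_injOn (hf.mono hsO) hinj

/-- **Area formula**, for sets. -/
theorem IsJac.measure_image (hJ : IsJac μ d J) (hO : IsOpen O) (hf : ContDiffOn ℝ 1 f O)
    (hi : ∀ x ∈ O, Function.Injective (fderiv ℝ f x)) {s : Set D} (hs : MeasurableSet s)
    (hsO : s ⊆ O) (hinj : InjOn f s) :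
    μH[d] (f '' s) = ∫⁻ y in s, ENNReal.ofReal (J (fderiv ℝ f y)) ∂μ := by
  have key : ∀ K : ℝ≥0, 1 < K →
      μH[d] (f '' s) ≤ (K : ℝ≥0∞) ^ d * K * ∫⁻ y in s, ENNReal.ofReal (J (fderiv ℝ f y)) ∂μ ∧
      ∫⁻ y in s, ENNReal.ofReal (J (fderiv ℝ f y)) ∂μ ≤ (K : ℝ≥0∞) ^ d * K * μH[d] (f '' s) := by
    intro K hK
    choose! t ht hP using fun x (hx : x ∈ O) => hJ.loc hO hf hi hK hx
    obtain ⟨A, hAm, hAd, hAc, hAt⟩ := exists_partition ht
    have hs' : s = ⋃ n, s ∩ A n := by
      rw [← inter_iUnion, inter_eq_left.2 (hsO.trans hAc)]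
    have hm : ∀ n, MeasurableSet (s ∩ A n) := fun n => hs.inter (hAm n)
    have hd : Pairwise (Function.onFun Disjoint fun n => s ∩ A n) := fun i j hij =>
      (hAd hij).mono inter_subset_right inter_subset_right
    have hP' : ∀ n, μH[d] (f '' (s ∩ A n)) ≤ (K : ℝ≥0∞) ^ d * K *
          ∫⁻ y in s ∩ A n, ENNReal.ofReal (J (fderiv ℝ f y)) ∂μ ∧
        ∫⁻ y in s ∩ A n, ENNReal.ofReal (J (fderiv ℝ f y)) ∂μ
          ≤ (K : ℝ≥0∞) ^ d * K * μH[d] (f '' (s ∩ A n)) := by
      intro n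
      rcases hAt n with h0 | ⟨x, hx, hxt⟩
      · simp [h0]
      · exact hP x hx _ (inter_subset_right.trans hxt) (hm n)
    have e1 : ∫⁻ y in s, ENNReal.ofReal (J (fderiv ℝ f y)) ∂μ
        = ∑' n, ∫⁻ y in s ∩ A n, ENNReal.ofReal (J (fderiv ℝ f y)) ∂μ := by
      conv_lhs => rw [hs']
      exact lintegral_iUnion hm hd _
    have e2 : μH[d] (f '' s) = ∑' n, μH[d] (f '' (s ∩ A n)) := by
      conv_lhs => rw [hs', image_iUnion]
      refine measure_iUnion (fun i j hij => ?_) fun n =>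
        measurableSet_image hf.continuousOn (hm n) (inter_subset_left.trans hsO)
          (hinj.mono inter_subset_left)
      exact (hd hij).image hinj inter_subset_left inter_subset_left
    rw [e1, e2, ← ENNReal.tsum_mul_left, ← ENNReal.tsum_mul_left]
    exact ⟨ENNReal.tsum_le_tsum fun n => (hP' n).1, ENNReal.tsum_le_tsum fun n => (hP' n).2⟩
  exact le_antisymm (le_of_forall_pow fun K hK => (key K hK).1)
    (le_of_forall_pow fun K hK => (key K hK).2)

lemma IsJac.aemeas (hJ : IsJac μ d J) (hO : IsOpen O) (hf : ContDiffOn ℝ 1 f O) {s : Set D}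
    (hs : MeasurableSet s) (hsO : s ⊆ O) :
    AEMeasurable (fun y => J (fderiv ℝ f y)) (μ.restrict s) := by
  have h1 : ContinuousOn (fun y => J (fderiv ℝ f y)) O :=
    hJ.cont.comp_continuousOn (hf.continuousOn_fderiv_of_isOpen hO le_rfl)
  exact (h1.mono hsO).aemeasurable hs

lemma measurableEmbedding_restrict (hf : ContinuousOn f O) {s : Set D} (hs : MeasurableSet s)
    (hsO : s ⊆ O) (hinj : InjOn f s) : MeasurableEmbedding (s.domRestrict f) :=
  (hf.mono hsO).measurableEmbedding hs hinj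

/-- **Area formula**, for measures. -/
theorem IsJac.restrict_image (hJ : IsJac μ d J) (hO : IsOpen O) (hf : ContDiffOn ℝ 1 f O)
    (hi : ∀ x ∈ O, Function.Injective (fderiv ℝ f x)) {s : Set D} (hs : MeasurableSet s)
    (hsO : s ⊆ O) (hinj : InjOn f s) :
    Measure.map (s.domRestrict f)
      (Measure.comap (↑) (μ.withDensity fun y => ENNReal.ofReal (J (fderiv ℝ f y))))
      = (μH[d] : Measure V).restrict (f '' s) := by
  have he := measurableEmbedding_restrict hf.continuousOn hs hsO hinj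
  refine Measure.ext fun B hB => ?_
  have h1 : MeasurableSet (s.domRestrict f ⁻¹' B) := he.measurable hB
  have h2 : MeasurableSet (Subtype.val '' (s.domRestrict f ⁻¹' B)) :=
    (MeasurableEmbedding.subtype_coe hs).measurableSet_image' h1
  have h3 : Subtype.val '' (s.domRestrict f ⁻¹' B) = f ⁻¹' B ∩ s := by
    ext y
    constructor
    · rintro ⟨z, hz, rfl⟩
      exact ⟨hz, z.2⟩
    · rintro ⟨h1, h2⟩
      exact ⟨⟨y, h2⟩, h1, rfl⟩
  rw [Measure.map_apply he.measurable hB, (MeasurableEmbedding.subtype_coe hs).comap_apply,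
    withDensity_apply _ h2, Measure.restrict_apply hB, h3]
  rw [h3] at h2
  rw [← hJ.measure_image hO hf hi h2 (inter_subset_right.trans hsO)
    (hinj.mono inter_subset_right), image_preimage_inter]

/-- **Area formula**, for Lebesgue integrals. -/
theorem IsJac.lintegral_image (hJ : IsJac μ d J) (hO : IsOpen O) (hf : ContDiffOn ℝ 1 f O)
    (hi : ∀ x ∈ O, Function.Injective (fderiv ℝ f x)) {s : Set D} (hs : MeasurableSet s)
    (hsO : s ⊆ O) (hinj : InjOn f s) (g : V → ℝ≥0∞) :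
    ∫⁻ x in f '' s, g x ∂μH[d] = ∫⁻ y in s, ENNReal.ofReal (J (fderiv ℝ f y)) * g (f y) ∂μ := by
  rw [← hJ.restrict_image hO hf hi hs hsO hinj,
    (measurableEmbedding_restrict hf.continuousOn hs hsO hinj).lintegral_map]
  simp only [Set.domRestrict_apply, ← Function.comp_apply (f := g)]
  rw [← (MeasurableEmbedding.subtype_coe hs).lintegral_map, map_comap_subtype_coe hs,
    setLIntegral_withDensity_eq_setLIntegral_mul_non_measurable₀ _ _ _ hs]
  · simp only [Pi.mul_apply]
  · simp only [eventually_true, ENNReal.ofReal_lt_top]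
  · exact ENNReal.measurable_ofReal.comp_aemeasurable (hJ.aemeas hO hf hs hsO)

variable {F : Type*} [NormedAddCommGroup F] [NormedSpace ℝ F]

/-- **Area formula**, integrability. -/
theorem IsJac.integrableOn_image (hJ : IsJac μ d J) (hO : IsOpen O) (hf : ContDiffOn ℝ 1 f O)
    (hi : ∀ x ∈ O, Function.Injective (fderiv ℝ f x)) {s : Set D} (hs : MeasurableSet s)
    (hsO : s ⊆ O) (hinj : InjOn f s) (g : V → F) :
    IntegrableOn g (f '' s) μH[d] ↔ IntegrableOn (fun y => J (fderiv ℝ f y) • g (f y)) s μ := by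
  rw [IntegrableOn, ← hJ.restrict_image hO hf hi hs hsO hinj,
    (measurableEmbedding_restrict hf.continuousOn hs hsO hinj).integrable_map_iff]
  simp only [Set.domRestrict_eq, ← Function.comp_assoc, ENNReal.ofReal]
  rw [← (MeasurableEmbedding.subtype_coe hs).integrable_map_iff, map_comap_subtype_coe hs,
    restrict_withDensity hs, integrable_withDensity_iff_integrable_coe_smul₀]
  · refine integrableOn_congr_fun (fun y hy => ?_) hs
    simp only [Function.comp_apply]
    rw [Real.coe_toNNReal _ (hJ.pos _ (hi y (hsO hy))).le]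
  · exact measurable_real_toNNReal.comp_aemeasurable (hJ.aemeas hO hf hs hsO)

/-- **Area formula**, for Bochner integrals. -/
theorem IsJac.integral_image (hJ : IsJac μ d J) (hO : IsOpen O) (hf : ContDiffOn ℝ 1 f O)
    (hi : ∀ x ∈ O, Function.Injective (fderiv ℝ f x)) {s : Set D} (hs : MeasurableSet s)
    (hsO : s ⊆ O) (hinj : InjOn f s) (g : V → F) :
    ∫ x in f '' s, g x ∂μH[d] = ∫ y in s, J (fderiv ℝ f y) • g (f y) ∂μ := by
  rw [← hJ.restrict_image hO hf hi hs hsO hinj,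
    (measurableEmbedding_restrict hf.continuousOn hs hsO hinj).integral_map]
  simp only [Set.domRestrict_apply, ← Function.comp_apply (f := g), ENNReal.ofReal]
  rw [← (MeasurableEmbedding.subtype_coe hs).integral_map, map_comap_subtype_coe hs,
    setIntegral_withDensity_eq_setIntegral_smul₀ (f := fun y => (J (fderiv ℝ f y)).toNNReal)
      (measurable_real_toNNReal.comp_aemeasurable (hJ.aemeas hO hf hs hsO)) _ hs]
  refine setIntegral_congr_fun hs fun y hy => ?_
  simp only [Function.comp_apply]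
  rw [NNReal.smul_def, Real.coe_toNNReal _ (hJ.pos _ (hi y (hsO hy))).le]

end Vale.Agent.P218GA
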