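import Vale.Agent.P218GA.Split
import Mathlib.Analysis.Calculus.Gradient.Basic
import Mathlib.Analysis.Calculus.InverseFunctionTheorem.ContDiff
import Mathlib.Topology.PartitionOfUnity

/-! Straightening charts of a level set `{w = 0}` and integrals in them. -/

open MeasureTheory Set Filter Topology Metric Module
open scoped ENNReal NNReal RealInnerProductSpace

namespace Vale.Agent.P218GA

set_option linter.unusedSectionVars false

variable {E : Type*} [NormedAddCommGroup E] [InnerProductSpace ℝ E] [FiniteDimensional ℝ E]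

lemma inner_grad (w : E → ℝ) (x v : E) : ⟪gradient w x, v⟫ = fderiv ℝ w x v := inner_gradient_left

lemma continuous_gradient {w : E → ℝ} (hw : ContDiff ℝ 1 w) : Continuous (gradient w) :=
  (InnerProductSpace.toDual ℝ E).symm.continuous.comp (hw.continuous_fderiv (by norm_num))

/-- a chart in which `w` is the first coordinate -/
structure IsChart (w : E → ℝ) (ν₀ : E) (Θ : OpenPartialHomeomorph E (ℝ × hyp ν₀)) : Prop where
  unit : ‖ν₀‖ = 1
  fst : ∀ x, (Θ x).1 = w x
  snd : ∀ x, (Θ x).2 = (crd ν₀ x).2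
  cd : ContDiffOn ℝ 1 Θ.symm Θ.target
  inj : ∀ z ∈ Θ.target, Function.Injective (fderiv ℝ Θ.symm z)
  hgt : ∀ z ∈ Θ.target, ∀ v, ⟪gradient w (Θ.symm z), fderiv ℝ Θ.symm z v⟫ = v.1

theorem exists_chart {w : E → ℝ} (hw : ContDiff ℝ 1 w) {p : E} (hp : ‖gradient w p‖ = 1) :
    ∃ Θ : OpenPartialHomeomorph E (ℝ × hyp (gradient w p)), p ∈ Θ.source ∧
      IsChart w (gradient w p) Θ := by
  set ν₀ := gradient w p with hν₀
  set f : E → ℝ × hyp ν₀ := fun x => (w x, (crd ν₀ x).2) with hf
  set D : E → E →L[ℝ] ℝ × hyp ν₀ := fun x =>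
    (fderiv ℝ w x).prod (hyp ν₀).orthogonalProjectionOnto with hD
  have hfd : ∀ x, HasFDerivAt f (D x) x := fun x =>
    ((hw.differentiable (by norm_num)) x).hasFDerivAt.prodMk
      (hyp ν₀).orthogonalProjectionOnto.hasFDerivAt
  have hfc : ContDiff ℝ 1 f := hw.prodMk (hyp ν₀).orthogonalProjectionOnto.contDiff
  have hDp : D p = (crdE hp : E →L[ℝ] ℝ × hyp ν₀) := by
    ext v
    · exact (inner_grad w p v).symm
    · rfl
  have hO : IsOpen {x | 0 < ⟪gradient w x, ν₀⟫} :=
    isOpen_lt continuous_const ((continuous_gradient hw).inner continuous_const)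
  have hequiv : ∀ x, 0 < ⟪gradient w x, ν₀⟫ → ∃ e : E ≃L[ℝ] ℝ × hyp ν₀,
      (e : E →L[ℝ] ℝ × hyp ν₀) = D x := by
    intro x hx
    have hinj : Function.Injective (D x : E →ₗ[ℝ] ℝ × hyp ν₀) := by
      rw [injective_iff_map_eq_zero]
      intro v hv
      have h1 : fderiv ℝ w x v = 0 := congrArg Prod.fst hv
      have h2 : (crd ν₀ v).2 = 0 := congrArg Prod.snd hv
      have h3 := spl_crd hp v
      rw [spl_apply, h2, Submodule.coe_zero, add_zero] at h3
      rw [← inner_grad, ← h3, real_inner_smul_right] at h1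
      rw [← h3, (mul_eq_zero.1 h1).resolve_right hx.ne', zero_smul]
    refine ⟨(LinearMap.linearEquivOfInjective _ hinj
      (crdE hp).toLinearEquiv.finrank_eq).toContinuousLinearEquiv, ?_⟩
    ext v <;> rfl
  set Θ₀ := hfc.contDiffAt.toOpenPartialHomeomorph f (hDp ▸ hfd p) (by norm_num) with hΘ₀
  refine ⟨Θ₀.restrOpen _ hO, ⟨hfc.contDiffAt.mem_toOpenPartialHomeomorph_source _ _, ?_⟩, ?_⟩
  · change 0 < ⟪ν₀, ν₀⟫
    rw [real_inner_self_eq_norm_sq, hp]; norm_num
  set Θ := Θ₀.restrOpen _ hO with hΘ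
  have hc : (Θ : E → ℝ × hyp ν₀) = f := rfl
  have key : ∀ z ∈ Θ.target, ∃ e : E ≃L[ℝ] ℝ × hyp ν₀,
      (e : E →L[ℝ] ℝ × hyp ν₀) = D (Θ.symm z) ∧ HasFDerivAt Θ (e : E →L[ℝ] ℝ × hyp ν₀) (Θ.symm z) := by
    intro z hz
    obtain ⟨e, he⟩ := hequiv _ (Θ.map_target hz).2
    exact ⟨e, he, by rw [he, hc]; exact hfd _⟩
  refine ⟨hp, fun x => rfl, fun x => rfl, fun z hz => ?_, fun z hz => ?_, fun z hz v => ?_⟩
  · obtain ⟨e, -, he⟩ := key z hz
    exact (Θ.contDiffAt_symm hz he (hc ▸ hfc.contDiffAt)).contDiffWithinAt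
  · obtain ⟨e, -, he⟩ := key z hz
    rw [(Θ.hasFDerivAt_symm hz he).fderiv]
    exact e.symm.injective
  · obtain ⟨e, he', he⟩ := key z hz
    rw [(Θ.hasFDerivAt_symm hz he).fderiv, inner_grad]
    have h1 : (D (Θ.symm z) (e.symm v)).1 = v.1 := by
      rw [← he']
      simp
    exact h1

/-- properties of compactly supported functions which are additive and local -/
theorem of_local {X : Type*} [TopologicalSpace X] [T2Space X] [LocallyCompactSpace X]
    {P : (X → ℝ) → Prop} (h0 : P fun _ => 0)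
    (hadd : ∀ g g' : X → ℝ, P g → P g' → P fun x => g x + g' x)
    (hloc : ∀ p : X, ∃ U ∈ 𝓝 p, ∀ g : X → ℝ, Continuous g → HasCompactSupport g →
      tsupport g ⊆ U → P g) {g : X → ℝ} (hg : Continuous g) (hgc : HasCompactSupport g) : P g := by
  choose U hU hP using hloc
  obtain ⟨t, -, ht⟩ := hgc.isCompact.elim_nhds_subcover (fun p => interior (U p))
    fun p _ => interior_mem_nhds.2 (hU p)
  obtain ⟨f, hf1, hf2, -, hf4⟩ := exists_continuous_sum_one_of_isOpen_isCompact
    (n := t.card) (t := tsupport g) (s := fun i => interior (U (t.equivFin.symm i)))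
    (fun i => isOpen_interior) hgc.isCompact (fun x hx => by
      obtain ⟨p, hp, hxp⟩ := mem_iUnion₂.1 (ht hx)
      exact mem_iUnion.2 ⟨t.equivFin ⟨p, hp⟩, by simpa using hxp⟩)
  have hsum : ∀ s : Finset (Fin t.card), P fun x => ∑ i ∈ s, f i x * g x := by
    intro s
    induction s using Finset.induction_on with
    | empty => simpa using h0
    | insert i s hi ih =>
      simp only [Finset.sum_insert hi]
      refine hadd _ _ (hP (t.equivFin.symm i) _ ((f i).continuous.mul hg) (hf4 i).mul_right ?_) ih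
      exact (tsupport_mul_subset_left.trans (hf1 i)).trans interior_subset
  have e : g = fun x => ∑ i, f i x * g x := by
    ext x
    rw [← Finset.sum_mul]
    by_cases hx : x ∈ tsupport g
    · have := hf2 hx
      simp only [Finset.sum_apply, Pi.one_apply] at this
      rw [this, one_mul]
    · rw [image_eq_zero_of_notMem_tsupport hx, mul_zero]
  rw [e]
  exact hsum _

variable [MeasurableSpace E] [BorelSpace E]
variable {m : ℕ} {w : E → ℝ} {ν₀ : E} {Θ : OpenPartialHomeomorph E (ℝ × hyp ν₀)}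

/-- the parameter domain of the level set -/
def dom0 (Θ : OpenPartialHomeomorph E (ℝ × hyp ν₀)) : Set (hyp ν₀) := {q | (0, q) ∈ Θ.target}

/-- the parametrisation of the level set -/
def par0 (Θ : OpenPartialHomeomorph E (ℝ × hyp ν₀)) (q : hyp ν₀) : E := Θ.symm (0, q)

lemma isOpen_dom0 : IsOpen (dom0 Θ) :=
  Θ.open_target.preimage (continuous_const.prodMk continuous_id)

namespace IsChart

variable (h : IsChart w ν₀ Θ)
include h

lemma w_symm {z : ℝ × hyp ν₀} (hz : z ∈ Θ.target) : w (Θ.symm z) = z.1 := by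
  rw [← h.fst, Θ.right_inv hz]

lemma image_par0 {K : Set E} (hK : K ⊆ Θ.source) :
    par0 Θ '' {q | (0, q) ∈ Θ '' K} = {x | w x = 0} ∩ K := by
  ext x
  constructor
  · rintro ⟨q, ⟨y, hy, hyq⟩, rfl⟩
    have e : par0 Θ q = y := by rw [par0, ← hyq, Θ.left_inv (hK hy)]
    rw [e]
    refine ⟨?_, hy⟩
    change w y = 0
    rw [← h.fst, hyq]
  · rintro ⟨hx, hxK⟩
    have e : Θ x = (0, (Θ x).2) := Prod.ext (by rw [h.fst]; exact hx) rfl
    refine ⟨(Θ x).2, ⟨x, hxK, e⟩, ?_⟩
    rw [par0, ← e, Θ.left_inv (hK hxK)]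

lemma cd_par0 : ContDiffOn ℝ 1 (par0 Θ) (dom0 Θ) :=
  h.cd.comp (contDiff_const.prodMk contDiff_id).contDiffOn fun _ hq => hq

lemma fderiv_par0 {q : hyp ν₀} (hq : q ∈ dom0 Θ) : fderiv ℝ (par0 Θ) q
    = (fderiv ℝ Θ.symm (0, q)).comp (ContinuousLinearMap.inr ℝ ℝ (hyp ν₀)) := by
  have h1 : DifferentiableAt ℝ Θ.symm (0, q) :=
    (h.cd.contDiffAt (Θ.open_target.mem_nhds hq)).differentiableAt (by norm_num)
  exact (h1.hasFDerivAt.comp q (hasFDerivAt_prodMk_right (0 : ℝ) q)).fderiv

lemma inj_par0 {q : hyp ν₀} (hq : q ∈ dom0 Θ) : Function.Injective (fderiv ℝ (par0 Θ) q) := by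
  rw [h.fderiv_par0 hq]
  exact (h.inj _ hq).comp (Prod.mk_right_injective 0)

lemma injOn_par0 : InjOn (par0 Θ) (dom0 Θ) := fun _ hq _ hq' e =>
  (Prod.ext_iff.1 (Θ.symm.injOn hq hq' e)).2

lemma finrank_eq (hE : finrank ℝ E = m + 1) : finrank ℝ (hyp ν₀) = m :=
  finrank_hyp hE (by rintro rfl; simpa using h.unit)

/-- compact parts of the level set have finite area -/
lemma measure_lt_top (hE : finrank ℝ E = m + 1) {K : Set E} (hK : IsCompact K)
    (hKs : K ⊆ Θ.source) : μH[m] ({x | w x = 0} ∩ K) < ⊤ := by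
  set s : Set (hyp ν₀) := {q | (0, q) ∈ Θ '' K} with hs
  have hsc : IsCompact s := by
    have h1 : IsCompact (Θ '' K) := hK.image_of_continuousOn (Θ.continuousOn.mono hKs)
    exact (h1.image continuous_snd).of_isClosed_subset
      (h1.isClosed.preimage (continuous_const.prodMk continuous_id))
      fun q hq => ⟨_, hq, rfl⟩
  have hsd : s ⊆ dom0 Θ := by
    rintro q ⟨y, hy, hyq⟩
    change (0, q) ∈ Θ.target
    rw [← hyq]
    exact Θ.map_source (hKs hy)
  have hJ := isJac_volume (U := hyp ν₀) (V := E) (h.finrank_eq hE)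
  rw [← h.image_par0 hKs, hJ.measure_image isOpen_dom0 h.cd_par0 (fun q hq => h.inj_par0 hq)
    hsc.measurableSet hsd (h.injOn_par0.mono hsd)]
  have h1 : ContinuousOn (fun q => cH m * ((fderiv ℝ (par0 Θ) q : hyp ν₀ →L[ℝ] E) :
      hyp ν₀ →ₗ[ℝ] E).normDet) s :=
    (hJ.cont.comp_continuousOn
      (h.cd_par0.continuousOn_fderiv_of_isOpen isOpen_dom0 le_rfl)).mono hsd
  exact (h1.integrableOn_compact hsc).lintegral_lt_top

/-- the density of a function in the chart -/
noncomputable def den (m : ℕ) (Θ : OpenPartialHomeomorph E (ℝ × hyp ν₀)) (g : E → ℝ) :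
    ℝ × hyp ν₀ → ℝ :=
  Θ.target.indicator fun z => jacS m ν₀ (fderiv ℝ Θ.symm z) * g (Θ.symm z)

lemma den_support {g : E → ℝ} (hgc : HasCompactSupport g) (hgs : tsupport g ⊆ Θ.source) :
    tsupport (den m Θ g) ⊆ Θ '' tsupport g := by
  have h1 : IsCompact (Θ '' tsupport g) :=
    hgc.isCompact.image_of_continuousOn (Θ.continuousOn.mono hgs)
  refine closure_minimal (fun z hz => ?_) h1.isClosed
  by_cases hzt : z ∈ Θ.target
  · rw [Function.mem_support, den, indicator_of_mem hzt] at hz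
    exact ⟨Θ.symm z, subset_tsupport _ (right_ne_zero_of_mul hz), Θ.right_inv hzt⟩
  · rw [Function.mem_support, den, indicator_of_notMem hzt] at hz
    exact absurd rfl hz

lemma den_compact {g : E → ℝ} (hgc : HasCompactSupport g) (hgs : tsupport g ⊆ Θ.source) :
    HasCompactSupport (den m Θ g) :=
  (hgc.isCompact.image_of_continuousOn (Θ.continuousOn.mono hgs)).of_isClosed_subset
    (isClosed_tsupport _) (h.den_support hgc hgs)

lemma den_cont (hE : finrank ℝ E = m + 1) {g : E → ℝ} (hg : Continuous g)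
    (hgc : HasCompactSupport g) (hgs : tsupport g ⊆ Θ.source) : Continuous (den m Θ g) := by
  refine ContinuousOn.continuous_of_tsupport_subset ?_ Θ.open_target
    ((h.den_support hgc hgs).trans ?_)
  · have h1 : ContinuousOn (fun z => jacS m ν₀ (fderiv ℝ Θ.symm z) * g (Θ.symm z)) Θ.target :=
      ((isJac_split hE h.unit).cont.comp_continuousOn
        (h.cd.continuousOn_fderiv_of_isOpen Θ.open_target le_rfl)).mul
        (hg.comp_continuousOn Θ.continuousOn_symm)
    exact h1.congr fun z hz => indicator_of_mem hz _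
  · rintro _ ⟨y, hy, rfl⟩
    exact Θ.map_source (hgs hy)

/-- volume integrals in the chart -/
lemma integral_vol (hE : finrank ℝ E = m + 1) {g : E → ℝ} (hgs : tsupport g ⊆ Θ.source)
    (k : ℝ → ℝ) :
    cH (m + 1) * ∫ x, g x * k (w x) = ∫ z, den m Θ g z * k z.1 := by
  have h1 := (isJac_split hE h.unit).integral_image Θ.open_target h.cd h.inj
    Θ.open_target.measurableSet Subset.rfl Θ.symm.injOn (fun x => g x * k (w x))
  have h2 : Θ.symm '' Θ.target = Θ.source := Θ.toPartialEquiv.symm_image_target_eq_source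
  rw [h2, setIntegral_eq_integral_of_forall_compl_eq_zero (fun x hx => by
    rw [image_eq_zero_of_notMem_tsupport fun h' => hx (hgs h'), zero_mul]),
    hausdorff_eq_smul, ← hE, InnerProductSpace.euclideanHausdorffMeasure_eq_volume, hE,
    integral_smul_nnreal_measure, NNReal.smul_def, smul_eq_mul] at h1
  rw [h1, ← integral_indicator Θ.open_target.measurableSet]
  congr 1
  ext z
  by_cases hz : z ∈ Θ.target
  · rw [den, indicator_of_mem hz, indicator_of_mem hz, h.w_symm hz, smul_eq_mul, mul_assoc]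
  · rw [den, indicator_of_notMem hz, indicator_of_notMem hz, zero_mul]

/-- surface integrals in the chart -/
lemma integral_surf (hE : finrank ℝ E = m + 1) (h1 : ∀ x, w x = 0 → ‖gradient w x‖ = 1)
    {g : E → ℝ} (hgs : tsupport g ⊆ Θ.source) (hw : Continuous w) :
    cH (m + 1) * ∫ x in {x | w x = 0}, g x ∂μH[m] = cH m * ∫ q, den m Θ g (0, q) := by
  have hJ := isJac_volume (U := hyp ν₀) (V := E) (h.finrank_eq hE)
  have h2 := hJ.integral_image isOpen_dom0 h.cd_par0 (fun q hq => h.inj_par0 hq)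
    isOpen_dom0.measurableSet Subset.rfl h.injOn_par0 g
  have h3 : par0 Θ '' dom0 Θ = {x | w x = 0} ∩ Θ.source := by
    rw [← h.image_par0 Subset.rfl, Θ.image_source_eq_target]
    rfl
  have hS : MeasurableSet {x | w x = 0} := (isClosed_eq hw continuous_const).measurableSet
  have h4 : ∫ x in {x | w x = 0}, g x ∂μH[m] = ∫ x in {x | w x = 0} ∩ Θ.source, g x ∂μH[m] :=
    setIntegral_eq_of_subset_of_forall_sdiff_eq_zero hS inter_subset_left fun x hx =>
      image_eq_zero_of_notMem_tsupport fun h' => hx.2 ⟨hx.1, hgs h'⟩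
  rw [h4, ← h3, h2, ← integral_indicator isOpen_dom0.measurableSet, ← integral_const_mul,
    ← integral_const_mul]
  congr 1
  ext q
  by_cases hq : q ∈ dom0 Θ
  · have hq' : (0, q) ∈ Θ.target := hq
    rw [den, indicator_of_mem hq, indicator_of_mem hq', h.fderiv_par0 hq,
      jacS_eq hE h.unit (h1 _ (h.w_symm hq')) (h.inj _ hq') (h.hgt _ hq'), smul_eq_mul, par0]
    ring
  · have hq' : (0, q) ∉ Θ.target := hq
    rw [den, indicator_of_notMem hq, indicator_of_notMem hq', mul_zero, mul_zero]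

end IsChart

end Vale.Agent.P218GA
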