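import Vale.Agent.P218GA.Tan
import Vale.Agent.P218.H313.WFV

/-! Uniform area bounds and Gaussian moments for surfaces with a uniform tube. -/

open MeasureTheory Set Filter Topology Metric Module
open scoped ENNReal NNReal RealInnerProductSpace

namespace Vale.Agent.P218GA

set_option linter.unusedSectionVars false

open Vale.Agent.P214 (proj)
open Vale.Agent.P218.H63 (lap)
open Vale.Agent.P218.H313 (GSlice vel rho)

lemma integral_aid {ε : ℝ} (hε : 0 < ε) : ∫ t, aid eta ε t = 1 := by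
  simp only [aid]
  rw [integral_const_mul, Measure.integral_comp_div, integral_eta, abs_of_pos hε, smul_eq_mul,
    mul_one, inv_mul_cancel₀ hε.ne']

lemma aid_compact {ε : ℝ} (hε : 0 < ε) : HasCompactSupport (aid eta ε) :=
  HasCompactSupport.intro (isCompact_closedBall 0 ε) fun t ht => aid_zero hε (by
    rwa [mem_closedBall_zero_iff, not_le, Real.norm_eq_abs] at ht)

/-- the primitive of the approximate identity -/
noncomputable def prim (ε t : ℝ) : ℝ := ∫ s in (0 : ℝ)..t, aid eta ε s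

lemma deriv_prim (ε t : ℝ) : deriv (prim ε) t = aid eta ε t :=
  (contDiff_aid ε).continuous.deriv_integral _ _ _

lemma contDiff_prim (ε : ℝ) : ContDiff ℝ 1 (prim ε) := by
  rw [contDiff_one_iff_deriv, funext (deriv_prim ε)]
  exact ⟨intervalIntegral.differentiable_integral_of_continuous (contDiff_aid ε).continuous,
    (contDiff_aid ε).continuous⟩

lemma abs_prim_le {ε : ℝ} (hε : 0 < ε) (t : ℝ) : |prim ε t| ≤ 1 := by
  refine (intervalIntegral.norm_integral_le_integral_norm_uIoc (f := aid eta ε)).trans ?_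
  rw [← integral_aid hε]
  simp only [Real.norm_eq_abs, abs_of_nonneg (aid_nonneg hε _)]
  exact setIntegral_le_integral
    ((contDiff_aid ε).continuous.integrable_of_hasCompactSupport (aid_compact hε))
    (Eventually.of_forall (aid_nonneg hε))

/-- a cutoff function -/
lemma exists_cutoff {δ : ℝ} (hδ : 0 < δ) : ∃ (χ : ℝ → ℝ) (K : ℝ), ContDiff ℝ 1 χ ∧
    (∀ t, |χ t| ≤ 1) ∧ (∀ t, |deriv χ t| ≤ K) ∧ (∀ t, |t| ≤ δ / 4 → χ t = 1) ∧
    ∀ t, δ / 2 ≤ |t| → χ t = 0 := by
  let b : ContDiffBump (0 : ℝ) := ⟨δ / 4, δ / 2, by positivity, by linarith⟩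
  have hb : ContDiff ℝ 1 b := b.contDiff
  obtain ⟨K, hK⟩ := (hb.continuous_deriv le_rfl).bounded_above_of_compact_support
    b.hasCompactSupport.deriv
  refine ⟨b, K, hb, fun t => ?_, hK, fun t ht => b.one_of_mem_closedBall ?_,
    fun t ht => b.zero_of_le_dist ?_⟩
  · rw [abs_of_nonneg b.nonneg]; exact b.le_one
  · rwa [mem_closedBall_zero_iff]
  · rwa [dist_zero_right]

variable {E : Type*} [NormedAddCommGroup E] [InnerProductSpace ℝ E] [FiniteDimensional ℝ E]
  [MeasurableSpace E] [BorelSpace E] {m : ℕ}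

/-- **Thin slabs have uniformly bounded mass.** -/
theorem exists_slab_bound (E : Type*) [NormedAddCommGroup E] [InnerProductSpace ℝ E]
    [FiniteDimensional ℝ E] [MeasurableSpace E] [BorelSpace E] {δ : ℝ} (hδ : 0 < δ) (C : ℝ) :
    ∃ K : ℝ, ∀ w : E → ℝ, IsTube w δ C → ∀ ψ : E → ℝ, ContDiff ℝ 1 ψ → HasCompactSupport ψ →
      ∀ ε ∈ Ioo 0 (δ / 4),
        |∫ x, ψ x * aid eta ε (w x)| ≤ ∫ x, (‖fderiv ℝ ψ x‖ + K * |ψ x|) := by
  obtain ⟨χ, K, hχ, hχ1, hχK, hχa, hχb⟩ := exists_cutoff hδ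
  refine ⟨|K| + finrank ℝ E * |C|, fun w h ψ hψ hψc ε hε => ?_⟩
  have hf : ContDiff ℝ 1 fun x => ψ x * χ (w x) := hψ.mul (hχ.comp h.cd1)
  have hfc : HasCompactSupport fun x => ψ x * χ (w x) := hψc.mul_right
  have hX : ContDiff ℝ 1 fun x => (ψ x * χ (w x)) • gradient w x := hf.smul h.cdg
  have hXc : HasCompactSupport fun x => (ψ x * χ (w x)) • gradient w x := hfc.smul_right
  have e := integral_comp_mul_dv h.cd1 (contDiff_prim ε) hX hXc
  have e1 : ∀ x, deriv (prim ε) (w x) * ⟪gradient w x, (ψ x * χ (w x)) • gradient w x⟫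
      = ψ x * aid eta ε (w x) := by
    intro x
    rw [deriv_prim]
    rcases le_or_gt |w x| ε with hx | hx
    · rw [hχa _ (hx.trans hε.2.le), inner_smul_right, real_inner_self_eq_norm_sq,
        h.norm_grad x (by linarith [hε.2])]
      ring
    · rw [aid_zero hε.1 hx, zero_mul, mul_zero]
  simp only [e1] at e
  rw [← abs_neg, ← e]
  rw [← Real.norm_eq_abs]
  refine norm_integral_le_of_norm_le ?_ (Eventually.of_forall fun x => ?_)
  · exact ((hψ.continuous_fderiv one_ne_zero).norm.integrable_of_hasCompactSupport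
      (hψc.fderiv ℝ).norm).add
      ((hψ.continuous.abs.integrable_of_hasCompactSupport hψc.abs).const_mul _)
  have hb : |dv (fun x => (ψ x * χ (w x)) • gradient w x) x|
      ≤ ‖fderiv ℝ ψ x‖ + (|K| + finrank ℝ E * |C|) * |ψ x| := by
    rcases lt_or_ge |w x| δ with hx | hx
    · have d1 := (hψ.differentiable one_ne_zero x).hasFDerivAt
      have d2 := (hχ.differentiable one_ne_zero (w x)).hasDerivAt.comp_hasFDerivAt x
        (h.cd1.differentiable one_ne_zero x).hasFDerivAt
      have d3 : fderiv ℝ (fun x => ψ x * χ (w x)) x = _ := (d1.mul d2).fderiv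
      have g1 : fderiv ℝ w x (gradient w x) = 1 := by
        rw [← inner_grad, real_inner_self_eq_norm_sq, h.norm_grad x hx, one_pow]
      rw [dv_smul (hf.differentiable one_ne_zero x) (h.cdg.differentiable one_ne_zero x), d3,
        ← lap_eq]
      simp only [add_apply, smul_apply, smul_eq_mul,
        Function.comp, g1, mul_one]
      have b1 : |lap w x| ≤ finrank ℝ E * |C| := (h.abs_lap_le hx).trans
        (mul_le_mul_of_nonneg_left (le_abs_self C) (Nat.cast_nonneg _))
      have b2 : |fderiv ℝ ψ x (gradient w x)| ≤ ‖fderiv ℝ ψ x‖ := by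
        simpa [h.norm_grad x hx] using (fderiv ℝ ψ x).le_opNorm (gradient w x)
      have b3 : |ψ x * χ (w x) * lap w x| ≤ |ψ x| * 1 * (finrank ℝ E * |C|) := by
        rw [abs_mul, abs_mul]; gcongr; exact hχ1 _
      have b4 : |ψ x * deriv χ (w x)| ≤ |ψ x| * |K| := by
        rw [abs_mul]
        exact mul_le_mul_of_nonneg_left ((hχK _).trans (le_abs_self K)) (abs_nonneg _)
      have b5 : |χ (w x) * fderiv ℝ ψ x (gradient w x)| ≤ 1 * ‖fderiv ℝ ψ x‖ := by
        rw [abs_mul]; gcongr; exact hχ1 _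
      refine (abs_add_le _ _).trans ((add_le_add_right (abs_add_le _ _) _).trans ?_)
      linarith
    · have h0 : (fun x => (ψ x * χ (w x)) • gradient w x) =ᶠ[𝓝 x] fun _ => 0 := by
        filter_upwards [(isOpen_lt continuous_const h.smooth.continuous.abs).mem_nhds
          (show δ / 2 < |w x| by linarith)] with y hy
        rw [hχb _ (le_of_lt hy), mul_zero, zero_smul]
      rw [dv, h0.fderiv_eq, fderiv_fun_const, Pi.zero_apply,
        ← Vale.Agent.P218.H313.trL_apply, map_zero, abs_zero]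
      positivity
  rw [norm_mul]
  exact (mul_le_of_le_one_left (norm_nonneg _) (abs_prim_le hε.1 _)).trans hb

/-- **Unit balls carry a uniformly bounded area.** -/
theorem exists_area_bound (hE : finrank ℝ E = m + 1) {δ : ℝ} (hδ : 0 < δ) (C : ℝ) :
    ∃ A : ℝ≥0, ∀ w : E → ℝ, IsTube w δ C → ∀ y, area m w (closedBall y 1) ≤ A := by
  obtain ⟨K, hK⟩ := exists_slab_bound E hδ C
  let b : ContDiffBump (0 : E) := ⟨1, 2, one_pos, one_lt_two⟩
  have hb : ContDiff ℝ 1 b := b.contDiff
  refine ⟨(cH m * ∫ x, (‖fderiv ℝ b x‖ + K * |b x|)).toNNReal, fun w h y => ?_⟩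
  have hlf := h.locFin hE
  have hψ : ContDiff ℝ 1 fun x => b (x - y) := hb.comp (contDiff_id.sub contDiff_const)
  have hψc : HasCompactSupport fun x => b (x - y) :=
    b.hasCompactSupport.comp_homeomorph (Homeomorph.subRight y)
  have h1 : ∫ x, b (x - y) ∂(area m w) ≤ cH m * ∫ x, (‖fderiv ℝ b x‖ + K * |b x|) := by
    refine le_of_tendsto (h.slab hE hψ.continuous hψc) ?_
    filter_upwards [Ioo_mem_nhdsGT (show 0 < δ / 4 by positivity)] with ε hε
    refine mul_le_mul_of_nonneg_left ((le_abs_self _).trans ((hK w h _ hψ hψc ε hε).trans ?_))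
      (cH_pos' m).le
    rw [← integral_sub_right_eq_self (fun x => ‖fderiv ℝ b x‖ + K * |b x|) y]
    simp only [fderiv_comp_sub, le_refl]
  refine le_trans ?_ (ENNReal.ofReal_le_ofReal h1)
  rw [ofReal_integral_eq_lintegral_ofReal (hψ.continuous.integrable_of_hasCompactSupport hψc)
    (Eventually.of_forall fun x => b.nonneg), ← lintegral_indicator_one measurableSet_closedBall]
  refine lintegral_mono fun x => ?_
  by_cases hx : x ∈ closedBall y 1
  · rw [indicator_of_mem hx, b.one_of_mem_closedBall (by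
      rwa [mem_closedBall_zero_iff, ← mem_closedBall_iff_norm])]
    simp
  · rw [indicator_of_notMem hx]
    exact zero_le

/-- comparison with the Lebesgue measure -/
lemma lintegral_le_of_ball {μ : Measure E} [SFinite μ] {A : ℝ≥0∞}
    (hA : ∀ y, μ (closedBall y 1) ≤ A) {f F : E → ℝ≥0∞} (hF : Measurable F)
    (h : ∀ x y, ‖x - y‖ ≤ 1 → f x ≤ F y) :
    volume (closedBall (0 : E) 1) * ∫⁻ x, f x ∂μ ≤ A * ∫⁻ y, F y := by
  have hS : MeasurableSet {p : E × E | ‖p.1 - p.2‖ ≤ 1} :=
    (isClosed_le (continuous_fst.sub continuous_snd).norm continuous_const).measurableSet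
  have hG : Measurable ({p : E × E | ‖p.1 - p.2‖ ≤ 1}.indicator fun p => F p.2) :=
    (hF.comp measurable_snd).indicator hS
  calc volume (closedBall (0 : E) 1) * ∫⁻ x, f x ∂μ
      = ∫⁻ x, volume (closedBall (0 : E) 1) * f x ∂μ :=
        (lintegral_const_mul' _ _ (isCompact_closedBall _ _).measure_lt_top.ne).symm
    _ ≤ ∫⁻ x, ∫⁻ y, {p : E × E | ‖p.1 - p.2‖ ≤ 1}.indicator (fun p => F p.2) (x, y) ∂volume ∂μ := by
        refine lintegral_mono fun x => ?_
        rw [← Measure.addHaar_closedBall_center volume x, mul_comm, ← setLIntegral_const,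
          ← lintegral_indicator measurableSet_closedBall]
        refine lintegral_mono fun y => ?_
        by_cases hy : y ∈ closedBall x 1
        · have hy' : ‖x - y‖ ≤ 1 := by rwa [mem_closedBall_iff_norm'] at hy
          rw [indicator_of_mem hy,
            indicator_of_mem (show (x, y) ∈ {p : E × E | ‖p.1 - p.2‖ ≤ 1} from hy')]
          exact h x y hy'
        · rw [indicator_of_notMem hy]
          exact zero_le
    _ = ∫⁻ y, ∫⁻ x, {p : E × E | ‖p.1 - p.2‖ ≤ 1}.indicator (fun p => F p.2) (x, y) ∂μ :=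
        lintegral_lintegral_swap hG.aemeasurable
    _ ≤ ∫⁻ y, F y * A := by
        refine lintegral_mono fun y => ?_
        have e : (fun x => {p : E × E | ‖p.1 - p.2‖ ≤ 1}.indicator (fun p => F p.2) (x, y))
            = (closedBall y 1).indicator fun _ => F y := by
          ext x
          simp only [indicator, mem_ofPred_eq, mem_closedBall_iff_norm]
        rw [e, lintegral_indicator measurableSet_closedBall, setLIntegral_const]
        exact mul_le_mul_right (hA y) _
    _ = A * ∫⁻ y, F y := by rw [lintegral_mul_const _ hF, mul_comm]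

lemma poly_gauss_le {κ : ℝ} (hκ : 0 < κ) (N : ℕ) {t : ℝ} (ht : 0 ≤ t) :
    (2 + t) ^ N * Real.exp (κ - κ * t ^ 2 / 2) ≤ N.factorial * Real.exp (2 + κ + 1 / (2 * κ)) := by
  have h1 := Real.pow_div_factorial_le_exp (2 + t) (by positivity) N
  rw [div_le_iff₀' (by positivity)] at h1
  refine (mul_le_mul_of_nonneg_right h1 (Real.exp_pos _).le).trans ?_
  rw [mul_assoc, ← Real.exp_add]
  refine mul_le_mul_of_nonneg_left (Real.exp_le_exp.2 ?_) (by positivity)
  have h2 : t - κ * t ^ 2 / 2 ≤ 1 / (2 * κ) := by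
    rw [le_div_iff₀ (by positivity)]
    nlinarith [sq_nonneg (κ * t - 1)]
  linarith

lemma integrable_poly_gauss {κ : ℝ} (hκ : 0 < κ) (p : ℕ) :
    Integrable fun y : E => (2 + ‖y‖) ^ p * Real.exp (κ - κ * ‖y‖ ^ 2 / 2) := by
  set n := finrank ℝ E + 1 with hn
  have h1 := (integrable_one_add_norm (E := E) (μ := volume) (r := (n : ℝ))
    (by rw [hn]; push_cast; linarith)).const_mul
    ((p + n).factorial * Real.exp (2 + κ + 1 / (2 * κ)))
  refine h1.mono' (Continuous.aestronglyMeasurable (by fun_prop))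
    (Eventually.of_forall fun y => ?_)
  have h0 : 0 < 1 + ‖y‖ := by positivity
  rw [Real.norm_of_nonneg (by positivity), Real.rpow_neg h0.le, Real.rpow_natCast,
    ← div_eq_mul_inv, le_div_iff₀ (by positivity)]
  refine le_trans ?_ (poly_gauss_le hκ (p + n) (norm_nonneg y))
  rw [pow_add (2 + ‖y‖) p n, mul_right_comm]
  gcongr
  norm_num

/-- **Uniform Gaussian moments.** -/
theorem exists_mom_bound (hE : finrank ℝ E = m + 1) {δ : ℝ} (hδ : 0 < δ) (C : ℝ) {κ : ℝ}
    (hκ : 0 < κ) (p : ℕ) : ∃ M : ℝ, ∀ w : E → ℝ, IsTube w δ C →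
      Integrable (fun x => (1 + ‖x‖) ^ p * Real.exp (-(κ * ‖x‖ ^ 2))) (area m w) ∧
      ∫ x, (1 + ‖x‖) ^ p * Real.exp (-(κ * ‖x‖ ^ 2)) ∂(area m w) ≤ M := by
  obtain ⟨A, hA⟩ := exists_area_bound hE hδ C
  set I : ℝ≥0∞ := A * (∫⁻ y : E, ENNReal.ofReal ((2 + ‖y‖) ^ p * Real.exp (κ - κ * ‖y‖ ^ 2 / 2)))
    / volume (closedBall (0 : E) 1) with hI
  have hv : volume (closedBall (0 : E) 1) ≠ 0 := (measure_closedBall_pos _ _ one_pos).ne'
  have hIt : I ≠ ⊤ := ENNReal.div_ne_top
    (ENNReal.mul_ne_top ENNReal.coe_ne_top (integrable_poly_gauss hκ p).lintegral_lt_top.ne) hv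
  refine ⟨I.toReal, fun w h => ?_⟩
  have hlf := h.locFin hE
  have hc : Continuous fun x : E => (1 + ‖x‖) ^ p * Real.exp (-(κ * ‖x‖ ^ 2)) := by fun_prop
  have hn : ∀ x : E, 0 ≤ (1 + ‖x‖) ^ p * Real.exp (-(κ * ‖x‖ ^ 2)) := fun x => by positivity
  have h1 : ∫⁻ x, ENNReal.ofReal ((1 + ‖x‖) ^ p * Real.exp (-(κ * ‖x‖ ^ 2))) ∂(area m w) ≤ I := by
    rw [hI, ENNReal.le_div_iff_mul_le (Or.inl hv)
      (Or.inl (isCompact_closedBall _ _).measure_lt_top.ne), mul_comm]
    refine lintegral_le_of_ball (hA w h) (Continuous.measurable (by fun_prop)).ennreal_ofReal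
      fun x y hxy => ENNReal.ofReal_le_ofReal ?_
    have a1 : ‖x‖ ≤ ‖y‖ + 1 := by linarith [norm_sub_norm_le x y]
    have a2 : ‖y‖ ≤ ‖x‖ + 1 := by linarith [norm_sub_norm_le y x, norm_sub_rev x y]
    have a3 : ‖y‖ ^ 2 ≤ 2 * ‖x‖ ^ 2 + 2 := by
      nlinarith [norm_nonneg y, norm_nonneg x, sq_nonneg (‖x‖ - 1)]
    refine mul_le_mul (pow_le_pow_left₀ (by positivity) (by linarith) _) (Real.exp_le_exp.2 ?_)
      (by positivity) (by positivity)
    nlinarith
  refine ⟨⟨hc.aestronglyMeasurable, ?_⟩, ?_⟩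
  · rw [hasFiniteIntegral_iff_ofReal (Eventually.of_forall hn)]
    exact h1.trans_lt hIt.lt_top
  · rw [integral_eq_lintegral_of_nonneg_ae (Eventually.of_forall hn) hc.aestronglyMeasurable]
    exact ENNReal.toReal_mono hIt h1

lemma rho_eq (x : E) : rho x = Real.exp (-(1 / 4 * ‖x‖ ^ 2)) := by
  rw [rho]; congr 1; ring

/-- uniform moments for the weight `ρ` -/
theorem exists_rho_bound (hE : finrank ℝ E = m + 1) {δ : ℝ} (hδ : 0 < δ) (C : ℝ) (p : ℕ) :
    ∃ M : ℝ, ∀ w : E → ℝ, IsTube w δ C →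
      Integrable (fun x => (1 + ‖x‖) ^ p * rho x) (area m w) ∧
      ∫ x, (1 + ‖x‖) ^ p * rho x ∂(area m w) ≤ M := by
  simp only [rho_eq]
  exact exists_mom_bound hE hδ C (by norm_num) p

/-- the shrinker defect `Δw - ⟨x, ∇w⟩ / 2` -/
noncomputable def defect (w : E → ℝ) (x : E) : ℝ := lap w x - ⟪x, gradient w x⟫ / 2

variable {w : E → ℝ} {δ C : ℝ}

lemma IsTube.continuous_defect (h : IsTube w δ C) : Continuous (defect w) :=
  (continuous_lap h.smooth).sub ((continuous_id.inner h.cdg.continuous).div_const 2)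

lemma IsTube.abs_defect_le (h : IsTube w δ C) {x : E} (hx : |w x| < δ) :
    |defect w x| ≤ (finrank ℝ E * |C| + 1) * (1 + ‖x‖) := by
  have b1 : |lap w x| ≤ finrank ℝ E * |C| := (h.abs_lap_le hx).trans
    (mul_le_mul_of_nonneg_left (le_abs_self C) (Nat.cast_nonneg _))
  have b2 : |⟪x, gradient w x⟫ / 2| ≤ ‖x‖ := by
    have := abs_real_inner_le_norm x (gradient w x)
    rw [h.norm_grad x hx] at this
    rw [abs_div, abs_two]
    linarith [norm_nonneg x]
  have b3 : 0 ≤ finrank ℝ E * |C| * ‖x‖ := by positivity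
  refine (abs_sub _ _).trans ?_
  linarith

lemma vel_eq {x : E} (hx : ‖gradient w x‖ = 1) :
    vel (fun x => hyp (gradient w x)) (fun x => -lap w x • gradient w x) x
      = -defect w x • gradient w x := by
  simp only [vel, proj, proj_hyp hx, defect, real_inner_comm]
  module

/-- the zero set of a signed distance function with a uniform tube is a slice with Gaussian
bounds -/
theorem IsTube.gslice (h : IsTube w δ C) (hE : finrank ℝ E = m + 1) :
    GSlice m (area m w) (fun x => hyp (gradient w x)) fun x => -lap w x • gradient w x := by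
  refine ⟨h.slice hE, fun p => ((exists_rho_bound hE h.pos C p).choose_spec w h).1, fun p => ?_⟩
  have h1 := ((exists_rho_bound hE h.pos C (p + 2)).choose_spec w h).1.const_mul
    ((finrank ℝ E * |C| + 1) ^ 2)
  refine h1.mono' (((Continuous.aestronglyMeasurable (by fun_prop)).mul
    ((h.slice hE).vel_meas.norm.pow 2)).mul
    Vale.Agent.P218.H313.continuous_rho.aestronglyMeasurable) ?_
  filter_upwards [ae_area h.smooth.continuous] with x hx
  have hρ := (Vale.Agent.P218.H313.rho_pos x).le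
  rw [Real.norm_of_nonneg (by positivity), vel_eq (h.unit x hx), norm_smul, h.unit x hx, mul_one,
    norm_neg, Real.norm_eq_abs]
  have h2 := h.abs_defect_le (h.lt_of_zero hx)
  calc (1 + ‖x‖) ^ p * |defect w x| ^ 2 * rho x
      ≤ (1 + ‖x‖) ^ p * ((finrank ℝ E * |C| + 1) * (1 + ‖x‖)) ^ 2 * rho x := by gcongr
    _ = _ := by ring

end Vale.Agent.P218GA
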