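import Vale.Agent.P218GA.Model
import Vale.Agent.P218GA.Mom

/-! The shrinker equation in a chart. -/

open Set Metric Filter Topology
open scoped RealInnerProductSpace ContDiff Matrix

namespace Vale.Agent.P218GA

open Vale.Agent.P218.H63 (IsTubeShrinker lap hess_symm contDiff_gradient)
open Vale.Agent.P218.H313 (tr)
open Vale.Agent.P218VA (E2 C3 pd PP gram PPF gramF dot3 cross0 cross1 cross2 pd_congr
  differentiableAt_pd)

lemma inner3 (a b : E3) : ⟪a, b⟫ = a 0 * b 0 + a 1 * b 1 + a 2 * b 2 := by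
  simp [PiLp.inner_apply, Fin.sum_univ_three, mul_comm]

/-- the cross product -/
noncomputable def crs (a b : E3) : E3 :=
  !₂[a 1 * b 2 - a 2 * b 1, a 2 * b 0 - a 0 * b 2, a 0 * b 1 - a 1 * b 0]

/-- the Gram determinant -/
noncomputable def grm (a b : E3) : ℝ := ⟪a, a⟫ * ⟪b, b⟫ - ⟪a, b⟫ ^ 2

@[simp] lemma cx_apply (a : E3) (i : Fin 3) : cx a i = (a i : ℂ) := rfl

lemma cx_dot (a b : E3) : cx a ⬝ᵥ cx b = (⟪a, b⟫ : ℝ) := by
  rw [dot3, inner3]; simp

lemma cx_crs (a b : E3) : cx (crs a b) = cx a ⨯₃ cx b := by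
  ext i
  fin_cases i <;> simp [crs, cross_apply]

lemma cx_gram (a b : E3) : gram (cx a) (cx b) = (grm a b : ℝ) := by
  simp [gram, grm, cx_dot]

lemma cx_injective : Function.Injective cx := fun a b h => by
  ext i
  have := congrFun h i
  rw [cx_apply, cx_apply] at this
  exact_mod_cast this

lemma E3_decomp (v : E3) : v = v 0 • EuclideanSpace.single 0 1 + v 1 • EuclideanSpace.single 1 1
    + v 2 • EuclideanSpace.single 2 1 := by
  ext i
  fin_cases i <;> simp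

lemma cx_isometry (Q : E3 ≃ₗᵢ[ℝ] E3) (x : E3) : cx (Q x) = mat Q *ᵥ cx x := by
  ext i
  conv_lhs => rw [E3_decomp x]
  simp [mat, Matrix.mulVec, dot3, mul_comm]

lemma mat_orth (Q : E3 ≃ₗᵢ[ℝ] E3) : (mat Q)ᵀ * mat Q = 1 := by
  ext i j
  have h := Q.inner_map_map (EuclideanSpace.single i 1) (EuclideanSpace.single j 1)
  rw [inner3] at h
  have h2 : ((mat Q)ᵀ * mat Q) i j = ((Q (EuclideanSpace.single i 1) 0 * Q (EuclideanSpace.single j 1) 0
      + Q (EuclideanSpace.single i 1) 1 * Q (EuclideanSpace.single j 1) 1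
      + Q (EuclideanSpace.single i 1) 2 * Q (EuclideanSpace.single j 1) 2 : ℝ) : ℂ) := by
    simp [mat, Matrix.mul_apply, Fin.sum_univ_three]
  rw [h2, h, EuclideanSpace.inner_single_left, Matrix.one_apply]
  by_cases hij : i = j <;> simp [hij]

lemma inner_crs_left (a b : E3) : ⟪crs a b, a⟫ = 0 := by simp [inner3, crs]; ring
lemma inner_crs_right (a b : E3) : ⟪crs a b, b⟫ = 0 := by simp [inner3, crs]; ring
lemma inner_crs_self (a b : E3) : ⟪crs a b, crs a b⟫ = grm a b := by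
  simp only [inner3, grm]; simp [crs]; ring

lemma grm_smul (a b v : E3) : grm a b • v = (⟪b, b⟫ * ⟪v, a⟫ - ⟪a, b⟫ * ⟪v, b⟫) • a
    + (⟪a, a⟫ * ⟪v, b⟫ - ⟪a, b⟫ * ⟪v, a⟫) • b + ⟪v, crs a b⟫ • crs a b := by
  simp only [inner3, grm]
  ext i
  fin_cases i <;> simp [crs] <;> ring

lemma crs_par {a b ν : E3} (hν : ‖ν‖ = 1) (ha : ⟪ν, a⟫ = 0) (hb : ⟪ν, b⟫ = 0) :
    crs a b = ⟪crs a b, ν⟫ • ν := by
  have h1 : ⟪ν, ν⟫ = 1 := by rw [real_inner_self_eq_norm_sq, hν, one_pow]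
  simp only [inner3] at h1 ha hb ⊢
  ext i
  fin_cases i <;> simp [crs]
  · linear_combination (-(a 1 * b 2 - a 2 * b 1)) * h1 + (ν 1 * b 2 - ν 2 * b 1) * ha
      - (ν 1 * a 2 - ν 2 * a 1) * hb
  · linear_combination (-(a 2 * b 0 - a 0 * b 2)) * h1 + (ν 2 * b 0 - ν 0 * b 2) * ha
      - (ν 2 * a 0 - ν 0 * a 2) * hb
  · linear_combination (-(a 0 * b 1 - a 1 * b 0)) * h1 + (ν 0 * b 1 - ν 1 * b 0) * ha
      - (ν 0 * a 1 - ν 1 * a 0) * hb

lemma sq_inner_crs {a b ν : E3} (hν : ‖ν‖ = 1) (ha : ⟪ν, a⟫ = 0) (hb : ⟪ν, b⟫ = 0) :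
    ⟪crs a b, ν⟫ ^ 2 = grm a b := by
  rw [← inner_crs_self]
  conv_rhs => rw [crs_par hν ha hb]
  rw [inner_smul_left, inner_smul_right, real_inner_self_eq_norm_sq, hν]
  simp [sq]

/-- a vector orthogonal to a plane is a multiple of the unit normal -/
lemma par_of_orth {a b ν N : E3} (hν : ‖ν‖ = 1) (ha : ⟪ν, a⟫ = 0) (hb : ⟪ν, b⟫ = 0)
    (hg : grm a b ≠ 0) (hNa : ⟪N, a⟫ = 0) (hNb : ⟪N, b⟫ = 0) : N = ⟪N, ν⟫ • ν := by
  have h := grm_smul a b N
  rw [hNa, hNb, crs_par hν ha hb, inner_smul_right, smul_smul] at h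
  simp only [mul_zero, sub_zero, zero_smul, zero_add] at h
  rw [mul_right_comm, ← sq, sq_inner_crs hν ha hb, mul_smul] at h
  exact smul_right_injective _ hg h

lemma grm_mul_tr (A : E3 →L[ℝ] E3) (a b : E3) :
    grm a b * tr A = ⟪b, b⟫ * ⟪A a, a⟫ - ⟪a, b⟫ * (⟪A a, b⟫ + ⟪A b, a⟫) + ⟪a, a⟫ * ⟪A b, b⟫
      + ⟪A (crs a b), crs a b⟫ := by
  have ht : tr A = ∑ i, ⟪EuclideanSpace.basisFun (Fin 3) ℝ i,
      A (EuclideanSpace.basisFun (Fin 3) ℝ i)⟫ :=
    LinearMap.trace_eq_sum_inner A.toLinearMap (EuclideanSpace.basisFun (Fin 3) ℝ)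
  have hA : ∀ v : E3, A v = v 0 • A (EuclideanSpace.single 0 1) + v 1 • A (EuclideanSpace.single 1 1)
      + v 2 • A (EuclideanSpace.single 2 1) := fun v => by
    conv_lhs => rw [E3_decomp v]
    simp
  rw [ht, hA a, hA b, hA (crs a b)]
  simp only [Fin.sum_univ_three, inner3, grm]
  simp [crs]
  ring

lemma grm_pos {D : Type*} [NormedAddCommGroup D] [NormedSpace ℝ D] {L : D →L[ℝ] E3}
    (hL : Function.Injective L) {d1 d2 : D} (hd : LinearIndependent ℝ ![d1, d2]) :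
    0 < grm (L d1) (L d2) := by
  rw [← inner_crs_self, real_inner_self_pos]
  intro h0
  have h1 := grm_smul (L d1) (L d2) (L d2)
  have hg : grm (L d1) (L d2) = 0 := by rw [← inner_crs_self, h0, inner_zero_left]
  have hi := LinearIndependent.pair_iff.1 hd
  by_cases ha : L d1 = 0
  · have : d1 = 0 := hL (by rw [ha, map_zero])
    exact one_ne_zero (hi 1 0 (by simp [this])).1
  · have h2 : ⟪L d1, L d1⟫ • L d2 - ⟪L d1, L d2⟫ • L d1 = 0 := by
      rw [← inner_self_eq_zero (𝕜 := ℝ)]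
      simp only [inner_sub_left, inner_sub_right, real_inner_smul_left, real_inner_smul_right,
        real_inner_comm (L d1) (L d2)]
      unfold grm at hg
      linear_combination ⟪L d1, L d1⟫ * hg
    have h3 : (-⟪L d1, L d2⟫) • d1 + ⟪L d1, L d1⟫ • d2 = 0 := hL (by
      rw [map_add, map_smul, map_smul, map_zero, ← h2]; module)
    exact ha (inner_self_eq_zero.1 (hi _ _ h3).2)

/-- the shrinker operator paired with a vector -/
noncomputable def PPr (X a b aa ab bb N : E3) : ℝ :=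
  ⟪b, b⟫ * ⟪aa, N⟫ - 2 * ⟪a, b⟫ * ⟪ab, N⟫ + ⟪a, a⟫ * ⟪bb, N⟫ + grm a b * ⟪X, N⟫ / 2

lemma PPr_smul (X a b aa ab bb N : E3) (c : ℝ) :
    PPr X a b aa ab bb (c • N) = c * PPr X a b aa ab bb N := by
  simp only [PPr, real_inner_smul_right]; ring

lemma cx_PP (X a b aa ab bb : E3) : PP (cx X) (cx a) (cx b) (cx aa) (cx ab) (cx bb)
    = (PPr X a b aa ab bb (crs a b) : ℝ) := by
  simp only [PP, PPr, ← cx_crs, cx_dot, cx_gram]
  push_cast
  ring

variable {D : Type*} [NormedAddCommGroup D] [NormedSpace ℝ D] {X : D → E3} {y : D}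
variable {w : E3 → ℝ} {δ C : ℝ}

lemma pd_cx (hX : DifferentiableAt ℝ X y) (v : D) : pd (fun z => cx (X z)) v y = cx (pd X v y) := by
  rw [pd, show (fun z => cx (X z)) = cx ∘ X from rfl, (cx.hasFDerivAt.comp y hX.hasFDerivAt).fderiv]
  rfl

lemma pd_pd_cx (hX : ContDiffAt ℝ 2 X y) (v v' : D) :
    pd (pd (fun z => cx (X z)) v) v' y = cx (pd (pd X v) v' y) := by
  rw [← pd_cx (differentiableAt_pd hX v)]
  refine pd_congr ?_ v'
  filter_upwards [hX.eventually (by simp)] with z hz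
  exact pd_cx (hz.differentiableAt (by simp)) v

lemma gramF_cx (hX : DifferentiableAt ℝ X y) (d1 d2 : D) :
    gramF d1 d2 (fun z => cx (X z)) y = (grm (pd X d1 y) (pd X d2 y) : ℝ) := by
  rw [gramF, pd_cx hX, pd_cx hX, cx_gram]

lemma PPF_cx (hX : ContDiffAt ℝ 2 X y) (d1 d2 : D) :
    PPF d1 d2 (fun z => cx (X z)) y = (PPr (X y) (pd X d1 y) (pd X d2 y) (pd (pd X d1) d1 y)
      (pd (pd X d1) d2 y) (pd (pd X d2) d2 y) (crs (pd X d1 y) (pd X d2 y)) : ℝ) := by
  have hd := hX.differentiableAt (by simp)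
  rw [PPF, pd_cx hd, pd_cx hd, pd_pd_cx hX, pd_pd_cx hX, pd_pd_cx hX, cx_PP]

/-- tangent vectors are orthogonal to the gradient -/
lemma inner_grad_pd (hw : DifferentiableAt ℝ w (X y)) (hX : DifferentiableAt ℝ X y)
    (h0 : ∀ᶠ z in 𝓝 y, w (X z) = 0) (v : D) : ⟪gradient w (X y), pd X v y⟫ = 0 := by
  have h1 := (hw.hasFDerivAt.comp y hX.hasFDerivAt).unique
    ((hasFDerivAt_const (0 : ℝ) y).congr_of_eventuallyEq h0)
  rw [inner_grad]
  exact congrArg (fun L => L v) h1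

/-- the second fundamental form -/
lemma inner_grad_pd_pd (hw : ContDiff ℝ 2 w) (hX : ContDiffAt ℝ 2 X y)
    (h0 : ∀ᶠ z in 𝓝 y, w (X z) = 0) (v v' : D) : ⟪pd (pd X v) v' y, gradient w (X y)⟫
      = -⟪fderiv ℝ (gradient w) (X y) (pd X v' y), pd X v y⟫ := by
  have hg : DifferentiableAt ℝ (gradient w) (X y) :=
    (contDiff_gradient hw (n := 1) (by norm_num)).differentiable one_ne_zero _
  have hd := hX.differentiableAt (by simp)
  have h1 : ∀ᶠ z in 𝓝 y, ⟪gradient w (X z), pd X v z⟫ = 0 := by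
    filter_upwards [hX.eventually (by simp), h0.eventually_nhds] with z hz hz0
    exact inner_grad_pd (hw.differentiable (by simp) _) (hz.differentiableAt (by simp)) hz0 v
  have h2 := ((hg.hasFDerivAt.comp y hd.hasFDerivAt).inner ℝ
    (differentiableAt_pd hX v).hasFDerivAt).unique
    ((hasFDerivAt_const (0 : ℝ) y).congr_of_eventuallyEq h1)
  have h3 := congrArg (fun L => L v') h2
  simp only [ContinuousLinearMap.comp_apply, ContinuousLinearMap.prod_apply,
    fderivInnerCLM_apply, Function.comp, zero_apply] at h3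
  rw [real_inner_comm]
  change ⟪gradient w (X y), fderiv ℝ (pd X v) y v'⟫
    = -⟪fderiv ℝ (gradient w) (X y) (fderiv ℝ X y v'), pd X v y⟫
  linarith

/-- **The defect in a chart.** -/
theorem IsTube.PPr_grad (h : IsTube w δ C) (hX : ContDiffAt ℝ 2 X y)
    (h0 : ∀ᶠ z in 𝓝 y, w (X z) = 0) (d1 d2 : D) :
    PPr (X y) (pd X d1 y) (pd X d2 y) (pd (pd X d1) d1 y) (pd (pd X d1) d2 y) (pd (pd X d2) d2 y)
      (gradient w (X y)) = -(grm (pd X d1 y) (pd X d2 y) * defect w (X y)) := by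
  have hy : w (X y) = 0 := h0.self_of_nhds
  have hd := hX.differentiableAt (by simp)
  have ha := inner_grad_pd (h.cd1.differentiable one_ne_zero _) hd h0 d1
  have hb := inner_grad_pd (h.cd1.differentiable one_ne_zero _) hd h0 d2
  have h1 := grm_mul_tr (fderiv ℝ (gradient w) (X y)) (pd X d1 y) (pd X d2 y)
  rw [crs_par (h.unit _ hy) ha hb, map_smul, h.hess_grad (h.lt_of_zero hy), smul_zero,
    inner_zero_left, hess_symm h.smooth (X y) (pd X d1 y) (pd X d2 y),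
    real_inner_comm (fderiv ℝ (gradient w) (X y) (pd X d2 y))] at h1
  rw [PPr, inner_grad_pd_pd h.smooth hX h0, inner_grad_pd_pd h.smooth hX h0,
    inner_grad_pd_pd h.smooth hX h0, defect]
  change _ = -(_ * (tr (fderiv ℝ (gradient w) (X y)) - _))
  linear_combination h1

/-- the shrinker operator of a chart is `- σ (det g) defect`, `σ = ⟨X₁ × X₂, ν⟩ = ± √(det g)` -/
theorem IsTube.PPF_eq (h : IsTube w δ C) (hX : ContDiffAt ℝ 2 X y)
    (h0 : ∀ᶠ z in 𝓝 y, w (X z) = 0) (d1 d2 : D) :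
    PPF d1 d2 (fun z => cx (X z)) y = (-(⟪crs (pd X d1 y) (pd X d2 y), gradient w (X y)⟫
      * grm (pd X d1 y) (pd X d2 y) * defect w (X y)) : ℝ) := by
  have hd := hX.differentiableAt (by simp)
  have ha := inner_grad_pd (h.cd1.differentiable one_ne_zero _) hd h0 d1
  have hb := inner_grad_pd (h.cd1.differentiable one_ne_zero _) hd h0 d2
  rw [PPF_cx hX]
  congr 1
  conv_lhs => rw [crs_par (h.unit _ h0.self_of_nhds) ha hb]
  rw [PPr_smul, h.PPr_grad hX h0]
  ring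

variable {S : Set E3}

lemma defect_eq_zero (h : IsTubeShrinker S w δ C) {x : E3} (hx : x ∈ S) : defect w x = 0 := by
  rw [defect, h.shrinker x hx, sub_self]

/-- the shrinker equation in a chart -/
theorem PPF_zero (h : IsTubeShrinker S w δ C) (hX : ContDiffAt ℝ 2 X y)
    (h0 : ∀ᶠ z in 𝓝 y, X z ∈ S) (d1 d2 : D) : PPF d1 d2 (fun z => cx (X z)) y = 0 := by
  rw [(isTube_of_shrinker h).PPF_eq hX (h0.mono fun z hz => (h.mem_iff _).1 hz),
    defect_eq_zero h h0.self_of_nhds]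
  simp

/-- the shrinker equation in a chart, paired with any normal vector -/
theorem PPr_zero (h : IsTubeShrinker S w δ C) (hX : ContDiffAt ℝ 2 X y)
    (h0 : ∀ᶠ z in 𝓝 y, X z ∈ S) {d1 d2 : D} (hg : grm (pd X d1 y) (pd X d2 y) ≠ 0) {N : E3}
    (hNa : ⟪N, pd X d1 y⟫ = 0) (hNb : ⟪N, pd X d2 y⟫ = 0) :
    PPr (X y) (pd X d1 y) (pd X d2 y) (pd (pd X d1) d1 y) (pd (pd X d1) d2 y) (pd (pd X d2) d2 y)
      N = 0 := by
  have h' := isTube_of_shrinker h
  have h1 := h0.mono fun z hz => (h.mem_iff _).1 hz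
  have hd := hX.differentiableAt (by simp)
  have ha := inner_grad_pd (h'.cd1.differentiable one_ne_zero _) hd h1 d1
  have hb := inner_grad_pd (h'.cd1.differentiable one_ne_zero _) hd h1 d2
  rw [par_of_orth (h'.unit _ h1.self_of_nhds) ha hb hg hNa hNb, PPr_smul, h'.PPr_grad hX h1,
    defect_eq_zero h h0.self_of_nhds]
  simp

end Vale.Agent.P218GA
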