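import Vale.Agent.P218GA.Dec
import Vale.Agent.P218GA.Chart2

/-! Decay of the radial derivatives on a cylindrical end of a self-shrinker. -/

open Set Metric Filter Topology
open scoped ContDiff RealInnerProductSpace

namespace Vale.Agent.P218GA

open Vale.Agent.P218.H63 (IsTubeShrinker)
open Vale.Agent.P218VA (pd pd_congr)

/-- `f → c` in the class `B` -/
def Lc (B : Pred) (f : ℝ × ℝ → ℝ) (c : ℝ) : Prop := B ℝ fun p => f p - c

namespace Lc

variable {B : Pred} (hB : Closed B) {f g : ℝ × ℝ → ℝ} {c d : ℝ}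
include hB

lemma tendsto (h : Lc B f c) : Tendsto f far (𝓝 c) := by
  simpa using (hB.lim h).add_const c

lemma sm (h : Lc B f c) : ∀ᶠ p in far, ContDiffAt ℝ ∞ f p :=
  (hB.sm h).mono fun p hp => by simpa using hp.add (contDiffAt_const (c := c))

lemma congr (h : Lc B f c) (e : f =ᶠ[far] g) : Lc B g c :=
  hB.congr h (e.mono fun p hp => by simp only [hp])

lemma comp (h : Lc B f c) {Φ : ℝ → ℝ} (hΦ : ∀ᶠ x in 𝓝 c, ContDiffAt ℝ ∞ Φ x) :
    Lc B (fun p => Φ (f p)) (Φ c) := by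
  have h1 : Germ fun x : ℝ => Φ (x + c) - Φ c := by
    refine ⟨?_, by simp⟩
    have h2 : Tendsto (fun x : ℝ => x + c) (𝓝 0) (𝓝 c) := by
      simpa using (continuous_add_const c).tendsto 0
    filter_upwards [h2.eventually hΦ] with x hx
    exact (hx.comp x (contDiffAt_id.add contDiffAt_const)).sub contDiffAt_const
  simpa [Lc] using hB.comp h h1

lemma const (h : Lc B f c) (d : ℝ) : Lc B (fun _ => d) d :=
  h.comp hB (Φ := fun _ => d) (Eventually.of_forall fun _ => contDiffAt_const)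

lemma add (h : Lc B f c) (h' : Lc B g d) : Lc B (fun p => f p + g p) (c + d) :=
  hB.congr (hB.add h h') (Eventually.of_forall fun p => by ring)

lemma sub (h : Lc B f c) (h' : Lc B g d) : Lc B (fun p => f p - g p) (c - d) :=
  hB.congr (hB.sub h h') (Eventually.of_forall fun p => by ring)

lemma mul (h : Lc B f c) (h' : Lc B g d) : Lc B (fun p => f p * g p) (c * d) :=
  hB.congr (hB.comp (Φ := fun z : ℝ × ℝ => (z.1 + c) * (z.2 + d) - c * d) (hB.prod h h')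
    (.of_contDiff (by fun_prop) (by simp))) (Eventually.of_forall fun p => by simp)

lemma cmul (h : Lc B f c) (d : ℝ) : Lc B (fun p => d * f p) (d * c) := (h.const hB d).mul hB h

lemma neg (h : Lc B f c) : Lc B (fun p => -f p) (-c) := by simpa using h.cmul hB (-1)

lemma sq (h : Lc B f c) : Lc B (fun p => f p ^ 2) (c ^ 2) := by
  simpa only [pow_two] using h.mul hB h

lemma div (h : Lc B f c) (h' : Lc B g d) (hd : d ≠ 0) : Lc B (fun p => f p / g p) (c / d) := by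
  simp only [div_eq_mul_inv]
  exact h.mul hB (h'.comp hB ((eventually_ne_nhds hd).mono fun x hx => contDiffAt_inv ℝ hx))

lemma sqrt (h : Lc B f c) (hc : c ≠ 0) : Lc B (fun p => √(f p)) √c :=
  h.comp hB ((eventually_ne_nhds hc).mono fun _ hx => Real.contDiffAt_sqrt hx)

omit hB in
lemma cast (h : Lc B f c) (e : c = d) : Lc B f d := e ▸ h

omit hB in
lemma zero (h : Lc B f 0) : B ℝ f := by simpa [Lc] using h

omit hB in
lemma pd {a : ℕ} (h : Lc (Cl a) f c) (v : ℝ × ℝ) : Lc (Cl a) (pd f v) 0 := by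
  refine (closed_cl a).congr (Cl.pd h v) (Eventually.of_forall fun p => ?_)
  simp only [Vale.Agent.P218VA.pd, fderiv_sub_const, sub_zero]

end Lc

/-- a vector in the rotating frame -/
noncomputable def fr (Q : E3 ≃ₗᵢ[ℝ] E3) (θ f g h : ℝ) : E3 :=
  Q !₂[f * Real.cos θ - g * Real.sin θ, f * Real.sin θ + g * Real.cos θ, h]

lemma inner_fr (Q : E3 ≃ₗᵢ[ℝ] E3) (θ f g h f' g' h' : ℝ) :
    ⟪fr Q θ f g h, fr Q θ f' g' h'⟫ = f * f' + g * g' + h * h' := by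
  rw [fr, fr, Q.inner_map_map, inner3]
  simp
  linear_combination (f * f' + g * g') * Real.sin_sq_add_cos_sq θ

lemma fr_eq (Q : E3 ≃ₗᵢ[ℝ] E3) (θ f g h : ℝ) : fr Q θ f g h
    = (f * Real.cos θ - g * Real.sin θ) • Q (EuclideanSpace.single 0 1)
      + (f * Real.sin θ + g * Real.cos θ) • Q (EuclideanSpace.single 1 1)
      + h • Q (EuclideanSpace.single 2 1) := by
  rw [fr, E3_decomp !₂[f * Real.cos θ - g * Real.sin θ, f * Real.sin θ + g * Real.cos θ, h]]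
  simp

lemma contDiffAt_fr (Q : E3 ≃ₗᵢ[ℝ] E3) {f g h : ℝ × ℝ → ℝ} {p : ℝ × ℝ} {n : WithTop ℕ∞}
    (hf : ContDiffAt ℝ n f p) (hg : ContDiffAt ℝ n g p) (hh : ContDiffAt ℝ n h p) :
    ContDiffAt ℝ n (fun q => fr Q q.2 (f q) (g q) (h q)) p := by
  simp only [fr_eq]
  fun_prop

lemma pd_fr (Q : E3 ≃ₗᵢ[ℝ] E3) {f g h : ℝ × ℝ → ℝ} {p : ℝ × ℝ} (hf : DifferentiableAt ℝ f p)
    (hg : DifferentiableAt ℝ g p) (hh : DifferentiableAt ℝ h p) (v : ℝ × ℝ) :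
    pd (fun q => fr Q q.2 (f q) (g q) (h q)) v p
      = fr Q p.2 (pd f v p - v.2 * g p) (pd g v p + v.2 * f p) (pd h v p) := by
  have hc := (Real.hasDerivAt_cos p.2).comp_hasFDerivAt p (hasFDerivAt_snd (𝕜 := ℝ))
  have hs := (Real.hasDerivAt_sin p.2).comp_hasFDerivAt p (hasFDerivAt_snd (𝕜 := ℝ))
  have h1 := (((((hf.hasFDerivAt.mul hc).sub (hg.hasFDerivAt.mul hs)).smul_const
    (Q (EuclideanSpace.single 0 1))).add (((hf.hasFDerivAt.mul hs).add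
    (hg.hasFDerivAt.mul hc)).smul_const (Q (EuclideanSpace.single 1 1)))).add
    (hh.hasFDerivAt.smul_const (Q (EuclideanSpace.single 2 1)))).fderiv
  simp only [fr_eq, pd]
  refine (congrArg (fun L => L v) h1).trans ?_
  simp
  module

namespace CylEnd

variable (e : CylEnd)

/-- the height -/
noncomputable def Z (p : ℝ × ℝ) : ℝ := √(p.1 ^ 2 - e.ρ p ^ 2)

/-- the cosine of the polar angle -/
noncomputable def ζ (p : ℝ × ℝ) : ℝ := √(1 - (p.1⁻¹ * e.ρ p) ^ 2)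

lemma pt_eq (p : ℝ × ℝ) : e.pt p.1 p.2 = fr e.Q p.2 (e.ρ p) 0 (e.Z p) := by simp [pt, fr, Z]

lemma Z_eq {p : ℝ × ℝ} (hp : 0 < p.1) : e.Z p = p.1 * e.ζ p := by
  have h : p.1 ^ 2 - e.ρ p ^ 2 = p.1 ^ 2 * (1 - (p.1⁻¹ * e.ρ p) ^ 2) := by field_simp
  rw [Z, h, Real.sqrt_mul (sq_nonneg _), Real.sqrt_sq hp.le, ζ]

lemma lc0 : Lc (Cl 0) e.ρ √2 := dec_of_smoothLim e.smooth e.lim

lemma lc_x (a : ℕ) : Lc (Cl a) (fun p => p.1⁻¹) 0 := by simpa [Lc] using cl_inv a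

variable {e}

lemma lc_ζ {a : ℕ} (h : Lc (Cl a) e.ρ √2) : Lc (Cl a) e.ζ 1 := by
  have hB := closed_cl a
  exact (((h.const hB 1).sub hB (((lc_x a).mul hB h).sq hB)).sqrt hB (by simp)).cast (by simp)

variable (e)

lemma ev_good : ∀ᶠ p in far, 0 < p.1 ∧ 1 < e.ρ p ∧ e.ρ p < 2 ∧ 0 < p.1 ^ 2 - e.ρ p ^ 2 ∧
    0 < 1 - (p.1⁻¹ * e.ρ p) ^ 2 := by
  have h1 : (1 : ℝ) < √2 := Real.lt_sqrt_of_sq_lt (by norm_num)
  have h2 : √2 < 2 := (Real.sqrt_lt' (by norm_num)).2 (by norm_num)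
  have h := e.lc0.tendsto (closed_cl 0)
  filter_upwards [ev_gt 2, h.eventually (lt_mem_nhds h1), h.eventually (gt_mem_nhds h2)]
    with p a b c
  have h0 : 0 < p.1 := by linarith
  have h3 : 0 < p.1 ^ 2 - e.ρ p ^ 2 := by nlinarith
  refine ⟨h0, b, c, h3, ?_⟩
  have : 1 - (p.1⁻¹ * e.ρ p) ^ 2 = (p.1 ^ 2 - e.ρ p ^ 2) / p.1 ^ 2 := by field_simp
  rw [this]
  positivity

lemma Z_smooth : ∀ᶠ p in far, ContDiffAt ℝ ∞ e.Z p := by
  filter_upwards [e.ev_good] with p hp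
  exact ((contDiffAt_fst.pow 2).sub (e.smooth.contDiffAt.pow 2)).sqrt hp.2.2.2.1.ne'

lemma pd_Z : ∀ᶠ p in far, ∀ v : ℝ × ℝ,
    pd e.Z v p = (v.1 - p.1⁻¹ * e.ρ p * pd e.ρ v p) / e.ζ p := by
  filter_upwards [e.ev_good] with p hp v
  have h1 := (((hasFDerivAt_fst (𝕜 := ℝ) (p := p)).pow 2).sub
    ((e.smooth.differentiable (by simp) p).hasFDerivAt.pow 2)).sqrt hp.2.2.2.1.ne'
  have h2 : fderiv ℝ e.Z p = _ := h1.fderiv
  have h3 := e.Z_eq hp.1
  have h4 : 0 < e.ζ p := Real.sqrt_pos.2 hp.2.2.2.2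
  have h5 := hp.1
  rw [pd, h2]
  simp only [Pi.sub_apply, smul_apply, sub_apply, smul_eq_mul]
  rw [show √(p.1 ^ 2 - e.ρ p ^ 2) = p.1 * e.ζ p from h3]
  simp [pd]
  field_simp

variable {e}

lemma lc_Z {a : ℕ} (h : Lc (Cl a) e.ρ √2) (v : ℝ × ℝ) : Lc (Cl a) (pd e.Z v) v.1 := by
  have hB := closed_cl a
  exact ((((h.const hB v.1).sub hB ((((lc_x a).mul hB h)).mul hB (h.pd v))).div hB (lc_ζ h)
    one_ne_zero).cast (by simp)).congr hB (e.pd_Z.mono fun p hp => (hp v).symm)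

variable (e)

/-- the parametrisation -/
noncomputable def X (p : ℝ × ℝ) : E3 := e.pt p.1 p.2

lemma X_eq : e.X = fun p => fr e.Q p.2 (e.ρ p) 0 (e.Z p) := funext e.pt_eq

lemma X_smooth : ∀ᶠ p in far, ContDiffAt ℝ ∞ e.X p := by
  filter_upwards [e.Z_smooth] with p hp
  rw [X_eq]
  exact contDiffAt_fr _ e.smooth.contDiffAt contDiffAt_const hp

lemma pd_X : ∀ᶠ p in far, pd e.X (1, 0) p = fr e.Q p.2 (dw e.ρ p) 0 (dw e.Z p) ∧
    pd e.X (0, 1) p = fr e.Q p.2 (dth e.ρ p) (e.ρ p) (dth e.Z p) := by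
  filter_upwards [e.Z_smooth] with p hp
  have h := pd_fr e.Q (e.smooth.differentiable (by simp) p) (differentiableAt_const 0)
    (hp.differentiableAt (by simp))
  rw [X_eq, h, h]
  simp [pd, dw, dth]

lemma pd_pd_X : ∀ᶠ p in far,
    pd (pd e.X (1, 0)) (1, 0) p = fr e.Q p.2 (dw (dw e.ρ) p) 0 (dw (dw e.Z) p) ∧
    pd (pd e.X (1, 0)) (0, 1) p = fr e.Q p.2 (dth (dw e.ρ) p) (dw e.ρ p) (dth (dw e.Z) p) ∧
    pd (pd e.X (0, 1)) (0, 1) p
      = fr e.Q p.2 (dth (dth e.ρ) p - e.ρ p) (2 * dth e.ρ p) (dth (dth e.Z) p) := by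
  filter_upwards [e.Z_smooth, ev_nhds e.pd_X] with p hp h
  have d1 := fun v => Vale.Agent.P218VA.differentiableAt_pd
    (e.smooth.contDiffAt.of_le (by norm_cast) : ContDiffAt ℝ 2 e.ρ p) v
  have d2 := fun v => Vale.Agent.P218VA.differentiableAt_pd
    (hp.of_le (by norm_cast) : ContDiffAt ℝ 2 e.Z p) v
  have h1 := pd_fr e.Q (d1 (1, 0)) (differentiableAt_const 0) (d2 (1, 0))
  have h2 := pd_fr e.Q (d1 (0, 1)) (e.smooth.differentiable (by simp) p) (d2 (0, 1))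
  rw [pd_congr (h.mono fun q hq => hq.1), pd_congr (h.mono fun q hq => hq.1),
    pd_congr (h.mono fun q hq => hq.2)]
  refine ⟨(h1 _).trans ?_, (h1 _).trans ?_, (h2 _).trans ?_⟩ <;> simp [pd, dw, dth, two_mul]

/-- the Gram determinant -/
noncomputable def G (p : ℝ × ℝ) : ℝ :=
  (dw e.ρ p ^ 2 + dw e.Z p ^ 2) * (dth e.ρ p ^ 2 + e.ρ p ^ 2 + dth e.Z p ^ 2)
    - (dw e.ρ p * dth e.ρ p + dw e.Z p * dth e.Z p) ^ 2

/-- the curvature term -/
noncomputable def T (p : ℝ × ℝ) : ℝ :=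
  (dth e.ρ p ^ 2 + e.ρ p ^ 2 + dth e.Z p ^ 2)
      * (-(dw (dw e.ρ) p * (e.ρ p * dw e.Z p)) + dw (dw e.Z) p * (e.ρ p * dw e.ρ p))
    - 2 * (dw e.ρ p * dth e.ρ p + dw e.Z p * dth e.Z p)
      * (-(dth (dw e.ρ) p * (e.ρ p * dw e.Z p))
        + dw e.ρ p * (dw e.Z p * dth e.ρ p - dw e.ρ p * dth e.Z p)
        + dth (dw e.Z) p * (e.ρ p * dw e.ρ p))
    + (dw e.ρ p ^ 2 + dw e.Z p ^ 2)
      * (-((dth (dth e.ρ) p - e.ρ p) * (e.ρ p * dw e.Z p))
        + 2 * dth e.ρ p * (dw e.Z p * dth e.ρ p - dw e.ρ p * dth e.Z p)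
        + dth (dth e.Z) p * (e.ρ p * dw e.ρ p))

variable {e}

lemma lc_G {a : ℕ} (h : Lc (Cl a) e.ρ √2) : Lc (Cl a) e.G 2 := by
  have hB := closed_cl a
  have r1 := h.pd (1, 0)
  have r2 := h.pd (0, 1)
  have z1 := lc_Z h (1, 0)
  have z2 := lc_Z h (0, 1)
  exact (((((r1.sq hB).add hB (z1.sq hB)).mul hB (((r2.sq hB).add hB (h.sq hB)).add hB
    (z2.sq hB))).sub hB (((r1.mul hB r2).add hB (z1.mul hB z2)).sq hB))).cast (by simp)

lemma lc_T {a : ℕ} (h : Lc (Cl a) e.ρ √2) : Lc (Cl a) e.T 2 := by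
  have hB := closed_cl a
  have r1 := h.pd (1, 0)
  have r2 := h.pd (0, 1)
  have z1 := lc_Z h (1, 0)
  have z2 := lc_Z h (0, 1)
  have n1 := h.mul hB z1
  have n2 := (z1.mul hB r2).sub hB (r1.mul hB z2)
  have n3 := h.mul hB r1
  exact (((((((r2.sq hB).add hB (h.sq hB)).add hB (z2.sq hB)).mul hB
    ((((r1.pd (1, 0)).mul hB n1).neg hB).add hB ((z1.pd (1, 0)).mul hB n3))).sub hB
    ((((r1.mul hB r2).add hB (z1.mul hB z2)).cmul hB 2).mul hB
      (((((r1.pd (0, 1)).mul hB n1).neg hB).add hB (r1.mul hB n2)).add hB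
        ((z1.pd (0, 1)).mul hB n3)))).add hB
    (((r1.sq hB).add hB (z1.sq hB)).mul hB
      ((((((r2.pd (0, 1)).sub hB h).mul hB n1).neg hB).add hB ((r2.cmul hB 2).mul hB n2)).add hB
        ((z2.pd (0, 1)).mul hB n3))))).cast (by simp)

variable (e)

lemma grm_X : ∀ᶠ p in far, grm (pd e.X (1, 0) p) (pd e.X (0, 1) p) = e.G p ∧ 0 < e.G p := by
  filter_upwards [e.pd_X, ((lc_G e.lc0).tendsto (closed_cl 0)).eventually (lt_mem_nhds two_pos)]
    with p h1 h2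
  refine ⟨?_, h2⟩
  rw [h1.1, h1.2, grm, inner_fr, inner_fr, inner_fr, G]
  ring

variable {e} {S : Set E3} {w : E3 → ℝ} {δ C : ℝ}

/-- the equation solved for the radial derivative -/
lemma rad_eq (hS : IsTubeShrinker S w δ C) (hX : ∀ᶠ p in far, e.X p ∈ S) : ∀ᶠ p in far,
    p.1 * dw e.ρ p = (e.ρ p ^ 2 * dw e.Z p - 2 * e.T p / e.G p) / (e.ζ p * e.ρ p) := by
  filter_upwards [ev_nhds hX, e.X_smooth, e.pd_X, e.pd_pd_X, e.grm_X, e.ev_good]
    with p h0 h1 h2 h3 h4 h5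
  have h6 := PPr_zero hS (h1.of_le (by norm_cast)) h0 (h4.1 ▸ h4.2.ne')
    (N := fr e.Q p.2 (-(e.ρ p * dw e.Z p)) (dw e.Z p * dth e.ρ p - dw e.ρ p * dth e.Z p)
      (e.ρ p * dw e.ρ p)) (by rw [h2.1, inner_fr]; ring) (by rw [h2.2, inner_fr]; ring)
  rw [PPr, h4.1, h3.1, h3.2.1, h3.2.2, h2.1, h2.2, X, pt_eq] at h6
  simp only [inner_fr] at h6
  have h7 : 0 < e.ζ p := Real.sqrt_pos.2 h5.2.2.2.2
  have h8 : 0 < e.ρ p := by linarith [h5.2.1]
  have h9 := h4.2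
  have h10 : e.T p + e.G p * (-(e.ρ p ^ 2 * dw e.Z p) + p.1 * e.ζ p * (e.ρ p * dw e.ρ p)) / 2
      = 0 := by
    rw [← e.Z_eq h5.1, ← h6, T]
    ring
  field_simp
  linear_combination 2 * h10

/-- **All radial derivatives decay.** -/
theorem lc_all (hS : IsTubeShrinker S w δ C) (hX : ∀ᶠ p in far, e.X p ∈ S) (a : ℕ) :
    Lc (Cl a) e.ρ √2 := by
  induction a with
  | zero => exact e.lc0
  | succ a h =>
    have hB := closed_cl a
    refine cl_succ h (hB.congr (Lc.zero (((((h.sq hB).mul hB (lc_Z h (1, 0))).sub hB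
      (((lc_T h).cmul hB 2).div hB (lc_G h) two_ne_zero)).div hB ((lc_ζ h).mul hB h)
      (by simp)).cast (by norm_num))) ?_)
    filter_upwards [rad_eq hS hX] with p hp
    refine hp.symm.trans ?_
    rw [along_rad, smul_eq_mul, dw, dw, pd, pd, fderiv_sub_const]

end CylEnd

end Vale.Agent.P218GA
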