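import Vale.Agent.P218GA.Model

/-! Classes of functions on a half plane which decay together with their derivatives. -/

open Set Metric Filter Topology
open scoped ContDiff

namespace Vale.Agent.P218GA

open Vale.Agent.P218VA (pd)

/-- the first coordinate tends to infinity -/
def far : Filter (ℝ × ℝ) := comap Prod.fst atTop

lemma ev_far {P : ℝ × ℝ → Prop} : (∀ᶠ p in far, P p) ↔ ∃ R : ℝ, ∀ p : ℝ × ℝ, R ≤ p.1 → P p := by
  rw [far, eventually_comap, eventually_atTop]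
  exact ⟨fun ⟨R, h⟩ => ⟨R, fun p hp => h _ hp p rfl⟩, fun ⟨R, h⟩ => ⟨R, fun _ hb p hp =>
    h p (hp ▸ hb)⟩⟩

lemma ev_gt (R : ℝ) : ∀ᶠ p in far, R < p.1 := ev_far.2 ⟨R + 1, fun _ hp => by linarith⟩

lemma ev_nhds {P : ℝ × ℝ → Prop} (h : ∀ᶠ p in far, P p) : ∀ᶠ p in far, ∀ᶠ q in 𝓝 p, P q := by
  obtain ⟨R, hR⟩ := ev_far.1 h
  filter_upwards [ev_gt R] with p hp
  filter_upwards [(isOpen_lt continuous_const continuous_fst).mem_nhds hp] with q hq
  exact hR q (le_of_lt hq)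

lemma toZero_iff {V : Type*} [NormedAddCommGroup V] {f : ℝ × ℝ → V} :
    ToZero f ↔ Tendsto f far (𝓝 0) := by
  rw [Metric.nhds_basis_closedBall.tendsto_right_iff]
  simp only [ev_far, mem_closedBall_zero_iff]
  rfl

/-- classes of vector valued functions -/
abbrev Pred := ∀ (V : Type) [NormedAddCommGroup V] [NormedSpace ℝ V], (ℝ × ℝ → V) → Prop

/-- smooth near the origin and vanishing there -/
def Germ {V W : Type} [NormedAddCommGroup V] [NormedSpace ℝ V] [NormedAddCommGroup W]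
    [NormedSpace ℝ W] (Φ : V → W) : Prop := (∀ᶠ x in 𝓝 0, ContDiffAt ℝ ∞ Φ x) ∧ Φ 0 = 0

/-- the closure properties -/
structure Closed (B : Pred) : Prop where
  sm : ∀ {V : Type} [NormedAddCommGroup V] [NormedSpace ℝ V] {f : ℝ × ℝ → V}, B V f →
    ∀ᶠ p in far, ContDiffAt ℝ ∞ f p
  lim : ∀ {V : Type} [NormedAddCommGroup V] [NormedSpace ℝ V] {f : ℝ × ℝ → V}, B V f →
    Tendsto f far (𝓝 0)
  congr : ∀ {V : Type} [NormedAddCommGroup V] [NormedSpace ℝ V] {f g : ℝ × ℝ → V}, B V f →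
    f =ᶠ[far] g → B V g
  prod : ∀ {V W : Type} [NormedAddCommGroup V] [NormedSpace ℝ V] [NormedAddCommGroup W]
    [NormedSpace ℝ W] {f : ℝ × ℝ → V} {g : ℝ × ℝ → W}, B V f → B W g →
    B (V × W) fun p => (f p, g p)
  comp : ∀ {V W : Type} [NormedAddCommGroup V] [NormedSpace ℝ V] [NormedAddCommGroup W]
    [NormedSpace ℝ W] {f : ℝ × ℝ → V} {Φ : V → W}, B V f → Germ Φ → B W fun p => Φ (f p)

variable {V W : Type} [NormedAddCommGroup V] [NormedSpace ℝ V] [NormedAddCommGroup W]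
  [NormedSpace ℝ W] {B : Pred}

lemma Germ.of_contDiff {Φ : V → W} (h : ContDiff ℝ ∞ Φ) (h0 : Φ 0 = 0) : Germ Φ :=
  ⟨Eventually.of_forall fun _ => h.contDiffAt, h0⟩

lemma Germ.deriv {Φ : V → W} (h : Germ Φ) : Germ fun z : V × V => fderiv ℝ Φ z.1 z.2 := by
  refine ⟨?_, by simp⟩
  have h1 : ∀ᶠ z : V × V in 𝓝 0, ContDiffAt ℝ ∞ Φ z.1 := continuous_fst.continuousAt.eventually h.1
  filter_upwards [h1] with z hz
  exact ((hz.fderiv_right (m := ∞) (by simp)).comp z contDiffAt_fst).clm_apply contDiffAt_snd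

namespace Closed

variable (hB : Closed B) {f g : ℝ × ℝ → V}
include hB

lemma add (hf : B V f) (hg : B V g) : B V fun p => f p + g p :=
  hB.comp (Φ := fun z : V × V => z.1 + z.2) (hB.prod hf hg) (.of_contDiff (by fun_prop) (by simp))

lemma sub (hf : B V f) (hg : B V g) : B V fun p => f p - g p :=
  hB.comp (Φ := fun z : V × V => z.1 - z.2) (hB.prod hf hg) (.of_contDiff (by fun_prop) (by simp))

lemma const_smul (c : ℝ) (hf : B V f) : B V fun p => c • f p :=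
  hB.comp (Φ := fun z : V => c • z) hf (.of_contDiff (by fun_prop) (by simp))

lemma smul {c : ℝ × ℝ → ℝ} (hc : B ℝ c) (hf : B V f) : B V fun p => c p • f p :=
  hB.comp (Φ := fun z : ℝ × V => z.1 • z.2) (hB.prod hc hf) (.of_contDiff (by fun_prop) (by simp))

lemma diff (hf : B V f) : ∀ᶠ p in far, DifferentiableAt ℝ f p :=
  (hB.sm hf).mono fun _ hp => hp.differentiableAt (by simp)

end Closed

/-- smooth and tending to zero -/
def Base : Pred := fun _ _ _ f => (∀ᶠ p in far, ContDiffAt ℝ ∞ f p) ∧ Tendsto f far (𝓝 0)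

lemma closed_base : Closed Base where
  sm h := h.1
  lim h := h.2
  congr h e := ⟨by
    filter_upwards [h.1, ev_nhds e] with p h1 h2 using h1.congr_of_eventuallyEq (h2.mono
      fun _ hq => hq.symm), h.2.congr' e⟩
  prod h h' := ⟨by filter_upwards [h.1, h'.1] with p h1 h2 using h1.prodMk h2,
    h.2.prodMk_nhds h'.2⟩
  comp h hΦ := ⟨by filter_upwards [h.1, h.2.eventually hΦ.1] with p h1 h2 using h2.comp p h1, by
    have := hΦ.1.self_of_nhds.continuousAt.tendsto.comp h.2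
    rwa [hΦ.2] at this⟩

/-- the derivative along a vector field -/
noncomputable def along (ξ : ℝ × ℝ → ℝ × ℝ) (f : ℝ × ℝ → V) (p : ℝ × ℝ) : V := fderiv ℝ f p (ξ p)

lemma along_congr {f g : ℝ × ℝ → V} (h : f =ᶠ[far] g) (ξ : ℝ × ℝ → ℝ × ℝ) :
    along ξ f =ᶠ[far] along ξ g := by
  filter_upwards [ev_nhds h] with p hp
  rw [along, along, EventuallyEq.fderiv_eq hp]

/-- `n` derivatives along the vector fields of `Ξ` are in the class `B` -/
def Tw (Ξ : Set (ℝ × ℝ → ℝ × ℝ)) (B : Pred) : ℕ → Pred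
  | 0 => B
  | n + 1 => fun V _ _ f => Tw Ξ B n V f ∧ ∀ ξ ∈ Ξ, Tw Ξ B n V (along ξ f)

lemma Closed.tw (hB : Closed B) (Ξ : Set (ℝ × ℝ → ℝ × ℝ)) (n : ℕ) : Closed (Tw Ξ B n) := by
  induction n with
  | zero => exact hB
  | succ n ih =>
    refine ⟨fun h => ih.sm h.1, fun h => ih.lim h.1,
      fun h e => ⟨ih.congr h.1 e, fun ξ hξ => ih.congr (h.2 ξ hξ) (along_congr e ξ)⟩,
      fun h h' => ⟨ih.prod h.1 h'.1, fun ξ hξ => ih.congr (ih.prod (h.2 ξ hξ) (h'.2 ξ hξ)) ?_⟩,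
      fun h hΦ => ⟨ih.comp h.1 hΦ, fun ξ hξ =>
        ih.congr (ih.comp (ih.prod h.1 (h.2 ξ hξ)) hΦ.deriv) ?_⟩⟩
    · filter_upwards [ih.diff h.1, ih.diff h'.1] with p h1 h2
      simp only [along]
      rw [h1.fderiv_prodMk h2]
      rfl
    · filter_upwards [ih.diff h.1, (ih.lim h.1).eventually hΦ.1] with p h1 h2
      simp only [along]
      rw [fderiv_fun_comp p (h2.differentiableAt (by simp)) h1]
      rfl

/-- all derivatives along the vector fields of `Ξ` are in the class `B` -/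
def Inf (Ξ : Set (ℝ × ℝ → ℝ × ℝ)) (B : Pred) : Pred := fun V _ _ f => ∀ n, Tw Ξ B n V f

lemma Closed.inf (hB : Closed B) (Ξ : Set (ℝ × ℝ → ℝ × ℝ)) : Closed (Inf Ξ B) :=
  ⟨fun h => hB.sm (h 0), fun h => hB.lim (h 0), fun h e n => (hB.tw Ξ n).congr (h n) e,
    fun h h' n => (hB.tw Ξ n).prod (h n) (h' n), fun h hΦ n => (hB.tw Ξ n).comp (h n) hΦ⟩

lemma Inf.along {Ξ : Set (ℝ × ℝ → ℝ × ℝ)} {f : ℝ × ℝ → V} (h : Inf Ξ B V f) {ξ : ℝ × ℝ → ℝ × ℝ}
    (hξ : ξ ∈ Ξ) : Inf Ξ B V (along ξ f) := fun n => (h (n + 1)).2 ξ hξ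

/-- coinduction -/
lemma inf_of {Ξ : Set (ℝ × ℝ → ℝ × ℝ)} {P : (ℝ × ℝ → V) → Prop} (hB : Closed B)
    (h0 : ∀ f, P f → B V f) (h1 : ∀ f, P f → ∀ ξ ∈ Ξ, ∃ g, P g ∧ g =ᶠ[far] along ξ f)
    {f : ℝ × ℝ → V} (hf : P f) : Inf Ξ B V f := by
  intro n
  induction n generalizing f with
  | zero => exact h0 f hf
  | succ n ih =>
    refine ⟨ih hf, fun ξ hξ => ?_⟩
    obtain ⟨g, hg, e⟩ := h1 f hf ξ hξ
    exact (hB.tw Ξ n).congr (ih hg) e

/-- all derivatives tend to zero -/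
def Dec : Pred := Inf (range fun (v : ℝ × ℝ) (_ : ℝ × ℝ) => v) Base

lemma closed_dec : Closed Dec := closed_base.inf _

lemma Dec.pd {f : ℝ × ℝ → V} (h : Dec V f) (v : ℝ × ℝ) : Dec V (pd f v) := Inf.along h ⟨v, rfl⟩

lemma dec_of_smoothLim {f : ℝ × ℝ → ℝ} {c : ℝ} (hf : ContDiff ℝ ∞ f) (h : SmoothLim f c) :
    Dec ℝ fun p => f p - c := by
  refine inf_of (P := fun g => ContDiff ℝ ∞ g ∧
    ∀ n, Tendsto (fun p => ‖iteratedFDeriv ℝ n g p‖) far (𝓝 0)) closed_base ?_ ?_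
    ⟨hf.sub contDiff_const, fun n => ?_⟩
  · refine fun g hg => ⟨Eventually.of_forall fun _ => hg.1.contDiffAt, ?_⟩
    rw [tendsto_zero_iff_norm_tendsto_zero]
    simpa using hg.2 0
  · rintro g hg _ ⟨v, rfl⟩
    have hd : ContDiff ℝ ∞ (fderiv ℝ g) := hg.1.fderiv_right (by simp)
    refine ⟨_, ⟨hd.clm_apply contDiff_const, fun n => ?_⟩, EventuallyEq.rfl⟩
    have h2 := (hg.2 (n + 1)).const_mul ‖v‖
    rw [mul_zero] at h2
    refine squeeze_zero (fun _ => norm_nonneg _) (fun p => ?_) h2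
    rw [← norm_iteratedFDeriv_fderiv]
    exact norm_iteratedFDeriv_clm_apply_const hd.contDiffAt (mod_cast le_top)
  · rw [← tendsto_zero_iff_norm_tendsto_zero, ← toZero_iff]
    exact h n

/-- the radial vector field -/
def rad (p : ℝ × ℝ) : ℝ × ℝ := (p.1, 0)

lemma along_rad (f : ℝ × ℝ → V) (p : ℝ × ℝ) : along rad f p = p.1 • dw f p := by
  rw [along, dw, pd, ← map_smul, rad]
  simp

lemma along_rad_pd {f : ℝ × ℝ → V} {p : ℝ × ℝ} (hf : ContDiffAt ℝ ∞ f p) (v : ℝ × ℝ) :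
    along rad (pd f v) p = pd (along rad f) v p - v.1 • dw f p := by
  have h2 : ContDiffAt ℝ 2 f p := hf.of_le (by norm_cast)
  have e : along rad f = fun q => q.1 • pd f (1, 0) q := funext (along_rad f)
  have e2 := fderiv_fun_smul (differentiableAt_fst (𝕜 := ℝ) (p := p))
    (Vale.Agent.P218VA.differentiableAt_pd h2 (1, 0))
  rw [along_rad, e, dw, dw, Vale.Agent.P218VA.pd_comm h2 v (1, 0)]
  conv_rhs => rw [pd, e2, fderiv_fst]
  simp [pd]

/-- `a` radial derivatives decay -/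
def Cl (a : ℕ) : Pred := Tw {rad} Dec a

lemma closed_cl (a : ℕ) : Closed (Cl a) := closed_dec.tw _ a

lemma Cl.pd {a : ℕ} {f : ℝ × ℝ → V} (h : Cl a V f) (v : ℝ × ℝ) : Cl a V (pd f v) := by
  induction a generalizing f v with
  | zero => exact Dec.pd h v
  | succ a ih =>
    refine ⟨ih h.1 v, ?_⟩
    rintro _ rfl
    refine (closed_cl a).congr ((closed_cl a).sub (ih (h.2 _ rfl) v)
      ((closed_cl a).const_smul v.1 (ih h.1 (1, 0)))) ?_
    filter_upwards [(closed_cl a).sm h.1] with p hp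
    exact (along_rad_pd hp v).symm

lemma cl_succ {a : ℕ} {f : ℝ × ℝ → V} (h : Cl a V f) (h' : Cl a V (along rad f)) :
    Cl (a + 1) V f := ⟨h, by rintro _ rfl; exact h'⟩

lemma fderiv_zpow_fst (c : ℝ) (k : ℤ) {p : ℝ × ℝ} (hp : p.1 ≠ 0) (v : ℝ × ℝ) :
    fderiv ℝ (fun q : ℝ × ℝ => c * q.1 ^ k) p v = c * k * v.1 * p.1 ^ (k - 1) := by
  have := (((hasDerivAt_zpow k p.1 (Or.inl hp)).comp_hasFDerivAt p
    (hasFDerivAt_fst (𝕜 := ℝ))).const_mul c).fderiv
  rw [show (fun q : ℝ × ℝ => c * q.1 ^ k) = fun y => c * ((fun x : ℝ => x ^ k) ∘ Prod.fst) y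
    from rfl, this]
  simp
  ring

lemma dec_zpow (c : ℝ) {k : ℤ} (hk : k < 0) : Dec ℝ fun p => c * p.1 ^ k := by
  refine inf_of (P := fun g => ∃ (c : ℝ) (k : ℤ), k < 0 ∧ g = fun p => c * p.1 ^ k) closed_base
    ?_ ?_ ⟨c, k, hk, rfl⟩
  · rintro _ ⟨c, k, hk, rfl⟩
    refine ⟨(ev_gt 0).mono fun p hp => contDiffAt_const.mul ?_, ?_⟩
    · obtain ⟨n, rfl⟩ := Int.exists_eq_neg_ofNat hk.le
      simp only [zpow_neg, zpow_natCast]
      exact (contDiffAt_fst.pow n).inv (pow_ne_zero n hp.ne')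
    · have := ((tendsto_zpow_atTop_zero hk).comp
        (tendsto_comap (f := (Prod.fst : ℝ × ℝ → ℝ)))).const_mul c
      rwa [mul_zero] at this
  · rintro _ ⟨c, k, hk, rfl⟩ _ ⟨v, rfl⟩
    refine ⟨_, ⟨c * k * v.1, k - 1, by omega, rfl⟩, (ev_gt 0).mono fun p hp => ?_⟩
    exact (fderiv_zpow_fst c k hp.ne' v).symm

lemma cl_inv (a : ℕ) : Cl a ℝ fun p => p.1⁻¹ := by
  have h := inf_of (Ξ := {rad}) (P := fun g => ∃ c : ℝ, g = fun p => c * p.1 ^ (-1 : ℤ))
    closed_dec (by rintro _ ⟨c, rfl⟩; exact dec_zpow c (by norm_num)) ?_ ⟨1, rfl⟩ a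
  · simpa [Cl] using h
  · rintro _ ⟨c, rfl⟩ _ rfl
    refine ⟨_, ⟨-c, rfl⟩, (ev_gt 0).mono fun p hp => ?_⟩
    rw [along, fderiv_zpow_fst c _ hp.ne', rad]
    have := hp.ne'
    simp only [zpow_neg, Int.reduceSub, Int.reduceNeg, zpow_ofNat]
    push_cast
    field_simp

/-- **Change of the radial variable.** -/
theorem toZero_subst {K : (ℝ × ℝ → ℝ) → Prop} (hK : ∀ g, K g → Base ℝ g) {c σ : ℝ → ℝ}
    (hth : ∀ g, K g → K (dth g))
    (hrad : ∀ (g : ℝ × ℝ → ℝ) (a : ℝ), K g → K fun p => c p.1 * dw g p - a * g p)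
    (hσ : Tendsto σ atTop atTop)
    (hσ' : ∀ᶠ w in atTop, ContDiffAt ℝ ∞ σ w ∧ w * deriv σ w = c (σ w))
    {g f : ℝ × ℝ → ℝ} (hg : K g) (hf : f =ᶠ[far] fun p => g (σ p.1, p.2)) (a b : ℕ) :
    ToZero fun p => p.1 ^ a * dw^[a] (dth^[b] f) p := by
  have hT : Tendsto (fun p : ℝ × ℝ => (σ p.1, p.2)) far far :=
    tendsto_comap_iff.2 (hσ.comp tendsto_comap)
  have hσf : ∀ᶠ p in far, ContDiffAt ℝ ∞ σ p.1 ∧ p.1 * deriv σ p.1 = c (σ p.1) :=
    tendsto_comap.eventually hσ'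
  have hD : ∀ g, K g → ∀ᶠ p in far, ∀ v : ℝ × ℝ, pd (fun p : ℝ × ℝ => g (σ p.1, p.2)) v p
      = fderiv ℝ g (σ p.1, p.2) (v.1 * deriv σ p.1, v.2) := by
    intro g hg
    filter_upwards [hT.eventually (closed_base.diff (hK g hg)), hσf] with p h1 h2 v
    have h3 := ((h2.1.differentiableAt (by simp)).hasDerivAt.comp_hasFDerivAt p
      (hasFDerivAt_fst (𝕜 := ℝ))).prodMk (hasFDerivAt_snd (𝕜 := ℝ))
    have h4 := (h1.hasFDerivAt.comp p h3).fderiv
    rw [pd, show (fun p : ℝ × ℝ => g (σ p.1, p.2)) = g ∘ fun x => ((σ ∘ Prod.fst) x, x.2)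
      from rfl, h4]
    simp [mul_comm]
  have hS : ∀ g, K g → ∀ᶠ p in far, ContDiffAt ℝ ∞ (fun p : ℝ × ℝ => g (σ p.1, p.2)) p := by
    intro g hg
    filter_upwards [hT.eventually (hK g hg).1, hσf] with p h1 h2
    exact h1.comp p ((h2.1.comp p contDiffAt_fst).prodMk contDiffAt_snd)
  have hb : ∃ g, K g ∧ dth^[b] f =ᶠ[far] fun p => g (σ p.1, p.2) := by
    induction b with
    | zero => exact ⟨g, hg, hf⟩
    | succ b ih =>
      obtain ⟨g', hg', e⟩ := ih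
      refine ⟨dth g', hth g' hg', ?_⟩
      rw [Function.iterate_succ_apply']
      filter_upwards [along_congr e fun _ => (0, 1), hD g' hg'] with p h1 h2
      refine h1.trans ((h2 (0, 1)).trans ?_)
      simp [dth, pd]
  obtain ⟨g₀, hg₀, e₀⟩ := hb
  have ha : ∃ g, K g ∧ (∀ᶠ p in far, ContDiffAt ℝ ∞ (dw^[a] (dth^[b] f)) p) ∧
      (fun p => p.1 ^ a * dw^[a] (dth^[b] f) p) =ᶠ[far] fun p => g (σ p.1, p.2) := by
    induction a with
    | zero =>
      refine ⟨g₀, hg₀, ?_, by simpa using e₀⟩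
      filter_upwards [hS g₀ hg₀, ev_nhds e₀] with p h1 h2 using h1.congr_of_eventuallyEq h2
    | succ a ih =>
      obtain ⟨g', hg', s, e⟩ := ih
      refine ⟨_, hrad g' a hg', ?_, ?_⟩
      · rw [Function.iterate_succ_apply']
        exact s.mono fun p hp => Vale.Agent.P218VA.contDiffAt_pd hp (by simp) _
      · rw [Function.iterate_succ_apply']
        filter_upwards [along_congr e fun _ => (1, 0), hD g' hg', e, s, hσf] with p h1 h2 h3 h4 h5
        have h6 := (((hasDerivAt_pow a p.1).comp_hasFDerivAt p (hasFDerivAt_fst (𝕜 := ℝ))).mul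
          (h4.differentiableAt (by simp)).hasFDerivAt).fderiv
        have h7 : along (fun _ => (1, 0)) (fun p => p.1 ^ a * dw^[a] (dth^[b] f) p) p
            = p.1 ^ a * dw (dw^[a] (dth^[b] f)) p + dw^[a] (dth^[b] f) p * (a * p.1 ^ (a - 1)) := by
          rw [along, show (fun p : ℝ × ℝ => p.1 ^ a * dw^[a] (dth^[b] f) p)
            = ((fun x : ℝ => x ^ a) ∘ Prod.fst) * dw^[a] (dth^[b] f) from rfl, h6]
          simp [dw, pd]
        have h8 : along (fun _ => (1, 0)) (fun p : ℝ × ℝ => g' (σ p.1, p.2)) p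
            = deriv σ p.1 * dw g' (σ p.1, p.2) := by
          refine (h2 (1, 0)).trans ?_
          rw [dw, pd, ← smul_eq_mul (deriv σ p.1), ← map_smul]
          simp
        have h9 : p.1 * (a * p.1 ^ (a - 1)) = a * p.1 ^ a := by
          cases a with
          | zero => simp
          | succ a => simp [pow_succ]; ring
        rw [h7, h8] at h1
        rw [← h5.2, ← h3]
        linear_combination p.1 * h1 - dw^[a] (dth^[b] f) p * h9
  obtain ⟨g₁, hg₁, -, e₁⟩ := ha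
  exact toZero_iff.2 (((hK g₁ hg₁).2.comp hT).congr' e₁.symm)

end Vale.Agent.P218GA
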