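import Vale.Agent.P218.H63.Defs

/-! Surfaces in three-space all of whose ends are conical or cylindrical. -/

open Set Metric
open scoped RealInnerProductSpace

namespace Vale.Agent.P218GA

/-- Euclidean three-space -/
abbrev E3 := EuclideanSpace ℝ (Fin 3)

/-- `f (s, θ) → c` as `s → ∞`, uniformly in `θ` and together with all derivatives -/
def SmoothLim (f : ℝ × ℝ → ℝ) (c : ℝ) : Prop :=
  ∀ (n : ℕ) (ε : ℝ), 0 < ε → ∃ R : ℝ, ∀ p : ℝ × ℝ, R ≤ p.1 →
    ‖iteratedFDeriv ℝ n (fun q => f q - c) p‖ ≤ ε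

/-- An end asymptotic to a half of the round cylinder of radius `√2` with axis `Q e₃`: on the
sphere of radius `r`, at the angle `θ` around the axis, its distance to the axis is `ρ (r, θ)`,
and `ρ → √2` smoothly as `r → ∞`. -/
structure CylEnd where
  /-- the position of the axis -/
  Q : E3 ≃ₗᵢ[ℝ] E3
  /-- the distance to the axis -/
  ρ : ℝ × ℝ → ℝ
  smooth : ContDiff ℝ (⊤ : ℕ∞) ρ
  periodic : ∀ r θ, ρ (r, θ + 2 * Real.pi) = ρ (r, θ)
  lim : SmoothLim ρ √2

/-- the direction of a cylindrical end -/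
noncomputable def CylEnd.axis (e : CylEnd) : E3 := e.Q !₂[0, 0, 1]

/-- the point of a cylindrical end at distance `r` from the origin and at the angle `θ` -/
noncomputable def CylEnd.pt (e : CylEnd) (r θ : ℝ) : E3 :=
  e.Q !₂[e.ρ (r, θ) * Real.cos θ, e.ρ (r, θ) * Real.sin θ, √(r ^ 2 - e.ρ (r, θ) ^ 2)]

/-- A smooth embedded closed curve `γ` in the unit sphere, parametrised with constant speed `c`
and period `2π`, with a unit normal `n` tangent to the sphere. -/
structure Link where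
  /-- the curve -/
  γ : ℝ → E3
  /-- the unit normal in the sphere -/
  n : ℝ → E3
  /-- the speed -/
  c : ℝ
  c_pos : 0 < c
  γ_smooth : ContDiff ℝ (⊤ : ℕ∞) γ
  n_smooth : ContDiff ℝ (⊤ : ℕ∞) n
  γ_periodic : Function.Periodic γ (2 * Real.pi)
  n_periodic : Function.Periodic n (2 * Real.pi)
  γ_unit : ∀ θ, ‖γ θ‖ = 1
  n_unit : ∀ θ, ‖n θ‖ = 1
  speed : ∀ θ, ‖deriv γ θ‖ = c
  orth : ∀ θ, ⟪n θ, γ θ⟫ = 0
  orth' : ∀ θ, ⟪n θ, deriv γ θ⟫ = 0
  inj : InjOn γ (Ico 0 (2 * Real.pi))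

/-- An end asymptotic to the cone over the curve `γ`: on the sphere of radius `r = e^s` it is the
normal graph of the angle `u (s, θ)` over `r γ`, and `u → 0` smoothly as `s → ∞`. -/
structure ConeEnd extends Link where
  /-- the angle to the cone -/
  u : ℝ × ℝ → ℝ
  smooth : ContDiff ℝ (⊤ : ℕ∞) u
  periodic : ∀ s θ, u (s, θ + 2 * Real.pi) = u (s, θ)
  lim : SmoothLim u 0

/-- the point of a conical end at distance `r` from the origin over the point `γ θ` -/
noncomputable def ConeEnd.pt (e : ConeEnd) (r θ : ℝ) : E3 :=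
  r • (Real.cos (e.u (Real.log r, θ)) • e.γ θ + Real.sin (e.u (Real.log r, θ)) • e.n θ)

/-- Outside a ball, `S` consists of finitely many cylindrical and conical ends, with distinct
asymptotic directions. -/
def HasCylConeEnds (S : Set E3) : Prop :=
  ∃ (k l : ℕ) (A : Fin k → CylEnd) (B : Fin l → ConeEnd) (R : ℝ),
    (∀ i i', (A i).axis = (A i').axis → i = i') ∧
    (∀ i j θ, (A i).axis ≠ (B j).γ θ) ∧
    (∀ j j' θ θ', (B j).γ θ = (B j').γ θ' → j = j') ∧
    ∀ r, R < r → S ∩ sphere 0 r = (⋃ i, range ((A i).pt r)) ∪ ⋃ j, range ((B j).pt r)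

end Vale.Agent.P218GA
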