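import Vale.Agent.P218GA.Lim
import Vale.Agent.P218.H63.Geom
import Vale.Agent.P218.H313.Basic

/-! The divergence theorem on the zero set of a signed distance function. -/

open MeasureTheory Set Filter Topology Metric Module
open scoped ENNReal NNReal RealInnerProductSpace

namespace Vale.Agent.P218GA

set_option linter.unusedSectionVars false

open Vale.Agent.P214 (proj divAlong)
open Vale.Agent.P218.H63 (lap contDiff_gradient hess_symm IsTubeShrinker)
open Vale.Agent.P218.H313 (tr trL tr_eq_sum tr_sub tr_add tr_comm tr_comp_smulRight abs_tr_le)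
open Vale.Agent.P218.H552 (MC)

/-- a bump -/
noncomputable def bump0 : ContDiffBump (0 : ℝ) := ⟨1 / 2, 1, by norm_num, by norm_num⟩

/-- a smooth probability density supported in `[-1, 1]` -/
noncomputable def eta : ℝ → ℝ := bump0.normed volume

lemma contDiff_eta : ContDiff ℝ 1 eta := bump0.contDiff_normed
lemma eta_nonneg (t : ℝ) : 0 ≤ eta t := bump0.nonneg_normed t
lemma integral_eta : ∫ t, eta t = 1 := bump0.integral_normed
lemma eta_compact : HasCompactSupport eta := bump0.hasCompactSupport_normed

lemma eta_eq_zero (t : ℝ) (ht : 1 < |t|) : eta t = 0 := by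
  by_contra h
  have h1 : t ∈ Function.support (bump0.normed volume) := h
  rw [bump0.support_normed_eq, mem_ball_zero_iff, Real.norm_eq_abs] at h1
  have : bump0.rOut = 1 := rfl
  linarith

lemma contDiff_aid (ε : ℝ) : ContDiff ℝ 1 (aid eta ε) :=
  contDiff_const.mul (contDiff_eta.comp (contDiff_id.div_const ε))

lemma aid_nonneg {ε : ℝ} (hε : 0 < ε) (t : ℝ) : 0 ≤ aid eta ε t :=
  mul_nonneg (inv_nonneg.2 hε.le) (eta_nonneg _)

lemma aid_zero {ε t : ℝ} (hε : 0 < ε) (ht : ε < |t|) : aid eta ε t = 0 :=
  aid_eq_zero eta_eq_zero hε (by rwa [one_mul])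

lemma deriv_aid_zero {ε t : ℝ} (hε : 0 < ε) (ht : ε < |t|) : deriv (aid eta ε) t = 0 := by
  have h : aid eta ε =ᶠ[𝓝 t] fun _ => 0 := by
    filter_upwards [(isOpen_lt continuous_const continuous_abs).mem_nhds ht] with s hs
    exact aid_zero hε hs
  rw [h.deriv_eq, deriv_const]

variable {E : Type*} [NormedAddCommGroup E] [InnerProductSpace ℝ E] [FiniteDimensional ℝ E]

/-- the divergence -/
noncomputable def dv (X : E → E) (x : E) : ℝ := tr (fderiv ℝ X x)

lemma lap_eq (w : E → ℝ) (x : E) : lap w x = dv (gradient w) x := rfl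

lemma continuous_dv {X : E → E} (hX : ContDiff ℝ 1 X) : Continuous (dv X) :=
  (trL E).continuous.comp (hX.continuous_fderiv one_ne_zero)

lemma continuous_lap {w : E → ℝ} (hw : ContDiff ℝ 2 w) : Continuous (lap w) :=
  continuous_dv (contDiff_gradient hw (by norm_num))

lemma dv_compact {X : E → E} (hX : HasCompactSupport X) : HasCompactSupport (dv X) :=
  (hX.fderiv ℝ).comp_left (g := trL E) (map_zero _)

lemma dv_smul {f : E → ℝ} {X : E → E} {x : E} (hf : DifferentiableAt ℝ f x)
    (hX : DifferentiableAt ℝ X x) :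
    dv (fun y => f y • X y) x = f x * dv X x + fderiv ℝ f x (X x) := by
  rw [dv, fderiv_fun_smul hf hX, tr_add, Vale.Agent.P218.H313.tr_smul]
  have := tr_comp_smulRight (ContinuousLinearMap.id ℝ E) (fderiv ℝ f x) (X x)
  rw [ContinuousLinearMap.id_comp] at this
  rw [this]
  rfl

lemma dv_sub {X Y : E → E} {x : E} (hX : DifferentiableAt ℝ X x) (hY : DifferentiableAt ℝ Y x) :
    dv (fun y => X y - Y y) x = dv X x - dv Y x := by
  rw [dv, fderiv_fun_sub hX hY, tr_sub]
  rfl

lemma tr_proj_hyp {ν : E} (hν : ‖ν‖ = 1) (A : E →L[ℝ] E) :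
    tr ((proj (hyp ν)).comp A) = tr A - ⟪ν, A ν⟫ := by
  have e : (proj (hyp ν)).comp A = A - ((innerSL ℝ ν).smulRight ν).comp A := by
    ext v
    simp [proj, proj_hyp hν]
  rw [e, tr_sub, tr_comm, tr_comp_smulRight]
  rfl

lemma divAlong_hyp {ν : E} (hν : ‖ν‖ = 1) (X : E → E) (x : E) :
    divAlong (hyp ν) X x = dv X x - ⟪ν, fderiv ℝ X x ν⟫ := tr_proj_hyp hν _

/-- `w` is a signed distance function in the tube `{|w| < δ}`, with Hessian bounded by `C` -/
structure IsTube (w : E → ℝ) (δ C : ℝ) : Prop where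
  pos : 0 < δ
  smooth : ContDiff ℝ 2 w
  norm_grad : ∀ x, |w x| < δ → ‖gradient w x‖ = 1
  hess_le : ∀ x, |w x| < δ → ‖fderiv ℝ (gradient w) x‖ ≤ C

variable {w : E → ℝ} {δ C : ℝ}

lemma isTube_of_shrinker {S : Set E} (h : IsTubeShrinker S w δ C) : IsTube w δ C :=
  ⟨h.pos, h.smooth.of_le (by norm_num), h.norm_grad, h.hess_le⟩

namespace IsTube

variable (h : IsTube w δ C)
include h

lemma cd1 : ContDiff ℝ 1 w := h.smooth.of_le (by norm_num)

lemma cdg : ContDiff ℝ 1 (gradient w) := contDiff_gradient h.smooth (by norm_num)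

lemma isOpen : IsOpen {x | |w x| < δ} := isOpen_lt h.smooth.continuous.abs continuous_const

lemma lt_of_zero {x : E} (hx : w x = 0) : |w x| < δ := by
  rw [hx, abs_zero]; exact h.pos

lemma unit (x : E) (hx : w x = 0) : ‖gradient w x‖ = 1 := h.norm_grad x (h.lt_of_zero hx)

lemma hess_grad {x : E} (hx : |w x| < δ) : fderiv ℝ (gradient w) x (gradient w x) = 0 := by
  have hd : HasFDerivAt (gradient w) (fderiv ℝ (gradient w) x) x :=
    (h.cdg.differentiable one_ne_zero x).hasFDerivAt
  have h3 : (fun y => ‖gradient w y‖ ^ 2) =ᶠ[𝓝 x] fun _ => 1 := by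
    filter_upwards [h.isOpen.mem_nhds hx] with y hy
    rw [h.norm_grad y hy]; norm_num
  have h5 := hd.norm_sq.unique ((hasFDerivAt_const (1 : ℝ) x).congr_of_eventuallyEq h3)
  apply ext_inner_left ℝ
  intro v
  rw [inner_zero_right, ← hess_symm h.smooth]
  have h6 := congrArg (fun L : E →L[ℝ] ℝ => L v) h5
  simpa [real_inner_comm] using h6

lemma abs_lap_le {x : E} (hx : |w x| < δ) : |lap w x| ≤ finrank ℝ E * C :=
  (abs_tr_le _).trans (mul_le_mul_of_nonneg_left (h.hess_le x hx) (Nat.cast_nonneg _))

end IsTube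

variable [MeasurableSpace E] [BorelSpace E] {m : ℕ}

/-- the integral of a divergence vanishes -/
lemma integral_dv {X : E → E} (hX : ContDiff ℝ 1 X) (hXc : HasCompactSupport X) :
    ∫ x, dv X x = 0 := by
  set b := stdOrthonormalBasis ℝ E
  have hd : ∀ i x, ⟪b i, fderiv ℝ X x (b i)⟫ = fderiv ℝ (fun y => ⟪b i, X y⟫) x (b i) := by
    intro i x
    have := ((innerSL ℝ (b i)).hasFDerivAt.comp x
      (hX.differentiable one_ne_zero x).hasFDerivAt).fderiv
    rw [show (fun y => ⟪b i, X y⟫) = (innerSL ℝ (b i)) ∘ X from rfl, this]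
    rfl
  have hc : ∀ i, ContDiff ℝ 1 fun y => ⟪b i, X y⟫ := fun i => contDiff_const.inner ℝ hX
  have hs : ∀ i, HasCompactSupport fun y => ⟪b i, X y⟫ := fun i =>
    hXc.comp_left (g := fun v => ⟪b i, v⟫) (inner_zero_right _)
  have hi : ∀ i, Integrable fun x => fderiv ℝ (fun y => ⟪b i, X y⟫) x (b i) := fun i =>
    (((hc i).continuous_fderiv one_ne_zero).clm_apply
      continuous_const).integrable_of_hasCompactSupport ((hs i).fderiv_apply ℝ (b i))
  simp only [dv, tr_eq_sum]
  change ∫ x, ∑ i, ⟪b i, fderiv ℝ X x (b i)⟫ = 0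
  simp only [hd]
  rw [integral_finsetSum _ fun i _ => hi i]
  refine Finset.sum_eq_zero fun i _ => ?_
  have := integral_mul_fderiv_eq_neg_fderiv_mul_of_integrable (μ := (volume : Measure E))
    (f := fun _ : E => (1 : ℝ)) (g := fun y => ⟪b i, X y⟫) (v := b i) (by simp)
    (by simpa using hi i)
    (by simpa using (hc i).continuous.integrable_of_hasCompactSupport (hs i))
    (fun _ _ => differentiableAt_const _) (fun x _ => (hc i).differentiable one_ne_zero x)
  simpa using this

/-- integration by parts -/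
lemma integral_mul_dv {f : E → ℝ} {X : E → E} (hf : ContDiff ℝ 1 f) (hX : ContDiff ℝ 1 X)
    (hXc : HasCompactSupport X) : ∫ x, f x * dv X x = - ∫ x, fderiv ℝ f x (X x) := by
  have h0 := integral_dv (hf.smul hX) hXc.smul_left
  have e : ∀ x, dv (f • X) x = f x * dv X x + fderiv ℝ f x (X x) := fun x =>
    dv_smul (hf.differentiable one_ne_zero x) (hX.differentiable one_ne_zero x)
  have i1 : Integrable fun x => f x * dv X x :=
    (hf.continuous.mul (continuous_dv hX)).integrable_of_hasCompactSupport
      (dv_compact hXc).mul_left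
  have i2 : Integrable fun x => fderiv ℝ f x (X x) := by
    refine ((hf.continuous_fderiv one_ne_zero).clm_apply
      hX.continuous).integrable_of_hasCompactSupport (hXc.mono fun x hx h0 => hx ?_)
    simp [h0]
  have h1 : ∫ x, dv (f • X) x = 0 := h0
  simp only [e] at h1
  rw [integral_add i1 i2] at h1
  linarith

/-- integration by parts against a function of `w` -/
lemma integral_comp_mul_dv {θ : ℝ → ℝ} {X : E → E} (hw : ContDiff ℝ 1 w) (hθ : ContDiff ℝ 1 θ)
    (hX : ContDiff ℝ 1 X) (hXc : HasCompactSupport X) :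
    ∫ x, θ (w x) * dv X x = - ∫ x, deriv θ (w x) * ⟪gradient w x, X x⟫ := by
  rw [integral_mul_dv (f := fun x => θ (w x)) (hθ.comp hw) hX hXc]
  congr 2
  ext x
  have := ((hθ.differentiable one_ne_zero (w x)).hasDerivAt.comp_hasFDerivAt x
    (hw.differentiable one_ne_zero x).hasFDerivAt).fderiv
  rw [show (fun x => θ (w x)) = θ ∘ w from rfl, this, inner_grad]
  rfl

lemma ae_area (hw : Continuous w) : ∀ᵐ x ∂(area m w), w x = 0 :=
  ae_restrict_mem (measurableSet_zero hw)

namespace IsTube

variable (h : IsTube w δ C) (hE : finrank ℝ E = m + 1)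
include h hE

lemma locFin : IsLocallyFiniteMeasure (area m w) := area_locallyFinite hE h.cd1 h.unit

lemma slab {g : E → ℝ} (hg : Continuous g) (hgc : HasCompactSupport g) :
    Tendsto (fun ε => cH m * ∫ x, g x * aid eta ε (w x)) (𝓝[>] 0) (𝓝 (∫ x, g x ∂(area m w))) :=
  slab_limit hE h.cd1 h.unit contDiff_eta.continuous eta_compact integral_eta hg hgc

/-- the ambient divergence of a field tangent to the level sets integrates to zero -/
lemma integral_dv_tangent {Y : E → E} (hY : ContDiff ℝ 1 Y) (hYc : HasCompactSupport Y)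
    (hYt : ∀ x, |w x| < δ → ⟪gradient w x, Y x⟫ = 0) : ∫ x, dv Y x ∂(area m w) = 0 := by
  refine tendsto_nhds_unique (h.slab hE (continuous_dv hY) (dv_compact hYc))
    (tendsto_const_nhds.congr' ?_)
  filter_upwards [Ioo_mem_nhdsGT h.pos] with ε hε
  have e := integral_comp_mul_dv h.cd1 (contDiff_aid ε) hY hYc
  have e2 : ∀ x, deriv (aid eta ε) (w x) * ⟪gradient w x, Y x⟫ = 0 := by
    intro x
    rcases lt_or_ge |w x| δ with hx | hx
    · rw [hYt x hx, mul_zero]
    · rw [deriv_aid_zero hε.1 (hε.2.trans_le hx), zero_mul]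
  simp only [e2, integral_zero, neg_zero] at e
  simp only [mul_comm (dv Y _), e, mul_zero]

/-- **The divergence theorem** on `{w = 0}`. -/
theorem div_theorem {X : E → E} (hX : ContDiff ℝ 1 X) (hXc : HasCompactSupport X) :
    ∫ x, divAlong (hyp (gradient w x)) X x ∂(area m w)
      = ∫ x, ⟪X x, gradient w x⟫ * lap w x ∂(area m w) := by
  have hlf := h.locFin hE
  have hf : ContDiff ℝ 1 fun x => ⟪X x, gradient w x⟫ := hX.inner ℝ h.cdg
  have hfc : HasCompactSupport fun x => ⟪X x, gradient w x⟫ :=
    hXc.mono fun x hx h0 => hx (by simp [h0])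
  have hZ : ContDiff ℝ 1 fun x => ⟪X x, gradient w x⟫ • gradient w x := hf.smul h.cdg
  have hZc : HasCompactSupport fun x => ⟪X x, gradient w x⟫ • gradient w x := hfc.smul_right
  have h0 := h.integral_dv_tangent hE (hX.sub hZ) (hXc.sub hZc) fun x hx => by
    rw [inner_sub_right, inner_smul_right, real_inner_self_eq_norm_sq, h.norm_grad x hx,
      real_inner_comm]
    ring
  have i0 : Integrable (dv fun x => X x - ⟪X x, gradient w x⟫ • gradient w x) (area m w) :=
    (continuous_dv (hX.sub hZ)).integrable_of_hasCompactSupport (dv_compact (hXc.sub hZc))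
  have i1 : Integrable (fun x => ⟪X x, gradient w x⟫ * lap w x) (area m w) :=
    (hf.continuous.mul (continuous_lap h.smooth)).integrable_of_hasCompactSupport hfc.mul_right
  rw [← zero_add (∫ x, ⟪X x, gradient w x⟫ * lap w x ∂(area m w)), ← h0, ← integral_add i0 i1]
  refine integral_congr_ae ?_
  filter_upwards [ae_area h.smooth.continuous] with x hx
  have dX := hX.differentiable one_ne_zero x
  have dG := h.cdg.differentiable one_ne_zero x
  rw [divAlong_hyp (h.unit x hx), dv_sub dX (hZ.differentiable one_ne_zero x),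
    dv_smul (hf.differentiable one_ne_zero x) dG, fderiv_inner_apply ℝ dX dG,
    h.hess_grad (h.lt_of_zero hx), inner_zero_right, real_inner_comm, lap_eq]
  ring

omit hE in
lemma proj_meas : AEStronglyMeasurable (fun x => proj (hyp (gradient w x))) (area m w) := by
  have hc : Continuous fun x => ContinuousLinearMap.id ℝ E
      - ContinuousLinearMap.smulRightL ℝ E E (innerSL ℝ (gradient w x)) (gradient w x) :=
    continuous_const.sub ((((ContinuousLinearMap.smulRightL ℝ E E).continuous.comp
      ((innerSL ℝ).continuous.comp h.cdg.continuous))).clm_apply h.cdg.continuous)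
  refine hc.aestronglyMeasurable.congr ?_
  filter_upwards [ae_area h.smooth.continuous] with x hx
  ext v
  simp [proj, proj_hyp (h.unit x hx)]

/-- the zero set is a varifold with mean curvature `-Δw ∇w` -/
theorem mc : MC m (area m w) (fun x => hyp (gradient w x)) fun x => -lap w x • gradient w x := by
  have hlf := h.locFin hE
  have hH : Continuous fun x => -lap w x • gradient w x :=
    (continuous_lap h.smooth).neg.smul h.cdg.continuous
  refine ⟨inferInstance, h.proj_meas, ?_, hH.aestronglyMeasurable,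
    fun K hK => (hH.norm.pow 2).continuousOn.integrableOn_compact hK,
    Eventually.of_forall fun x => ?_, fun X hX hXc => ?_⟩
  · filter_upwards [ae_area h.smooth.continuous] with x hx
    refine finrank_hyp hE fun h0 => ?_
    have := h.unit x hx
    rw [h0, norm_zero] at this
    exact zero_ne_one this
  · rw [Submodule.orthogonal_orthogonal]
    exact Submodule.smul_mem _ _ (Submodule.mem_span_singleton_self _)
  · rw [h.div_theorem hE hX hXc, ← integral_neg]
    congr 1
    ext x
    rw [inner_smul_right]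
    ring

end IsTube

end Vale.Agent.P218GA
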