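import Vale.Agent.P218GA.CylDec
import Vale.Agent.P218GA.ModelB
import Vale.Agent.P218MP.Polar

/-! The ends in the coordinates of the working model. -/

open Set Metric Filter Topology
open scoped ContDiff RealInnerProductSpace Real

namespace Vale.Agent.P218GA

open Vale.Agent.P218.H63 (IsTubeShrinker)
open Vale.Agent.P218VA (pd pd_congr E2)
open Vale.Agent.P218MP

/-- a parametrisation of an end by spherical cross sections -/
structure EndPar (S : Set E3) (W : ℝ) (Y : ℝ × ℝ → E3) : Prop where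
  per : Per Y
  smooth : ∀ p, W < p.1 → ContDiffAt ℝ ∞ Y p
  imm : ∀ p, W < p.1 → Function.Injective (fderiv ℝ Y p)
  inj : ∀ p q, W < p.1 → W < q.1 → Y p = Y q → pol p = pol q
  norm : ∀ p, W < p.1 → ‖Y p‖ ^ 2 = 4 * p.1
  mem : ∀ p, W < p.1 → Y p ∈ S

lemma ev_atTop {P : ℝ × ℝ → Prop} (h : ∀ᶠ p in far, P p) :
    ∀ᶠ W in atTop, ∀ p : ℝ × ℝ, W < p.1 → P p := by
  obtain ⟨R, hR⟩ := ev_far.1 h
  filter_upwards [eventually_ge_atTop R] with W hW p hp using hR p (by linarith)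

lemma inj_of_norm {Y : ℝ × ℝ → E3} {p : ℝ × ℝ} (hY : DifferentiableAt ℝ Y p)
    (hn : ∀ᶠ q in 𝓝 p, ‖Y q‖ ^ 2 = 4 * q.1) (h : dth Y p ≠ 0) :
    Function.Injective (fderiv ℝ Y p) := by
  have h1 := hY.hasFDerivAt.norm_sq.unique
    (((hasFDerivAt_fst (𝕜 := ℝ) (p := p)).const_mul 4).congr_of_eventuallyEq hn)
  rw [injective_iff_map_eq_zero]
  intro v hv
  have h2 := congrArg (fun L => L v) h1
  simp [hv] at h2
  have h3 : v = v.2 • ((0, 1) : ℝ × ℝ) := by ext <;> simp [h2]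
  rw [h3, map_smul, smul_eq_zero] at hv
  rw [h3, hv.resolve_right h, zero_smul]

lemma endPar_of {S : Set E3} {Y : ℝ × ℝ → E3} (h0 : Per Y) (h1 : ∀ᶠ p in far, ContDiffAt ℝ ∞ Y p)
    (h2 : ∀ᶠ p in far, dth Y p ≠ 0)
    (h3 : ∀ᶠ p in far, ∀ θ, Y p = Y (p.1, θ) → pol p = pol (p.1, θ))
    (h4 : ∀ᶠ p in far, ‖Y p‖ ^ 2 = 4 * p.1) (h5 : ∀ᶠ p in far, Y p ∈ S) :
    ∀ᶠ W in atTop, EndPar S W Y := by
  filter_upwards [ev_atTop h1, ev_atTop h2, ev_atTop h3, ev_atTop h4, ev_atTop (ev_nhds h4),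
    ev_atTop h5] with W a1 a2 a3 a4 a4' a5
  refine ⟨h0, a1, fun p hp => inj_of_norm ((a1 p hp).differentiableAt (by simp)) (a4' p hp)
    (a2 p hp), fun p q hp hq e => ?_, a4, a5⟩
  have h6 : p.1 = q.1 := by linarith [a4 p hp, a4 q hq, congrArg (fun x => ‖x‖ ^ 2) e]
  have h7 : q = (p.1, q.2) := by rw [h6]
  rw [h7] at e ⊢
  exact a3 p hp _ e

/-- the radius as a function of the level -/
noncomputable def rd (p : ℝ × ℝ) : ℝ × ℝ := (2 * √p.1, p.2)

lemma tendsto_two_sqrt : Tendsto (fun w : ℝ => 2 * √w) atTop atTop :=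
  Real.tendsto_sqrt_atTop.const_mul_atTop two_pos

lemma tendsto_rd : Tendsto rd far far := tendsto_comap_iff.2 (tendsto_two_sqrt.comp tendsto_comap)

lemma contDiffAt_rd {p : ℝ × ℝ} (hp : 0 < p.1) : ContDiffAt ℝ ∞ rd p :=
  (contDiffAt_const.mul (contDiffAt_fst.sqrt hp.ne')).prodMk contDiffAt_snd

lemma hasDerivAt_snd {V : Type*} [NormedAddCommGroup V] [NormedSpace ℝ V] {f : ℝ × ℝ → V}
    {p : ℝ × ℝ} (hf : DifferentiableAt ℝ f p) :
    HasDerivAt (fun θ => f (p.1, θ)) (dth f p) p.2 :=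
  hf.hasFDerivAt.comp_hasDerivAt p.2 ((hasDerivAt_const p.2 p.1).prodMk (hasDerivAt_id p.2))

namespace CylEnd

variable (e : CylEnd)

/-- the graph function in the radial variable -/
noncomputable def V (q : ℝ × ℝ) : ℝ := √2 * e.ρ q / (1 + e.ζ q)

/-- the graph function of the working model -/
noncomputable def U (p : ℝ × ℝ) : ℝ := e.V (rd p)

/-- the parametrisation by levels -/
noncomputable def Y (p : ℝ × ℝ) : E3 := e.X (rd p)

lemma U_periodic (w θ : ℝ) : e.U (w, θ + 2 * π) = e.U (w, θ) := by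
  simp only [U, V, ζ, rd, e.periodic]

lemma Y_per : Per e.Y := fun w θ => by
  simp only [Y, X, rd, pt, e.periodic, Real.cos_add_two_pi, Real.sin_add_two_pi]

lemma lc_V {a : ℕ} (h : Lc (Cl a) e.ρ √2) : Lc (Cl a) e.V 1 := by
  have hB := closed_cl a
  exact ((h.cmul hB √2).div hB ((h.const hB 1).add hB (lc_ζ h)) (by norm_num)).cast (by norm_num)

lemma U_smooth : ∀ᶠ p in far, ContDiffAt ℝ ∞ e.U p := by
  filter_upwards [tendsto_rd.eventually ((e.lc_V e.lc0).sm (closed_cl 0)), ev_gt 0] with p h1 h2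
  exact h1.comp p (contDiffAt_rd h2)

lemma Y_eq : ∀ᶠ p in far, e.Y p = e.Q (xiCyl p.1 p.2 (e.U p)) := by
  filter_upwards [tendsto_rd.eventually e.ev_good, ev_gt 0] with p h hp
  have hr : 0 < √p.1 := Real.sqrt_pos.2 hp
  have h2 : (0 : ℝ) < √2 := by positivity
  have hζ : 0 < e.ζ (rd p) := Real.sqrt_pos.2 h.2.2.2.2
  have hζ2 : e.ζ (rd p) ^ 2 = 1 - ((2 * √p.1)⁻¹ * e.ρ (rd p)) ^ 2 := Real.sq_sqrt h.2.2.2.2.le
  have h8 : √(8 * p.1) = √2 * (2 * √p.1) := by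
    rw [show 8 * p.1 = 2 * (2 ^ 2 * p.1) by ring, Real.sqrt_mul (by norm_num),
      Real.sqrt_mul (by norm_num), Real.sqrt_sq (by norm_num)]
  have hτ : e.U p / √(8 * p.1) = (2 * √p.1)⁻¹ * e.ρ (rd p) / (1 + e.ζ (rd p)) := by
    rw [h8, U, V]; field_simp
  have hd : 1 + ((2 * √p.1)⁻¹ * e.ρ (rd p) / (1 + e.ζ (rd p))) ^ 2 = 2 / (1 + e.ζ (rd p)) := by
    rw [div_pow, show ((2 * √p.1)⁻¹ * e.ρ (rd p)) ^ 2 = 1 - e.ζ (rd p) ^ 2 by linarith]
    field_simp
    ring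
  have hd' : 1 - ((2 * √p.1)⁻¹ * e.ρ (rd p) / (1 + e.ζ (rd p))) ^ 2
      = 2 * e.ζ (rd p) / (1 + e.ζ (rd p)) := by
    rw [div_pow, show ((2 * √p.1)⁻¹ * e.ρ (rd p)) ^ 2 = 1 - e.ζ (rd p) ^ 2 by linarith]
    field_simp
    ring
  rw [Y, X, pt_eq, e.Z_eq h.1, fr, xiCyl, xi, hτ, hd, hd', show (rd p).1 = 2 * √p.1 from rfl,
    show (rd p).2 = p.2 from rfl]
  congr 1
  ext i
  fin_cases i <;> simp [e3, eth] <;> field_simp

lemma U_lim {S : Set E3} {w : E3 → ℝ} {δ C : ℝ} (hS : IsTubeShrinker S w δ C)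
    (hX : ∀ᶠ p in far, e.X p ∈ S) (a b : ℕ) :
    ToZero fun p => p.1 ^ a * dw^[a] (dth^[b] fun q => e.U q - 1) p := by
  refine toZero_subst (K := fun g => ∀ a, Cl a ℝ g) (c := fun r => r / 2) (σ := fun w => 2 * √w)
    (fun g hg => hg 0 0) (fun g hg a => Cl.pd (hg a) _) (fun g t hg a => ?_) tendsto_two_sqrt ?_
    (fun a => e.lc_V (lc_all hS hX a)) EventuallyEq.rfl a b
  · refine (closed_cl a).congr ((closed_cl a).sub
      ((closed_cl a).const_smul (1 / 2) ((hg (a + 1)).2 _ rfl))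
      ((closed_cl a).const_smul t (hg a))) (Eventually.of_forall fun p => ?_)
    simp only [along_rad, smul_eq_mul]
    ring
  · filter_upwards [eventually_gt_atTop 0] with w hw
    refine ⟨contDiffAt_const.mul (Real.contDiffAt_sqrt hw.ne'), ?_⟩
    have hr : 0 < √w := Real.sqrt_pos.2 hw
    rw [((Real.hasDerivAt_sqrt hw.ne').const_mul 2).deriv]
    field_simp
    rw [Real.sq_sqrt hw.le]

lemma endPar {S : Set E3} (hX : ∀ᶠ p in far, e.X p ∈ S) : ∀ᶠ W in atTop, EndPar S W e.Y := by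
  have hs : ∀ᶠ p in far, ContDiffAt ℝ ∞ e.Y p := by
    filter_upwards [tendsto_rd.eventually e.X_smooth, ev_gt 0] with p h1 h2
    exact h1.comp p (contDiffAt_rd h2)
  refine endPar_of e.Y_per hs ?_ ?_ ?_ (tendsto_rd.eventually hX)
  · filter_upwards [hs, tendsto_rd.eventually e.X_smooth, tendsto_rd.eventually e.pd_X,
      tendsto_rd.eventually e.ev_good] with p h1 h2 h3 h4 h0
    have h5 : dth e.Y p = dth e.X (rd p) := (hasDerivAt_snd (h1.differentiableAt (by simp))).unique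
      (hasDerivAt_snd (f := e.X) (p := rd p) (h2.differentiableAt (by simp)))
    rw [h0, dth, h3.2] at h5
    have h6 := inner_fr e.Q (rd p).2 (dth e.ρ (rd p)) (e.ρ (rd p)) (dth e.Z (rd p)) 0 1 0
    rw [← h5, inner_zero_left] at h6
    linarith [h4.2.1]
  · obtain ⟨R, hR⟩ := ev_far.1 (tendsto_rd.eventually e.ev_good)
    refine ev_far.2 ⟨R, fun p hp θ h => ?_⟩
    have a1 := (hR p hp).2.1
    have a2 := (hR (p.1, θ) hp).2.1
    have h1 := e.Q.injective h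
    have h2 : e.ρ (rd p) * Real.cos p.2 = e.ρ (rd (p.1, θ)) * Real.cos θ :=
      congrArg (fun x : E3 => x 0) h1
    have h3 : e.ρ (rd p) * Real.sin p.2 = e.ρ (rd (p.1, θ)) * Real.sin θ :=
      congrArg (fun x : E3 => x 1) h1
    have h4 : e.ρ (rd p) = e.ρ (rd (p.1, θ)) := by
      rw [← sq_eq_sq₀ (by linarith) (by linarith)]
      linear_combination (e.ρ (rd p) * Real.cos p.2 + e.ρ (rd (p.1, θ)) * Real.cos θ) * h2
        + (e.ρ (rd p) * Real.sin p.2 + e.ρ (rd (p.1, θ)) * Real.sin θ) * h3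
        - e.ρ (rd p) ^ 2 * Real.sin_sq_add_cos_sq p.2
        + e.ρ (rd (p.1, θ)) ^ 2 * Real.sin_sq_add_cos_sq θ
    rw [← h4, mul_right_inj' (by linarith)] at h2 h3
    simp only [pol, h2, h3]
  · filter_upwards [e.Y_eq, ev_gt 0] with p h1 h2
    rw [h1, LinearIsometryEquiv.norm_map, norm_xiCyl_sq h2.le]

lemma tendsto_dir : Tendsto (fun p => (2 * √p.1)⁻¹ • e.Y p - e.axis) far (𝓝 0) := by
  have hB := closed_cl 0
  have h1 := (((((lc_x 0).mul hB e.lc0).sq hB).add hB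
    (((lc_ζ e.lc0).sub hB (e.lc0.const hB 1)).sq hB)).tendsto hB).comp tendsto_rd
  rw [tendsto_zero_iff_norm_tendsto_zero]
  have h2 := h1.sqrt
  simp only [zero_mul, sub_self, ne_eq, OfNat.ofNat_ne_zero, not_false_eq_true, zero_pow,
    add_zero, Real.sqrt_zero] at h2
  refine h2.congr' ?_
  filter_upwards [tendsto_rd.eventually e.ev_good] with p hp
  have h3 : (2 * √p.1)⁻¹ • e.Y p - e.axis
      = fr e.Q p.2 ((2 * √p.1)⁻¹ * e.ρ (rd p)) 0 (e.ζ (rd p) - 1) := by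
    have h4 : √p.1 ≠ 0 := right_ne_zero_of_mul hp.1.ne'
    rw [Y, X, pt_eq, e.Z_eq hp.1, fr, fr, axis, ← map_smul, ← map_sub,
      show (rd p).1 = 2 * √p.1 from rfl, show (rd p).2 = p.2 from rfl]
    congr 1
    ext i
    fin_cases i <;> simp <;> field_simp
  rw [h3, norm_eq_sqrt_real_inner, inner_fr]
  simp [rd, sq]

end CylEnd

namespace Link

variable (L : Link)

lemma isCompact_range : IsCompact (range L.γ) :=
  L.γ_periodic.compact_of_continuous Real.two_pi_pos.ne' L.γ_smooth.continuous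

lemma exists_bound : ∃ N, 0 ≤ N ∧ ∀ θ, ‖deriv L.n θ‖ ≤ N := by
  have h1 : Function.Periodic (deriv L.n) (2 * π) := fun θ => by
    rw [← deriv_comp_add_const, funext L.n_periodic]
  obtain ⟨N, hN⟩ := (h1.isBounded_of_continuous Real.two_pi_pos.ne'
    (L.n_smooth.continuous_deriv (by simp))).exists_norm_le
  exact ⟨N, (norm_nonneg _).trans (hN _ ⟨0, rfl⟩), fun θ => hN _ ⟨θ, rfl⟩⟩

lemma ne_of_lt {θ d : ℝ} (h0 : 0 < d) (h1 : d < 2 * π) : L.γ (θ + d) ≠ L.γ θ := by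
  intro h
  obtain ⟨n, H, -⟩ := existsUnique_zsmul_near_of_pos' Real.two_pi_pos θ
  have e1 := L.γ_periodic.sub_zsmul_eq n (x := θ)
  have e2 := L.γ_periodic.sub_zsmul_eq n (x := θ + d)
  rw [add_sub_right_comm] at e2
  rcases lt_or_ge (θ - n • (2 * π) + d) (2 * π) with h2 | h2
  · have := L.inj ⟨by linarith [H.1], h2⟩ H (e2.trans (h.trans e1.symm))
    linarith
  · have := L.inj ⟨by linarith, by linarith [H.2]⟩ H
      ((L.γ_periodic.sub_eq _).trans (e2.trans (h.trans e1.symm)))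
    linarith

/-- the link is a bi-Lipschitz curve -/
lemma exists_biLip : ∃ m, 0 < m ∧ ∀ θ d, 0 ≤ d → d ≤ π → m * d ≤ ‖L.γ (θ + d) - L.γ θ‖ := by
  have hc := L.γ_smooth.continuous_deriv (by simp)
  have hd := L.γ_smooth.differentiable (by simp)
  set A : ℝ × ℝ → E3 := fun z => ∫ t in (0 : ℝ)..1, deriv L.γ (z.1 + t * z.2) with hA
  have hAc : Continuous A :=
    intervalIntegral.continuous_parametric_intervalIntegral_of_continuous' (by fun_prop) 0 1
  have e : ∀ θ d, L.γ (θ + d) - L.γ θ = d • A (θ, d) := by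
    intro θ d
    have h1 := intervalIntegral.integral_eq_sub_of_hasDerivAt (a := 0) (b := 1)
      (f := fun t => L.γ (θ + t * d)) (f' := fun t => d • deriv L.γ (θ + t * d))
      (fun t _ => (hd (θ + t * d)).hasDerivAt.scomp t ((hasDerivAt_mul_const d).const_add θ))
      (Continuous.intervalIntegrable (by fun_prop) _ _)
    rw [intervalIntegral.integral_smul] at h1
    simpa using h1.symm
  have hp : Function.Periodic (deriv L.γ) (2 * π) := fun θ => by
    rw [← deriv_comp_add_const, funext L.γ_periodic]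
  obtain ⟨z, hz, hm⟩ := (isCompact_Icc.prod isCompact_Icc :
    IsCompact (Icc 0 (2 * π) ×ˢ Icc 0 π)).exists_isMinOn
    ⟨(0, 0), ⟨le_rfl, Real.two_pi_pos.le⟩, ⟨le_rfl, Real.pi_pos.le⟩⟩ hAc.norm.continuousOn
  refine ⟨‖A z‖, norm_pos_iff.2 fun h0 => ?_, fun θ d h0 h1 => ?_⟩
  · rcases hz.2.1.eq_or_lt with h2 | h2
    · have h3 := L.speed z.1
      simp only [hA, ← h2, mul_zero, add_zero, intervalIntegral.integral_const, sub_zero,
        one_smul] at h0
      rw [h0, norm_zero] at h3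
      exact L.c_pos.ne h3
    · refine L.ne_of_lt (θ := z.1) h2 (by linarith [hz.2.2, Real.pi_pos]) ?_
      rw [← sub_eq_zero, e, h0, smul_zero]
  · have h2 : Function.Periodic (fun θ => A (θ, d)) (2 * π) := fun θ => by
      simp only [hA, add_right_comm θ (2 * π), hp _]
    obtain ⟨y, hy, hy'⟩ := h2.exists_mem_Ico₀ Real.two_pi_pos θ
    rw [e, norm_smul, Real.norm_of_nonneg h0, mul_comm, hy']
    exact mul_le_mul_of_nonneg_left (hm (mk_mem_prod (Ico_subset_Icc_self hy) ⟨h0, h1⟩)) h0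

end Link

end Vale.Agent.P218GA
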