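import Vale.Agent.P218GA.Ends

/-! Conical ends in the coordinates of the working model. -/

open Set Metric Filter Topology
open scoped ContDiff RealInnerProductSpace Real

namespace Vale.Agent.P218GA

open Vale.Agent.P218VA (pd pd_congr E2)
open Vale.Agent.P218MP

/-- the logarithm of the radius as a function of the level -/
noncomputable def lg (p : ℝ × ℝ) : ℝ × ℝ := (Real.log (2 * √p.1), p.2)

lemma tendsto_lg : Tendsto lg far far :=
  tendsto_comap_iff.2 ((Real.tendsto_log_atTop.comp tendsto_two_sqrt).comp tendsto_comap)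

lemma contDiffAt_log_sqrt {w : ℝ} (hw : 0 < w) : ContDiffAt ℝ ∞ (fun w => Real.log (2 * √w)) w :=
  (contDiffAt_const.mul (Real.contDiffAt_sqrt hw.ne')).log (by positivity)

lemma contDiffAt_lg {p : ℝ × ℝ} (hp : 0 < p.1) : ContDiffAt ℝ ∞ lg p :=
  ((contDiffAt_log_sqrt hp).comp p contDiffAt_fst).prodMk contDiffAt_snd

namespace ConeEnd

variable (e : ConeEnd)

/-- the graph function of the working model -/
noncomputable def t (p : ℝ × ℝ) : ℝ := Real.tan (e.u (lg p) / 2)

/-- the direction -/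
noncomputable def om (q : ℝ × ℝ) : E3 :=
  Real.cos (e.u q) • e.γ q.2 + Real.sin (e.u q) • e.n q.2

/-- the parametrisation by levels -/
noncomputable def Y (p : ℝ × ℝ) : E3 := e.pt (2 * √p.1) p.2

lemma Y_om (p : ℝ × ℝ) : e.Y p = (2 * √p.1) • e.om (lg p) := rfl

lemma t_periodic (w θ : ℝ) : e.t (w, θ + 2 * π) = e.t (w, θ) := by simp only [t, lg, e.periodic]

lemma om_per : Per e.om := fun w θ => by
  simp only [om, e.periodic, e.γ_periodic θ, e.n_periodic θ]

lemma Y_per : Per e.Y := fun w θ => by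
  rw [Y_om, Y_om]
  exact congrArg _ (e.om_per _ _)

lemma dec_u : Dec ℝ e.u := by simpa using dec_of_smoothLim e.smooth e.lim

lemma dec_tan : Dec ℝ fun q => Real.tan (e.u q / 2) := by
  refine closed_dec.comp (Φ := fun x => Real.tan (x / 2)) e.dec_u ⟨?_, by simp⟩
  have h : ContinuousAt (fun x : ℝ => Real.cos (x / 2)) 0 := by fun_prop
  filter_upwards [h.eventually_ne (y := 0) (by simp)] with x hx
  exact ContDiffAt.comp (g := Real.tan) (f := fun x : ℝ => x / 2) x (Real.contDiffAt_tan.2 hx)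
    (contDiffAt_id.div_const 2)

lemma t_smooth : ∀ᶠ p in far, ContDiffAt ℝ ∞ e.t p := by
  filter_upwards [tendsto_lg.eventually (closed_dec.sm e.dec_tan), ev_gt 0] with p h1 h2
  exact h1.comp p (contDiffAt_lg h2)

lemma t_lim (a b : ℕ) : ToZero fun p => p.1 ^ a * dw^[a] (dth^[b] e.t) p := by
  refine toZero_subst (K := Dec ℝ) (c := fun _ => 1 / 2) (σ := fun w => Real.log (2 * √w))
    (fun g hg => hg 0) (fun g hg => hg.pd _) (fun g t hg => closed_dec.sub
      (closed_dec.const_smul (1 / 2) (hg.pd (1, 0))) (closed_dec.const_smul t hg))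
    (Real.tendsto_log_atTop.comp tendsto_two_sqrt) ?_ e.dec_tan EventuallyEq.rfl a b
  filter_upwards [eventually_gt_atTop 0] with w hw
  refine ⟨contDiffAt_log_sqrt hw, ?_⟩
  have hr : 0 < √w := Real.sqrt_pos.2 hw
  rw [(((Real.hasDerivAt_sqrt hw.ne').const_mul 2).log (by positivity)).deriv]
  field_simp
  rw [Real.sq_sqrt hw.le]

lemma tendsto_cos : Tendsto (fun q => Real.cos (e.u q)) far (𝓝 1) := by
  simpa [Function.comp_def] using (Real.continuous_cos.tendsto 0).comp (closed_dec.lim e.dec_u)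

lemma tendsto_sin : Tendsto (fun q => Real.sin (e.u q)) far (𝓝 0) := by
  simpa [Function.comp_def] using (Real.continuous_sin.tendsto 0).comp (closed_dec.lim e.dec_u)

lemma Y_eq : ∀ᶠ p in far, e.Y p = xiCone e.toLink p.1 p.2 (e.t p) := by
  filter_upwards [tendsto_lg.eventually (e.tendsto_cos.eventually_ne (b₂ := -1) (by norm_num))]
    with p hp
  rw [Y_om, om, Real.cos_eq_two_mul_tan_half_div_one_sub_tan_half_sq _ hp,
    Real.sin_eq_two_mul_tan_half_div_one_add_tan_half_sq, xiCone, xi, t]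
  simp only [lg, div_eq_mul_inv]
  module

lemma om_smooth : ContDiff ℝ ∞ e.om :=
  (e.smooth.cos.smul (e.γ_smooth.comp contDiff_snd)).add
    (e.smooth.sin.smul (e.n_smooth.comp contDiff_snd))

/-- the error in the derivative of the direction -/
noncomputable def er (q : ℝ × ℝ) : E3 := dth e.om q - deriv e.γ q.2

lemma er_eq (q : ℝ × ℝ) : e.er q = -(Real.sin (e.u q) * dth e.u q) • e.γ q.2
    + (Real.cos (e.u q) - 1) • deriv e.γ q.2 + (Real.cos (e.u q) * dth e.u q) • e.n q.2
    + Real.sin (e.u q) • deriv e.n q.2 := by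
  have h1 := hasDerivAt_snd (e.smooth.differentiable (by simp) q)
  have h2 := (h1.cos.smul (e.γ_smooth.differentiable (by simp) q.2).hasDerivAt).add
    (h1.sin.smul (e.n_smooth.differentiable (by simp) q.2).hasDerivAt)
  rw [er, (hasDerivAt_snd (e.om_smooth.differentiable (by simp) q)).unique h2]
  module

lemma tendsto_er : Tendsto e.er far (𝓝 0) := by
  obtain ⟨N, -, hN⟩ := e.toLink.exists_bound
  have h1 := closed_dec.lim (e.dec_u.pd (0, 1))
  have h2 := ((((e.tendsto_sin.mul h1).abs.add ((e.tendsto_cos.sub_const 1).abs.mul_const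
    e.c)).add (e.tendsto_cos.mul h1).abs).add (e.tendsto_sin.abs.mul_const N))
  simp only [mul_zero, abs_zero, sub_self, zero_mul, add_zero] at h2
  refine squeeze_zero_norm (fun q => ?_) h2
  rw [er_eq]
  refine norm_add_le_of_le (norm_add_le_of_le (norm_add_le_of_le ?_ ?_) ?_) ?_
  · rw [norm_smul, e.γ_unit, mul_one, norm_neg]; rfl
  · rw [norm_smul, e.speed]; rfl
  · rw [norm_smul, e.n_unit, mul_one]; rfl
  · rw [norm_smul]; exact mul_le_mul_of_nonneg_left (hN _) (norm_nonneg _)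

lemma om_inj : ∀ᶠ q in far, ∀ θ, e.om q = e.om (q.1, θ) → ∃ k : ℤ, q.2 = θ + k * (2 * π) := by
  obtain ⟨m, hm, hb⟩ := e.toLink.exists_biLip
  obtain ⟨R, hR⟩ := toZero_iff.2 e.tendsto_er (m / 2) (half_pos hm)
  refine ev_far.2 ⟨R, fun q hq θ h => ?_⟩
  have hL : ∀ a b, ‖(e.om (q.1, b) - e.γ b) - (e.om (q.1, a) - e.γ a)‖ ≤ m / 2 * ‖b - a‖ :=
    fun a b => convex_univ.norm_image_sub_le_of_norm_hasDerivWithin_le
      (f := fun θ => e.om (q.1, θ) - e.γ θ) (f' := fun θ => e.er (q.1, θ))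
      (fun θ _ => ((hasDerivAt_snd (p := (q.1, θ)) (e.om_smooth.differentiable (by simp) _)).sub
        (e.γ_smooth.differentiable (by simp) θ).hasDerivAt).hasDerivWithinAt)
      (fun θ _ => hR (q.1, θ) hq) (mem_univ a) (mem_univ b)
  have key : ∀ a d, 0 ≤ d → d ≤ π → e.om (q.1, a + d) = e.om (q.1, a) → d = 0 := by
    intro a d h0 h1 h2
    have h3 := hL a (a + d)
    rw [h2, sub_sub_sub_cancel_left, norm_sub_rev, add_sub_cancel_left, Real.norm_of_nonneg h0] at h3
    nlinarith [hb a d h0 h1]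
  obtain ⟨k, hk, -⟩ := existsUnique_add_zsmul_mem_Ico Real.two_pi_pos θ (q.2 - π)
  rw [zsmul_eq_mul] at hk
  have hp : Function.Periodic (fun θ => e.om (q.1, θ)) (2 * π) := e.om_per q.1
  have h4 : e.om (q.1, q.2) = e.om (q.1, θ + k * (2 * π)) := h.trans (hp.int_mul k θ).symm
  refine ⟨k, ?_⟩
  rcases le_total q.2 (θ + k * (2 * π)) with h5 | h5
  · have := key q.2 (θ + k * (2 * π) - q.2) (by linarith) (by linarith [hk.2])
      (by rw [add_sub_cancel]; exact h4.symm)
    linarith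
  · have := key (θ + k * (2 * π)) (q.2 - (θ + k * (2 * π))) (by linarith) (by linarith [hk.1])
      (by rw [add_sub_cancel]; exact h4)
    linarith

lemma endPar {S : Set E3} (hY : ∀ᶠ p in far, e.Y p ∈ S) : ∀ᶠ W in atTop, EndPar S W e.Y := by
  have hs : ∀ᶠ p in far, ContDiffAt ℝ ∞ e.Y p := by
    filter_upwards [ev_gt 0] with p h2
    exact (contDiffAt_const.mul (contDiffAt_fst.sqrt h2.ne')).smul
      (e.om_smooth.contDiffAt.comp p (contDiffAt_lg h2))
  refine endPar_of e.Y_per hs ?_ ?_ ?_ hY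
  · filter_upwards [hs, ev_gt 0, tendsto_lg.eventually
      (e.tendsto_er.norm.eventually (gt_mem_nhds (by simpa using e.c_pos)))] with p h1 h2 h3 h0
    have h5 : dth e.Y p = (2 * √p.1) • dth e.om (lg p) :=
      (hasDerivAt_snd (h1.differentiableAt (by simp))).unique
        ((hasDerivAt_snd (p := lg p) (e.om_smooth.differentiable (by simp) _)).const_smul
          (2 * √p.1))
    have hr : 0 < √p.1 := Real.sqrt_pos.2 h2
    rw [h0, eq_comm, smul_eq_zero] at h5
    rw [er, h5.resolve_left (by positivity), zero_sub, norm_neg, e.speed] at h3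
    exact lt_irrefl _ h3
  · filter_upwards [ev_gt 0, tendsto_lg.eventually e.om_inj] with p h2 h3 θ h
    have hr : 0 < √p.1 := Real.sqrt_pos.2 h2
    obtain ⟨k, hk⟩ := h3 θ (smul_right_injective _ (by positivity : 2 * √p.1 ≠ 0) h)
    have hp : Function.Periodic (fun θ => pol (p.1, θ)) (2 * π) := pol_periodic p.1
    exact (congrArg (fun θ => pol (p.1, θ)) hk).trans (hp.int_mul k θ)
  · filter_upwards [e.Y_eq, ev_gt 0] with p h1 h2
    rw [h1, norm_xiCone_sq _ h2.le]

lemma tendsto_dir : Tendsto (fun p => (2 * √p.1)⁻¹ • e.Y p - e.γ p.2) far (𝓝 0) := by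
  have h2 := (((e.tendsto_cos.sub_const 1).abs.add e.tendsto_sin.abs)).comp tendsto_lg
  simp only [sub_self, abs_zero, add_zero] at h2
  refine squeeze_zero_norm' ?_ h2
  filter_upwards [ev_gt 0] with p hp
  have hr : 0 < √p.1 := Real.sqrt_pos.2 hp
  rw [Y_om, inv_smul_smul₀ (by positivity), om, show (lg p).2 = p.2 from rfl, show ∀ a b : ℝ, ∀ x y : E3,
    a • x + b • y - x = (a - 1) • x + b • y from fun a b x y => by module]
  refine norm_add_le_of_le ?_ ?_
  · rw [norm_smul, e.γ_unit, mul_one]; rfl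
  · rw [norm_smul, e.n_unit, mul_one]; rfl

end ConeEnd

/-- ends with disjoint sets of limit directions are disjoint far out -/
lemma ev_disjoint {Y Y' g g' : ℝ × ℝ → E3} {K K' : Set E3} (hK : IsCompact K) (hK' : IsCompact K')
    (hd : Disjoint K K') (hg : ∀ p, g p ∈ K) (hg' : ∀ p, g' p ∈ K')
    (h : Tendsto (fun p => (2 * √p.1)⁻¹ • Y p - g p) far (𝓝 0))
    (h' : Tendsto (fun p => (2 * √p.1)⁻¹ • Y' p - g' p) far (𝓝 0)) :
    ∀ᶠ W in atTop, ∀ p q : ℝ × ℝ, W < p.1 → p.1 = q.1 → Y p ≠ Y' q := by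
  obtain ⟨r, hr, hs⟩ := Metric.exists_pos_forall_lt_edist hK hK'.isClosed hd
  have hr' : (0 : ℝ) < r / 2 := half_pos hr
  rw [tendsto_zero_iff_norm_tendsto_zero] at h h'
  filter_upwards [ev_atTop (h.eventually (gt_mem_nhds hr')),
    ev_atTop (h'.eventually (gt_mem_nhds hr'))] with W a b p q hp hpq e
  have h1 := hs _ (hg p) _ (hg' q)
  rw [edist_nndist, ENNReal.coe_lt_coe, ← NNReal.coe_lt_coe, coe_nndist, dist_eq_norm] at h1
  have h2 := a p hp
  have h3 := b q (hpq ▸ hp)
  rw [← hpq, ← e] at h3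
  have h4 := norm_sub_le ((2 * √p.1)⁻¹ • Y p - g' q) ((2 * √p.1)⁻¹ • Y p - g p)
  rw [sub_sub_sub_cancel_left] at h4
  linarith

end Vale.Agent.P218GA
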