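import Vale.Agent.P218GA.Mfd

/-! Existence of the working model. -/

open Set Metric Filter Topology Module
open scoped ContDiff RealInnerProductSpace

namespace Vale.Agent.P218GA

open Vale.Agent.P218.H63 (IsTubeShrinker)
open Vale.Agent.P218VA (E2)
open Vale.Agent.P272.K.LIN (RSm)

/-- **The working model exists**, and its first level can be chosen arbitrarily large. -/
theorem exists_model_ge {S : Set E3} {w : E3 → ℝ} {δ C : ℝ} (hS : IsTubeShrinker S w δ C)
    (hw : ContDiff ℝ ∞ w) (hE : HasCylConeEnds S) (W₀ : ℝ) :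
    ∃ (k l : ℕ) (M : Type) (_ : TopologicalSpace M) (_ : ChartedSpace E2 M) (_ : T2Space M)
      (_ : CompactSpace M) (_ : RSm E2 M) (m : Model S w δ C (Fin k) (Fin l) M), W₀ ≤ m.w0 := by
  obtain ⟨k, l, A, B, R, hA, hAB, hB, hR⟩ := hE
  have hX : ∀ i, ∀ᶠ p in far, (A i).X p ∈ S := fun i => (ev_gt R).mono fun p hp =>
    ((hR p.1 hp).symm.subset (.inl (mem_iUnion.2 ⟨i, p.2, rfl⟩))).1
  have hr : ∀ᶠ W in atTop, R < 2 * √W := tendsto_two_sqrt.eventually (eventually_gt_atTop R)
  have hY : ∀ j, ∀ᶠ p in far, (B j).Y p ∈ S := fun j => (tendsto_comap.eventually hr).mono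
    fun p hp => ((hR _ hp).symm.subset (.inr (mem_iUnion.2 ⟨j, p.2, rfl⟩))).1
  set Y : Fin k ⊕ Fin l → ℝ × ℝ → E3 := Sum.elim (fun i => (A i).Y) fun j => (B j).Y with hYd
  set K : Fin k ⊕ Fin l → Set E3 := Sum.elim (fun i => {(A i).axis}) fun j => range (B j).γ
  set g : Fin k ⊕ Fin l → ℝ × ℝ → E3 := Sum.elim (fun i _ => (A i).axis) fun j p => (B j).γ p.2
  have hK : ∀ j, IsCompact (K j) := by
    rintro (i | j)
    exacts [isCompact_singleton, (B j).toLink.isCompact_range]
  have hg : ∀ j p, g j p ∈ K j := by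
    rintro (i | j) p
    exacts [rfl, ⟨_, rfl⟩]
  have ht : ∀ j, Tendsto (fun p => (2 * √p.1)⁻¹ • Y j p - g j p) far (𝓝 0) := by
    rintro (i | j)
    exacts [(A i).tendsto_dir, (B j).tendsto_dir]
  have hd : ∀ j j', j ≠ j' → Disjoint (K j) (K j') := by
    rintro (i | j) (i' | j') hne <;> refine disjoint_left.2 ?_
    · rintro _ rfl e
      exact hne (congrArg _ (hA i i' e))
    · rintro _ rfl ⟨θ, e⟩
      exact hAB i j' θ e.symm
    · rintro _ ⟨θ, rfl⟩ e
      exact hAB i' j θ e.symm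
    · rintro _ ⟨θ, rfl⟩ ⟨θ', e⟩
      exact hne (congrArg _ (hB j j' θ θ' e.symm))
  have h1 : ∀ᶠ W in atTop, ∀ j, EndPar S W (Y j) := by
    refine eventually_all.2 ?_
    rintro (i | j)
    exacts [(A i).endPar (hX i), (B j).endPar (hY j)]
  have h2 : ∀ᶠ W in atTop, ∀ j j', j ≠ j' → ∀ p q : ℝ × ℝ, W < p.1 → p.1 = q.1 →
      Y j p ≠ Y j' q :=
    eventually_all.2 fun j => eventually_all.2 fun j' => eventually_imp_distrib_left.2 fun hne =>
      ev_disjoint (hK j) (hK j') (hd j j' hne) (hg j) (hg j') (ht j) (ht j')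
  obtain ⟨W, a1, a2, a3, a4, a5, a6, a7, a8, a9⟩ := (h1.and (h2.and (hr.and
    ((eventually_ge_atTop 1).and ((eventually_ge_atTop W₀).and
    ((eventually_all.2 fun i => ev_atTop (A i).Y_eq).and
    ((eventually_all.2 fun j => ev_atTop (B j).Y_eq).and
    ((eventually_all.2 fun i => ev_atTop (A i).U_smooth).and
    (eventually_all.2 fun j => ev_atTop (B j).t_smooth))))))))).exists
  have h : Ends S w (Fin k ⊕ Fin l) W Y := by
    refine ⟨hw, hS.mem_iff, fun x hx => hS.norm_grad x ?_, a1, fun j j' p q hp hq e => ?_,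
      fun x hx hn => ?_⟩
    · rw [(hS.mem_iff x).1 hx, abs_zero]; exact hS.pos
    · by_contra hne
      refine a2 j j' hne p q hp ?_ e
      linarith [(a1 j).norm p hp, (a1 j').norm q hq, congrArg (fun x => ‖x‖ ^ 2) e]
    · have h3 : 2 * √(‖x‖ ^ 2 / 4) = ‖x‖ := by
        rw [show ‖x‖ ^ 2 / 4 = (‖x‖ / 2) ^ 2 by ring, Real.sqrt_sq (by positivity)]; ring
      have h4 : R < ‖x‖ := by
        rw [← h3]
        refine a3.trans_le ?_
        gcongr
        linarith
      rcases (hR _ h4).subset ⟨hx, mem_sphere_zero_iff_norm.2 rfl⟩ with h5 | h5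
      · obtain ⟨i, θ, e⟩ := mem_iUnion.1 h5
        exact ⟨.inl i, (‖x‖ ^ 2 / 4, θ), by linarith, by rw [← h3] at e; exact e⟩
      · obtain ⟨j, θ, e⟩ := mem_iUnion.1 h5
        exact ⟨.inr j, (‖x‖ ^ 2 / 4, θ), by linarith, by rw [← h3] at e; exact e⟩
  exact ⟨k, l, h.Cpt, inferInstance, inferInstance, inferInstance, inferInstance, inferInstance,
    { F := h.F, φ := h.φ, w0 := W, Q := fun i => (A i).Q, U := fun i => (A i).U,
      L := fun j => (B j).toLink, t := fun j => (B j).t, shr := hS, w_smooth := hw,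
      one_le := a4, mem := h.φ_mem, target := fun _ => rfl, disj := fun _ _ _ => h.φ_disj,
      smooth := fun _ he _ hy => h.F_smooth he hy, inj := h.F_inj, image := h.F_image,
      core := fun _ => h.F_core,
      cyl := fun i p hp => (h.F_pol _ hp).trans (a6 i p hp),
      cone := fun j p hp => (h.F_pol _ hp).trans (a7 j p hp),
      U_smooth := a8, t_smooth := a9, U_periodic := fun i => (A i).U_periodic,
      t_periodic := fun j => (B j).t_periodic, U_lim := fun i => (A i).U_lim hS (hX i),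
      t_lim := fun j => (B j).t_lim, axis_inj := hA, axis_ne := hAB, link_disj := hB }, a5⟩

/-- **The working model exists.** -/
theorem exists_model {S : Set E3} {w : E3 → ℝ} {δ C : ℝ} (hS : IsTubeShrinker S w δ C)
    (hw : ContDiff ℝ ∞ w) (hE : HasCylConeEnds S) :
    ∃ (k l : ℕ) (M : Type) (_ : TopologicalSpace M) (_ : ChartedSpace E2 M) (_ : T2Space M)
      (_ : CompactSpace M) (_ : RSm E2 M), Nonempty (Model S w δ C (Fin k) (Fin l) M) := by
  obtain ⟨k, l, M, a, b, c, d, e, m, -⟩ := exists_model_ge hS hw hE 0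
  exact ⟨k, l, M, a, b, c, d, e, ⟨m⟩⟩

end Vale.Agent.P218GA
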