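import Vale.Agent.P218GA.Chart
import Mathlib.MeasureTheory.Measure.Haar.NormedSpace
import Mathlib.MeasureTheory.Integral.Prod
import Mathlib.MeasureTheory.Integral.DominatedConvergence

/-! Surface integrals over `{w = 0}` as limits of volume integrals over thin slabs. -/

open MeasureTheory Set Filter Topology Metric Module
open scoped ENNReal NNReal RealInnerProductSpace

namespace Vale.Agent.P218GA

set_option linter.unusedSectionVars false

/-- the approximate identity `η(s/ε)/ε` -/
noncomputable def aid (η : ℝ → ℝ) (ε s : ℝ) : ℝ := ε⁻¹ * η (s / ε)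

lemma continuous_aid {η : ℝ → ℝ} (hη : Continuous η) (ε : ℝ) : Continuous (aid η ε) := by
  unfold aid; fun_prop

lemma aid_eq_zero {η : ℝ → ℝ} {R ε s : ℝ} (hR : ∀ t, R < |t| → η t = 0) (hε : 0 < ε)
    (hs : R * ε < |s|) : aid η ε s = 0 := by
  rw [aid, hR, mul_zero]
  rw [abs_div, abs_of_pos hε, lt_div_iff₀ hε]
  exact hs

lemma exists_radius {η : ℝ → ℝ} (hηc : HasCompactSupport η) :
    ∃ R : ℝ, 0 < R ∧ ∀ t, R < |t| → η t = 0 := by
  obtain ⟨R, hR0, hR⟩ := hηc.isCompact.isBounded.subset_closedBall_lt 0 0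
  refine ⟨R, hR0, fun t ht => image_eq_zero_of_notMem_tsupport fun h => ?_⟩
  have := hR h
  rw [mem_closedBall_zero_iff, Real.norm_eq_abs] at this
  linarith

/-- the flat case -/
lemma flat_limit {T : Type*} [NormedAddCommGroup T] [InnerProductSpace ℝ T] [FiniteDimensional ℝ T]
    [MeasurableSpace T] [BorelSpace T] {G : ℝ × T → ℝ} (hG : Continuous G)
    (hGc : HasCompactSupport G) {η : ℝ → ℝ} (hη : Continuous η) (hηc : HasCompactSupport η)
    (hη1 : ∫ s, η s = 1) :
    Tendsto (fun ε => ∫ z, G z * aid η ε z.1) (𝓝[>] 0) (𝓝 (∫ q, G (0, q))) := by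
  set K : Set T := Prod.snd '' tsupport G with hK
  have hKc : IsCompact K := hGc.isCompact.image continuous_snd
  set Γ : ℝ → ℝ := fun t => ∫ q, G (t, q) with hΓ
  have hΓK : ∀ t, Γ t = ∫ q in K, G (t, q) := fun t =>
    (setIntegral_eq_integral_of_forall_compl_eq_zero fun q hq =>
      image_eq_zero_of_notMem_tsupport fun h => hq (mem_image_of_mem Prod.snd h)).symm
  have hΓc : Continuous Γ := by
    rw [funext hΓK]
    exact continuous_parametric_integral_of_continuous (f := fun t q => G (t, q)) hG hKc
  obtain ⟨C, hC⟩ := hG.bounded_above_of_compact_support hGc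
  have hΓb : ∀ t, ‖Γ t‖ ≤ C * (volume : Measure T).real K := fun t => by
    rw [hΓK]
    exact norm_setIntegral_le_of_norm_le_const hKc.measure_lt_top fun q _ => hC _
  have hηi : Integrable η := hη.integrable_of_hasCompactSupport hηc
  have e : ∀ ε, 0 < ε → ∫ z, G z * aid η ε z.1 = ∫ s, Γ (ε * s) * η s := by
    intro ε hε
    have hi : Integrable (fun z : ℝ × T => G z * aid η ε z.1) (volume.prod volume) :=
      (hG.mul ((continuous_aid hη ε).comp continuous_fst)).integrable_of_hasCompactSupport
        hGc.mul_right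
    rw [Measure.volume_eq_prod, integral_prod _ hi]
    simp only [integral_mul_const]
    have h1 := Measure.integral_comp_mul_left (fun t => Γ t * η (t / ε)) ε
    simp only [mul_div_cancel_left₀ _ hε.ne'] at h1
    rw [h1, abs_of_pos (inv_pos.2 hε), smul_eq_mul, ← integral_const_mul]
    congr 1
    ext t
    simp only [aid, hΓ]
    ring
  have h2 : Tendsto (fun ε => ∫ s, Γ (ε * s) * η s) (𝓝[>] 0) (𝓝 (∫ s, Γ 0 * η s)) := by
    refine tendsto_integral_filter_of_dominated_convergence
      (fun s => C * (volume : Measure T).real K * ‖η s‖) ?_ ?_ (hηi.norm.const_mul _) ?_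
    · exact Eventually.of_forall fun ε =>
        ((hΓc.comp (continuous_const.mul continuous_id)).mul hη).aestronglyMeasurable
    · refine Eventually.of_forall fun ε => Eventually.of_forall fun s => ?_
      rw [norm_mul]
      exact mul_le_mul_of_nonneg_right (hΓb _) (norm_nonneg _)
    · refine Eventually.of_forall fun s => ?_
      have h3 : Continuous fun ε : ℝ => Γ (ε * s) * η s := by fun_prop
      have h4 := (h3.tendsto 0).mono_left (nhdsWithin_le_nhds (s := Ioi 0))
      simpa using h4
  rw [integral_const_mul, hη1, mul_one] at h2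
  exact h2.congr' (eventually_nhdsWithin_of_forall fun ε hε => (e ε hε).symm)

variable {E : Type*} [NormedAddCommGroup E] [InnerProductSpace ℝ E] [FiniteDimensional ℝ E]
  [MeasurableSpace E] [BorelSpace E]
variable {m : ℕ} {w : E → ℝ}

/-- the area measure of the level set `{w = 0}` -/
noncomputable def area (m : ℕ) (w : E → ℝ) : Measure E := (μH[m] : Measure E).restrict {x | w x = 0}

lemma measurableSet_zero (hw : Continuous w) : MeasurableSet {x | w x = 0} :=
  (isClosed_eq hw continuous_const).measurableSet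

/-- the area measure of a regular level set is locally finite -/
theorem area_locallyFinite (hE : finrank ℝ E = m + 1) (hw : ContDiff ℝ 1 w)
    (h1 : ∀ x, w x = 0 → ‖gradient w x‖ = 1) : IsLocallyFiniteMeasure (area m w) := by
  refine ⟨fun p => ?_⟩
  by_cases hp : w p = 0
  · obtain ⟨Θ, hpΘ, hΘ⟩ := exists_chart hw (h1 p hp)
    obtain ⟨K, hK, hKs, hKc⟩ := local_compact_nhds (Θ.open_source.mem_nhds hpΘ)
    refine ⟨K, hK, ?_⟩
    rw [area, Measure.restrict_apply hKc.measurableSet, inter_comm]
    exact hΘ.measure_lt_top hE hKc hKs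
  · refine ⟨{x | w x ≠ 0}, (isOpen_ne_fun hw.continuous continuous_const).mem_nhds hp, ?_⟩
    rw [area, Measure.restrict_apply' (measurableSet_zero hw.continuous)]
    have : {x | w x ≠ 0} ∩ {x | w x = 0} = ∅ := by
      ext x; simp
    rw [this, measure_empty]
    exact ENNReal.zero_lt_top

/-- **Thin slabs.** -/
theorem slab_limit (hE : finrank ℝ E = m + 1) (hw : ContDiff ℝ 1 w)
    (h1 : ∀ x, w x = 0 → ‖gradient w x‖ = 1) {η : ℝ → ℝ} (hη : Continuous η)
    (hηc : HasCompactSupport η) (hη1 : ∫ s, η s = 1) {g : E → ℝ} (hg : Continuous g)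
    (hgc : HasCompactSupport g) :
    Tendsto (fun ε => cH m * ∫ x, g x * aid η ε (w x)) (𝓝[>] 0) (𝓝 (∫ x, g x ∂(area m w))) := by
  have hlf := area_locallyFinite hE hw h1
  have key := of_local (P := fun g : E → ℝ => Continuous g ∧ HasCompactSupport g ∧
    Tendsto (fun ε => cH m * ∫ x, g x * aid η ε (w x)) (𝓝[>] 0) (𝓝 (∫ x, g x ∂(area m w))))
    ?_ ?_ ?_ hg hgc
  · exact key.2.2
  · exact ⟨continuous_const, HasCompactSupport.zero, by simp⟩
  · rintro g g' ⟨a1, a2, a3⟩ ⟨b1, b2, b3⟩
    refine ⟨a1.add b1, a2.add b2, ?_⟩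
    rw [integral_add (a1.integrable_of_hasCompactSupport a2)
      (b1.integrable_of_hasCompactSupport b2)]
    refine (a3.add b3).congr fun ε => ?_
    have hc : Continuous fun x => aid η ε (w x) := (continuous_aid hη ε).comp hw.continuous
    have i1 : Integrable fun x => g x * aid η ε (w x) :=
      (a1.mul hc).integrable_of_hasCompactSupport a2.mul_right
    have i2 : Integrable fun x => g' x * aid η ε (w x) :=
      (b1.mul hc).integrable_of_hasCompactSupport b2.mul_right
    rw [← mul_add, ← integral_add i1 i2]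
    simp only [add_mul]
  · intro p
    by_cases hp : w p = 0
    · obtain ⟨Θ, hpΘ, hΘ⟩ := exists_chart hw (h1 p hp)
      refine ⟨Θ.source, Θ.open_source.mem_nhds hpΘ, fun g hg hgc hgs => ⟨hg, hgc, ?_⟩⟩
      have h2 := (flat_limit (hΘ.den_cont hE hg hgc hgs) (hΘ.den_compact hgc hgs) hη hηc
        hη1).const_mul ((cH m : ℝ) / cH (m + 1))
      have h3 := hΘ.integral_surf hE h1 hgs hw.continuous
      have hc := cH_pos' (m + 1)
      have e1 : ∫ x, g x ∂(area m w)
          = (cH m : ℝ) / cH (m + 1) * ∫ q, IsChart.den m Θ g (0, q) := by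
        rw [div_mul_eq_mul_div, ← h3, area]
        field_simp
      rw [e1]
      refine h2.congr fun ε => ?_
      rw [← hΘ.integral_vol hE hgs]
      field_simp
    · have hp' : 0 < |w p| / 2 := half_pos (abs_pos.2 hp)
      refine ⟨{x | |w p| / 2 < |w x|}, (isOpen_lt continuous_const hw.continuous.abs).mem_nhds
        (half_lt_self (abs_pos.2 hp)), fun g hg hgc hgs => ⟨hg, hgc, ?_⟩⟩
      have e1 : ∫ x, g x ∂(area m w) = 0 := by
        refine setIntegral_eq_zero_of_forall_eq_zero fun x hx =>
          image_eq_zero_of_notMem_tsupport fun h => ?_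
        have h2 : |w p| / 2 < |w x| := hgs h
        rw [show w x = 0 from hx, abs_zero] at h2
        linarith
      rw [e1]
      obtain ⟨R, hR0, hR⟩ := exists_radius hηc
      refine tendsto_const_nhds.congr' ?_
      filter_upwards [Ioo_mem_nhdsGT (div_pos hp' hR0)] with ε hε
      have e2 : ∀ x, g x * aid η ε (w x) = 0 := by
        intro x
        by_cases hx : x ∈ tsupport g
        · rw [aid_eq_zero hR hε.1, mul_zero]
          have h2 : |w p| / 2 < |w x| := hgs hx
          have h3 := hε.2
          rw [lt_div_iff₀ hR0] at h3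
          linarith
        · rw [image_eq_zero_of_notMem_tsupport hx, zero_mul]
      simp [e2]

end Vale.Agent.P218GA
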