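import Vale.Agent.P218GA.Param

/-! The closed surface obtained by adding one point to each end. -/

open Set Metric Filter Topology Module
open scoped ContDiff RealInnerProductSpace

namespace Vale.Agent.P218GA

open Vale.Agent.P218VA (E2)
open Vale.Agent.P218MP
open Vale.Agent.P272.K.LIN (RSm)

/-- a regular level set which is the union of a bounded part and of ends -/
structure Ends (S : Set E3) (w : E3 → ℝ) (J : Type) (W : ℝ) (Y : J → ℝ × ℝ → E3) : Prop where
  smooth : ContDiff ℝ ∞ w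
  mem_iff : ∀ x, x ∈ S ↔ w x = 0
  grad : ∀ x ∈ S, ‖gradient w x‖ = 1
  par : ∀ j, EndPar S W (Y j)
  disj : ∀ j j' p q, W < p.1 → W < q.1 → Y j p = Y j' q → j = j'
  cover : ∀ x ∈ S, 4 * W < ‖x‖ ^ 2 → ∃ j p, W < p.1 ∧ Y j p = x

variable {S : Set E3} {w : E3 → ℝ} {J : Type} {W : ℝ} {Y : J → ℝ × ℝ → E3}

/-- the position -/
def pos : S ⊕ J → E3 := Sum.elim (↑) fun _ => 0

open Classical in
/-- the point at a given position -/
noncomputable def sec (m : S ⊕ J) (x : E3) : S ⊕ J := if h : x ∈ S then .inl ⟨x, h⟩ else m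

lemma sec_eq (m : S ⊕ J) {x : E3} (hx : x ∈ S) : sec m x = .inl ⟨x, hx⟩ := dif_pos hx

open Classical in
/-- the disc around the point added to an end -/
noncomputable def disc (S : Set E3) (Y : J → ℝ × ℝ → E3) (j : J) (y : E2) : S ⊕ J :=
  if y = 0 then .inr j else sec (.inr j) (Y j (lp y))

lemma disc_zero (j : J) : disc S Y j 0 = .inr j := if_pos rfl

lemma cases_ball {y : E2} (hy : y ∈ ball (0 : E2) (Real.exp (-W))) :
    y = 0 ∨ ∃ p : ℝ × ℝ, W < p.1 ∧ y = pol p := by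
  by_cases h : y = 0
  · exact .inl h
  · exact .inr ⟨lp y, pol_mem_ball.1 (by rwa [pol_lp h]), (pol_lp h).symm⟩

/-- an immersion into the regular part -/
structure RegAt (f : E2 → S ⊕ J) (y : E2) : Prop where
  smooth : ContDiffAt ℝ ∞ (fun z => pos (f z)) y
  imm : Function.Injective (fderiv ℝ (fun z => pos (f z)) y)
  reg : ∀ᶠ z in 𝓝 y, ∃ x, f z = .inl x

lemma regAt_of {f : E2 → S ⊕ J} {ψ : E2 → E3} {y : E2} (h1 : ContDiffAt ℝ ∞ ψ y)
    (h2 : Function.Injective (fderiv ℝ ψ y)) (h3 : ∀ᶠ z in 𝓝 y, ∃ h, f z = .inl ⟨ψ z, h⟩) :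
    RegAt f y := by
  have h4 : (fun z => pos (f z)) =ᶠ[𝓝 y] ψ := h3.mono fun z ⟨_, hz⟩ => by simp only [hz]; rfl
  exact ⟨h1.congr_of_eventuallyEq h4, by rwa [h4.fderiv_eq], h3.mono fun z ⟨_, hz⟩ => ⟨_, hz⟩⟩

namespace Ends

variable (h : Ends S w J W Y)
include h

lemma disc_pol (j : J) {p : ℝ × ℝ} (hp : W < p.1) :
    disc S Y j (pol p) = .inl ⟨Y j p, (h.par j).mem p hp⟩ := by
  rw [disc, if_neg (pol_ne_zero p), (h.par j).per.lp_pol, sec_eq]

lemma disc_eq {j j' : J} {y y' : E2} (hy : y ∈ ball (0 : E2) (Real.exp (-W)))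
    (hy' : y' ∈ ball (0 : E2) (Real.exp (-W))) (e : disc S Y j y = disc S Y j' y') :
    j = j' ∧ y = y' := by
  rcases cases_ball hy with rfl | ⟨p, hp, rfl⟩ <;> rcases cases_ball hy' with rfl | ⟨q, hq, rfl⟩
  · rw [disc_zero, disc_zero] at e
    exact ⟨Sum.inr_injective e, rfl⟩
  · rw [disc_zero, h.disc_pol j' hq] at e
    exact absurd e Sum.inr_ne_inl
  · rw [disc_zero, h.disc_pol j hp] at e
    exact absurd e Sum.inl_ne_inr
  · rw [h.disc_pol j hp, h.disc_pol j' hq] at e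
    have e' : Y j p = Y j' q := congrArg pos e
    obtain rfl := h.disj j j' p q hp hq e'
    exact ⟨rfl, (h.par j).inj p q hp hq e'⟩

/-- the chart at an end -/
noncomputable def chart (j : J) : PartialEquiv (S ⊕ J) E2 :=
  (InjOn.toPartialEquiv (disc S Y j) (ball 0 (Real.exp (-W)))
    fun _ hy _ hy' e => (h.disc_eq hy hy' e).2).symm

lemma regAt_disc (j : J) {p : ℝ × ℝ} (hp : W < p.1) : RegAt (disc S Y j) (pol p) := by
  have h1 := (h.par j).smooth p hp
  refine regAt_of (ψ := fun z => Y j (lp z)) ((h.par j).per.contDiffAt_lp le_rfl h1) ?_ ?_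
  · rw [((h.par j).per.hasFDerivAt_lp (h1.differentiableAt (by simp)).hasFDerivAt).fderiv]
    exact ((h.par j).imm p hp).comp (dpolE (pol_ne_zero p)).symm.injective
  · rw [← map_pol_nhds, eventually_map]
    filter_upwards [(isOpen_lt continuous_const continuous_fst).mem_nhds hp] with q hq
    rw [h.disc_pol j hq, (h.par j).per.lp_pol]
    exact ⟨_, rfl⟩

/-- admissible charts -/
def Good (e : PartialEquiv (S ⊕ J) E2) : Prop :=
  IsOpen e.target ∧ ∀ y ∈ e.target, (∃ j, e = h.chart j ∧ y = 0) ∨ RegAt e.symm y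

lemma good_chart (j : J) : h.Good (h.chart j) := by
  refine ⟨isOpen_ball, fun y hy => ?_⟩
  rcases cases_ball hy with rfl | ⟨p, hp, rfl⟩
  · exact .inl ⟨j, rfl, rfl⟩
  · exact .inr (h.regAt_disc j hp)

lemma zero_mem (j : J) : (0 : E2) ∈ (h.chart j).target := mem_ball_self (Real.exp_pos _)

lemma exists_good (m : S ⊕ J) : ∃ e, h.Good e ∧ m ∈ e.source := by
  rcases m with x | j
  · obtain ⟨O, ψ, hO, hi, ⟨y, hy, hx⟩, hψ⟩ :=
      exists_par h.smooth ((h.mem_iff x).1 x.2) (h.grad x x.2)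
    have h1 : ∀ z (hz : z ∈ O), sec (.inl x : S ⊕ J) (ψ z) = .inl ⟨ψ z, _⟩ := fun z hz =>
      sec_eq _ ((h.mem_iff _).2 (hψ z hz).1)
    refine ⟨(InjOn.toPartialEquiv (fun z => sec (.inl x) (ψ z)) O fun z hz z' hz' e => ?_).symm,
      ⟨hO, fun z hz => .inr (regAt_of (hψ z hz).2.1 (hψ z hz).2.2 ?_)⟩, y, hy, ?_⟩
    · simp only [h1 z hz, h1 z' hz'] at e
      exact hi hz hz' (congrArg pos e)
    · filter_upwards [hO.mem_nhds hz] with z' hz' using ⟨_, h1 z' hz'⟩
    · simp only [hx, sec_eq _ x.2]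
  · exact ⟨h.chart j, h.good_chart j, 0, h.zero_mem j, disc_zero j⟩

variable {h}

lemma Good.cases {e : PartialEquiv (S ⊕ J) E2} (he : h.Good e) {m : S ⊕ J} (hm : m ∈ e.source) :
    (∃ j, m = .inr j ∧ e = h.chart j) ∨ ∃ x, m = .inl x ∧ RegAt e.symm (e m) := by
  rcases he.2 _ (e.map_source hm) with ⟨j, rfl, h0⟩ | hr
  · exact .inl ⟨j, by rw [← (h.chart j).left_inv hm, h0]; exact disc_zero j, rfl⟩
  · obtain ⟨x, hx⟩ := hr.reg.self_of_nhds
    exact .inr ⟨x, by rw [← hx, e.left_inv hm], hr⟩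

lemma Good.regAt {e : PartialEquiv (S ⊕ J) E2} (he : h.Good e) {x : S}
    (hx : .inl x ∈ e.source) : RegAt e.symm (e (.inl x)) := by
  rcases he.cases hx with ⟨j, hj, -⟩ | ⟨_, -, hr⟩
  · exact absurd hj Sum.inl_ne_inr
  · exact hr

lemma Good.eq_chart {e : PartialEquiv (S ⊕ J) E2} (he : h.Good e) {j : J}
    (hj : .inr j ∈ e.source) : e = h.chart j := by
  rcases he.cases hj with ⟨j', hj', hr⟩ | ⟨_, hx, -⟩
  · rw [hr, Sum.inr_injective hj']
  · exact absurd hx Sum.inr_ne_inl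

/-- charts extend smoothly to the ambient space -/
lemma Good.exists_ext {e : PartialEquiv (S ⊕ J) E2} (he : h.Good e) {x : S}
    (hx : .inl x ∈ e.source) : ∃ G : E3 → E2, ContDiffAt ℝ ∞ G x ∧
      ∀ᶠ z in 𝓝 (x : E3), ∀ hz : z ∈ S, .inl ⟨z, hz⟩ ∈ e.source ∧ e (.inl ⟨z, hz⟩) = G z := by
  have hr := he.regAt hx
  have h0 : pos (e.symm (e (.inl x))) = x := by rw [e.left_inv hx]; rfl
  obtain ⟨G, h1, h2, h3⟩ := exists_inv h.smooth hr.smooth hr.imm
    (hr.reg.mono fun z ⟨u, hu⟩ => by rw [hu]; exact (h.mem_iff _).1 u.2)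
    (by rw [h0]; exact h.grad x x.2)
  rw [h0] at h1 h2 h3
  have h4 : Tendsto G (𝓝 x) (𝓝 (e (.inl x))) := h2 ▸ h1.continuousAt.tendsto
  refine ⟨G, h1, ?_⟩
  filter_upwards [h3, h4.eventually hr.reg, h4.eventually (he.1.mem_nhds (e.map_source hx))]
    with z a1 ⟨u, hu⟩ a3 hz
  have h5 : e.symm (G z) = .inl ⟨z, hz⟩ := by
    have h6 := a1 ((h.mem_iff z).1 hz)
    rw [hu] at h6 ⊢
    exact congrArg _ (Subtype.ext h6)
  rw [← h5]
  exact ⟨e.map_target a3, e.right_inv a3⟩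

lemma Good.trans {e e' : PartialEquiv (S ⊕ J) E2} (he : h.Good e) (he' : h.Good e') {m : S ⊕ J}
    (hm : m ∈ e.source) (hm' : m ∈ e'.source) :
    ContDiffAt ℝ ∞ (fun y => e' (e.symm y)) (e m) ∧ ∀ᶠ y in 𝓝 (e m), e.symm y ∈ e'.source := by
  have h0 := he.1.mem_nhds (e.map_source hm)
  rcases m with x | j
  · have hr := he.regAt hm
    obtain ⟨G, h1, h2⟩ := he'.exists_ext hm'
    have h3 : pos (e.symm (e (.inl x))) = x := by rw [e.left_inv hm]; rfl
    have h4 : ∀ᶠ y in 𝓝 (e (.inl x)), e.symm y ∈ e'.source ∧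
        e' (e.symm y) = G (pos (e.symm y)) := by
      rw [← h3] at h2
      filter_upwards [hr.smooth.continuousAt.tendsto.eventually h2, hr.reg] with y a1 ⟨u, hu⟩
      rw [hu] at a1 ⊢
      exact a1 u.2
    rw [← h3] at h1
    exact ⟨(h1.comp (e (.inl x)) hr.smooth).congr_of_eventuallyEq (h4.mono fun _ hy => hy.2),
      h4.mono fun _ hy => hy.1⟩
  · obtain rfl : e' = e := by rw [he.eq_chart hm, he'.eq_chart hm']
    exact ⟨contDiffAt_id.congr_of_eventuallyEq (Filter.mem_of_superset h0 fun y hy =>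
      e'.right_inv hy), Filter.mem_of_superset h0 fun y hy => e'.map_target hy⟩

variable (h)

/-- the atlas -/
noncomputable def core : ChartedSpaceCore E2 (S ⊕ J) where
  atlas := {e | h.Good e}
  chartAt m := (h.exists_good m).choose
  mem_chart_source m := (h.exists_good m).choose_spec.2
  chart_mem_atlas m := (h.exists_good m).choose_spec.1
  open_source e e' he he' := isOpen_iff_mem_nhds.2 fun y hy => by
    have h1 := (Good.trans he he' (e.map_target hy.1) hy.2).2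
    rw [e.right_inv hy.1] at h1
    exact inter_mem (he.1.mem_nhds hy.1) h1
  continuousOn_toFun e e' he he' y hy := by
    have h1 := (Good.trans he he' (e.map_target hy.1) hy.2).1
    rw [e.right_inv hy.1] at h1
    exact h1.continuousAt.continuousWithinAt

/-- the closed surface -/
def Cpt (_ : Ends S w J W Y) : Type := S ⊕ J

noncomputable instance : TopologicalSpace h.Cpt := h.core.toTopologicalSpace

noncomputable instance : ChartedSpace E2 h.Cpt := h.core.toChartedSpace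

lemma good_of_mem {e : OpenPartialHomeomorph h.Cpt E2} (he : e ∈ atlas E2 h.Cpt) :
    h.Good e.toPartialEquiv := by
  obtain ⟨e', he', rfl⟩ := mem_iUnion₂.1 he
  exact he'

instance : RSm E2 h.Cpt :=
  ⟨fun _ he _ he' _ hx hx' => ((h.good_of_mem he).trans (h.good_of_mem he') hx hx').1⟩

/-- the chart at an end -/
noncomputable def φ (j : J) : OpenPartialHomeomorph h.Cpt E2 :=
  h.core.openPartialHomeomorph (h.chart j) (h.good_chart j)

lemma φ_mem (j : J) : h.φ j ∈ atlas E2 h.Cpt := mem_iUnion₂.2 ⟨_, _, rfl⟩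

lemma φ_disj {j j' : J} {x : h.Cpt} (hx : x ∈ (h.φ j).source) (hx' : x ∈ (h.φ j').source) :
    j = j' := by
  obtain ⟨y, hy, e⟩ := hx
  obtain ⟨y', hy', e'⟩ := hx'
  exact (h.disc_eq hy hy' (e.trans e'.symm)).1

/-- the regular points -/
def pt (x : S) : h.Cpt := .inl x

/-- the added points -/
def inf (j : J) : h.Cpt := .inr j

/-- the position -/
def F (m : h.Cpt) : E3 := pos m

lemma cases (m : h.Cpt) : (∃ x, m = h.pt x) ∨ ∃ j, m = h.inf j := by
  rcases m with x | j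
  exacts [.inl ⟨x, rfl⟩, .inr ⟨j, rfl⟩]

lemma pt_ne (x : S) (j : J) : h.pt x ≠ h.inf j := Sum.inl_ne_inr

lemma φ_zero (j : J) : (h.φ j).symm 0 = h.inf j := disc_zero j

lemma φ_pol (j : J) {p : ℝ × ℝ} (hp : W < p.1) :
    (h.φ j).symm (pol p) = h.pt ⟨Y j p, (h.par j).mem p hp⟩ := h.disc_pol j hp

lemma inf_mem (j : J) : h.inf j ∈ (h.φ j).source :=
  h.φ_zero j ▸ (h.φ j).map_target (h.zero_mem j)

lemma reg_iff {m : h.Cpt} : (∀ j, m ≠ (h.φ j).symm 0) ↔ ∃ x, m = h.pt x := by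
  simp only [φ_zero]
  refine ⟨fun hm => (h.cases m).resolve_right fun ⟨j, hj⟩ => hm j hj, ?_⟩
  rintro ⟨x, rfl⟩ j
  exact h.pt_ne x j

lemma regAt_chart (x : S) : RegAt (S := S) (J := J) (chartAt E2 (h.pt x)).symm
    (chartAt E2 (h.pt x) (h.pt x)) :=
  (h.good_of_mem (chart_mem_atlas E2 _)).regAt (mem_chart_source E2 (h.pt x))

lemma continuousAt_F (x : S) : ContinuousAt h.F (h.pt x) :=
  ((chartAt E2 (h.pt x)).symm.continuousAt_iff_continuousAt_comp_right
    (mem_chart_source E2 (h.pt x))).2 (h.regAt_chart x).smooth.continuousAt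

lemma continuous_pt : Continuous h.pt := by
  refine continuous_iff_continuousAt.2 fun x => ?_
  set e := chartAt E2 (h.pt x)
  have hx : h.pt x ∈ e.source := mem_chart_source E2 _
  obtain ⟨G, h1, h2⟩ := (h.good_of_mem (chart_mem_atlas E2 _)).exists_ext hx
  have h3 := continuous_subtype_val.continuousAt.tendsto.eventually h2
  have h4 : e (h.pt x) = G x := (h2.self_of_nhds x.2).2
  have h5 : ContinuousAt (fun z : S => e.symm (G z)) x :=
    ContinuousAt.comp (g := e.symm) (e.continuousAt_symm (h4 ▸ e.map_source hx))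
      (h1.continuousAt.comp continuous_subtype_val.continuousAt)
  refine h5.congr (h3.mono fun z hz => ?_)
  have h6 : G z = e (h.pt z) := (hz z.2).2.symm
  simp only [h6]
  exact e.left_inv (hz z.2).1

lemma disjoint_nhds (x : S) (j : J) : Disjoint (𝓝 (h.pt x)) (𝓝 (h.inf j)) := by
  have h1 : ∀ᶠ m in 𝓝 (h.pt x), ‖h.F m‖ ^ 2 < ‖h.F (h.pt x)‖ ^ 2 + 1 :=
    ((h.continuousAt_F x).norm.pow 2).eventually_lt continuousAt_const (lt_add_one _)
  have h2 : ∀ᶠ m in 𝓝 (h.pt x), ∃ u, m = h.pt u := by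
    rw [← (chartAt E2 (h.pt x)).symm_map_nhds_eq (mem_chart_source E2 _), eventually_map]
    exact (h.regAt_chart x).reg
  set R := max W ((‖h.F (h.pt x)‖ ^ 2 + 1) / 4)
  have h3 : ∀ᶠ m in 𝓝 (h.inf j), m = h.inf j ∨ 4 * R < ‖h.F m‖ ^ 2 := by
    rw [← h.φ_zero, ← (h.φ j).symm.map_nhds_eq (h.zero_mem j), eventually_map]
    filter_upwards [ball_mem_nhds 0 (Real.exp_pos (-R))] with y hy
    rcases cases_ball hy with rfl | ⟨p, hp, rfl⟩
    · exact .inl rfl
    · have hp' : W < p.1 := (le_max_left _ _).trans_lt hp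
      rw [h.φ_pol j hp']
      refine .inr (show 4 * R < ‖Y j p‖ ^ 2 from ?_)
      linarith [(h.par j).norm p hp']
  refine disjoint_of_disjoint_of_mem (disjoint_left.2 ?_) (h1.and h2) h3
  rintro _ ⟨a1, u, rfl⟩ (a2 | a2)
  · exact h.pt_ne u j a2
  · linarith [le_max_right W ((‖h.F (h.pt x)‖ ^ 2 + 1) / 4)]

instance : T2Space h.Cpt := by
  refine t2Space_iff_disjoint_nhds.2 fun m m' hm => ?_
  rcases h.cases m with ⟨x, rfl⟩ | ⟨j, rfl⟩ <;> rcases h.cases m' with ⟨x', rfl⟩ | ⟨j', rfl⟩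
  · exact (h.continuousAt_F x).tendsto.disjoint (disjoint_nhds_nhds.2 fun e =>
      hm (congrArg _ (Subtype.ext e))) (h.continuousAt_F x').tendsto
  · exact h.disjoint_nhds x j'
  · exact (h.disjoint_nhds x' j).symm
  · exact disjoint_of_disjoint_of_mem (disjoint_left.2 fun _ a b => hm (by rw [h.φ_disj a b]))
      ((h.φ j).open_source.mem_nhds (h.inf_mem j)) ((h.φ j').open_source.mem_nhds (h.inf_mem j'))

instance [Finite J] : CompactSpace h.Cpt := by
  have hS : IsClosed S := by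
    rw [show S = {x | w x = 0} from Set.ext h.mem_iff]
    exact isClosed_eq h.smooth.continuous continuous_const
  have h1 : IsCompact (h.pt '' ((↑) ⁻¹' closedBall (0 : E3) √(4 * (W + 1)))) :=
    (hS.isClosedEmbedding_subtypeVal.isCompact_preimage (isCompact_closedBall _ _)).image
      h.continuous_pt
  have h2 : IsCompact (⋃ j, (h.φ j).symm '' closedBall 0 (Real.exp (-(W + 1)))) :=
    isCompact_iUnion fun j => (isCompact_closedBall _ _).image_of_continuousOn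
      ((h.φ j).continuousOn_symm.mono (closedBall_subset_ball (Real.exp_lt_exp.2 (by linarith))))
  refine ⟨(h1.union h2).of_isClosed_subset isClosed_univ fun m _ => ?_⟩
  rcases h.cases m with ⟨x, rfl⟩ | ⟨j, rfl⟩
  · by_cases hx : ‖(x : E3)‖ ^ 2 ≤ 4 * (W + 1)
    · exact .inl ⟨x, mem_closedBall_zero_iff.2 (Real.le_sqrt_of_sq_le hx), rfl⟩
    · obtain ⟨j, p, hp, e⟩ := h.cover x x.2 (by linarith)
      have h3 := (h.par j).norm p hp
      refine .inr (mem_iUnion.2 ⟨j, pol p, ?_, ?_⟩)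
      · rw [mem_closedBall_zero_iff, norm_pol, Real.exp_le_exp]
        rw [e] at h3
        linarith
      · rw [h.φ_pol j hp]
        exact congrArg _ (Subtype.ext e)
  · exact .inr (mem_iUnion.2 ⟨j, 0, mem_closedBall_self (Real.exp_pos _).le, h.φ_zero j⟩)

lemma F_smooth {e : OpenPartialHomeomorph h.Cpt E2} (he : e ∈ atlas E2 h.Cpt) {y : E2}
    (hy : y ∈ e.target) (hr : ∀ j, e.symm y ≠ (h.φ j).symm 0) :
    ContDiffAt ℝ ∞ (fun z => h.F (e.symm z)) y ∧
      Function.Injective (fderiv ℝ (fun z => h.F (e.symm z)) y) := by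
  obtain ⟨x, hx⟩ := h.reg_iff.1 hr
  have h1 := (h.good_of_mem he).regAt (x := x) (show h.pt x ∈ _ from hx ▸ e.map_target hy)
  have h2 : e (h.pt x) = y := by rw [← hx, e.right_inv hy]
  rw [← h2]
  exact ⟨h1.smooth, h1.imm⟩

lemma F_inj : InjOn h.F {m | ∀ j, m ≠ (h.φ j).symm 0} := fun m hm m' hm' e => by
  obtain ⟨x, rfl⟩ := h.reg_iff.1 hm
  obtain ⟨x', rfl⟩ := h.reg_iff.1 hm'
  exact congrArg _ (Subtype.ext e)

lemma F_image : h.F '' {m | ∀ j, m ≠ (h.φ j).symm 0} = S := by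
  refine Set.ext fun x => ⟨?_, fun hx => ⟨h.pt ⟨x, hx⟩, h.reg_iff.2 ⟨_, rfl⟩, rfl⟩⟩
  rintro ⟨m, hm, rfl⟩
  obtain ⟨x, rfl⟩ := h.reg_iff.1 hm
  exact x.2

lemma F_core {m : h.Cpt} (hm : ∀ j, m ∉ (h.φ j).source) : ‖h.F m‖ ^ 2 ≤ 4 * W := by
  rcases h.cases m with ⟨x, rfl⟩ | ⟨j, rfl⟩
  · by_contra hx
    obtain ⟨j, p, hp, e⟩ := h.cover x x.2 (not_le.1 hx)
    refine hm j ?_
    rw [show h.pt x = (h.φ j).symm (pol p) by
      rw [h.φ_pol j hp]; exact congrArg _ (Subtype.ext e.symm)]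
    exact (h.φ j).map_target (pol_mem_ball.2 hp)
  · exact absurd (h.inf_mem j) (hm j)

lemma F_pol (j : J) {p : ℝ × ℝ} (hp : W < p.1) : h.F ((h.φ j).symm (pol p)) = Y j p := by
  rw [h.φ_pol j hp]; rfl

end Ends

end Vale.Agent.P218GA
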