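import Vale.Agent.P218GA.Defs
import Vale.Agent.P218VA.Chg
import Vale.Agent.P272.K.LIN.Cov

/-! The working model: the shrinker as the image of a punctured closed surface. -/

open Set Metric Filter Topology
open scoped RealInnerProductSpace ContDiff Matrix

namespace Vale.Agent.P218GA

open Vale.Agent.P218.H63 (IsTubeShrinker)
open Vale.Agent.P218VA (E2 C3 pd)

/-- exponential polar coordinates -/
noncomputable def pol (p : ℝ × ℝ) : E2 :=
  !₂[Real.exp (-p.1) * Real.cos p.2, Real.exp (-p.1) * Real.sin p.2]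

/-- the point at distance `2 √w` from the origin in the direction which makes the angle
`2 arctan t` with `γ`, towards `n` -/
noncomputable def xi (γ n : E3) (w t : ℝ) : E3 :=
  (2 * √w / (1 + t ^ 2)) • ((1 - t ^ 2) • γ + (2 * t) • n)

/-- the axis of the standard cylinder -/
noncomputable def e3 : E3 := !₂[0, 0, 1]

/-- the unit normal of the standard cylinder -/
noncomputable def eth (θ : ℝ) : E3 := !₂[Real.cos θ, Real.sin θ, 0]

/-- coordinates adapted to the standard cylinder, which is close to `U = 1` -/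
noncomputable def xiCyl (w θ U : ℝ) : E3 := xi e3 (eth θ) w (U / √(8 * w))

/-- coordinates adapted to the cone over a link, which is `t = 0` -/
noncomputable def xiCone (L : Link) (w θ t : ℝ) : E3 := xi (L.γ θ) (L.n θ) w t

/-- complexification of vectors -/
noncomputable def cx : E3 →L[ℝ] C3 :=
  ContinuousLinearMap.pi fun i => Complex.ofRealCLM.comp (EuclideanSpace.proj i)

/-- the matrix of an isometry -/
noncomputable def mat (Q : E3 ≃ₗᵢ[ℝ] E3) : Matrix (Fin 3) (Fin 3) ℂ :=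
  fun i j => ((Q (EuclideanSpace.single j 1) i : ℝ) : ℂ)

/-- the derivative in the first variable -/
noncomputable def dw {F : Type*} [NormedAddCommGroup F] [NormedSpace ℝ F] (f : ℝ × ℝ → F) :
    ℝ × ℝ → F := pd f (1, 0)

/-- the derivative in the second variable -/
noncomputable def dth {F : Type*} [NormedAddCommGroup F] [NormedSpace ℝ F] (f : ℝ × ℝ → F) :
    ℝ × ℝ → F := pd f (0, 1)

/-- `f (w, θ) → 0` as `w → ∞`, uniformly in `θ` -/
def ToZero {F : Type*} [NormedAddCommGroup F] (f : ℝ × ℝ → F) : Prop :=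
  ∀ ε : ℝ, 0 < ε → ∃ W : ℝ, ∀ p : ℝ × ℝ, W ≤ p.1 → ‖f p‖ ≤ ε

/-- The self-shrinker `S = {w = 0}` is the image under `F` of the closed surface `M` minus the
points `(φ j).symm 0`; the ends `j : ι` are cylindrical, the ends `j : κ` are conical. -/
structure Model (S : Set E3) (w : E3 → ℝ) (δ C : ℝ) (ι κ : Type) (M : Type) [TopologicalSpace M]
    [ChartedSpace E2 M] where
  /-- the parametrisation -/
  F : M → E3
  /-- the charts at the ends -/
  φ : ι ⊕ κ → OpenPartialHomeomorph M E2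
  /-- the level where the ends begin -/
  w0 : ℝ
  /-- the positions of the axes -/
  Q : ι → E3 ≃ₗᵢ[ℝ] E3
  /-- the cylindrical ends -/
  U : ι → ℝ × ℝ → ℝ
  /-- the links -/
  L : κ → Link
  /-- the conical ends -/
  t : κ → ℝ × ℝ → ℝ
  shr : IsTubeShrinker S w δ C
  w_smooth : ContDiff ℝ ∞ w
  one_le : 1 ≤ w0
  mem : ∀ j, φ j ∈ atlas E2 M
  target : ∀ j, (φ j).target = ball 0 (Real.exp (-w0))
  disj : ∀ j j' x, x ∈ (φ j).source → x ∈ (φ j').source → j = j'
  smooth : ∀ e ∈ atlas E2 M, ∀ y ∈ e.target, (∀ j, e.symm y ≠ (φ j).symm 0) →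
    ContDiffAt ℝ ∞ (fun z => F (e.symm z)) y ∧
      Function.Injective (fderiv ℝ (fun z => F (e.symm z)) y)
  inj : InjOn F {x | ∀ j, x ≠ (φ j).symm 0}
  image : F '' {x | ∀ j, x ≠ (φ j).symm 0} = S
  core : ∀ x, (∀ j, x ∉ (φ j).source) → ‖F x‖ ^ 2 ≤ 4 * w0
  cyl : ∀ i p, w0 < p.1 → F ((φ (.inl i)).symm (pol p)) = Q i (xiCyl p.1 p.2 (U i p))
  cone : ∀ j p, w0 < p.1 → F ((φ (.inr j)).symm (pol p)) = xiCone (L j) p.1 p.2 (t j p)
  U_smooth : ∀ i p, w0 < p.1 → ContDiffAt ℝ ∞ (U i) p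
  t_smooth : ∀ j p, w0 < p.1 → ContDiffAt ℝ ∞ (t j) p
  U_periodic : ∀ i w θ, U i (w, θ + 2 * Real.pi) = U i (w, θ)
  t_periodic : ∀ j w θ, t j (w, θ + 2 * Real.pi) = t j (w, θ)
  U_lim : ∀ i (a b : ℕ), ToZero fun p => p.1 ^ a * dw^[a] (dth^[b] fun q => U i q - 1) p
  t_lim : ∀ j (a b : ℕ), ToZero fun p => p.1 ^ a * dw^[a] (dth^[b] (t j)) p
  axis_inj : ∀ i i', Q i e3 = Q i' e3 → i = i'
  axis_ne : ∀ i j θ, Q i e3 ≠ (L j).γ θ
  link_disj : ∀ j j' θ θ', (L j).γ θ = (L j').γ θ' → j = j'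

/-- the regular part of the closed surface -/
def Model.reg {S : Set E3} {w : E3 → ℝ} {δ C : ℝ} {ι κ M : Type} [TopologicalSpace M]
    [ChartedSpace E2 M] (m : Model S w δ C ι κ M) : Set M := {x | ∀ j, x ≠ (m.φ j).symm 0}

end Vale.Agent.P218GA
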