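import Vale.Agent.P218GA.Chart2
import Vale.Agent.P218VA.Int

/-! The Gaussian area of an immersed surface as a measure on the parameter manifold. -/

open MeasureTheory Set Metric Filter Topology
open scoped RealInnerProductSpace ContDiff ENNReal NNReal

namespace Vale.Agent.P218GA

set_option linter.unusedSectionVars false

open Vale.Agent.P218.H63 (gaussArea)
open Vale.Agent.P218.H313 (rho rho_pos continuous_rho)
open Vale.Agent.P218VA
open Vale.Agent.P272.K.LIN

lemma grm_nonneg (a b : E3) : 0 ≤ grm a b := by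
  rw [← inner_crs_self]; exact real_inner_self_nonneg

section
variable {D : Type*} [NormedAddCommGroup D] [NormedSpace ℝ D]

/-- the real Lagrangian -/
noncomputable def lagR (d1 d2 : D) (X : D → E3) (y : D) : ℝ :=
  rho (X y) * √(grm (pd X d1 y) (pd X d2 y))

lemma lagR_nonneg (d1 d2 : D) (X : D → E3) (y : D) : 0 ≤ lagR d1 d2 X y :=
  mul_nonneg (rho_pos _).le (Real.sqrt_nonneg _)

lemma wt_cx (x : E3) : wt (cx x) = (rho x : ℝ) := by
  rw [wt, cx_dot, rho, real_inner_self_eq_norm_sq]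
  push_cast
  rfl

lemma ar_cx (a b : E3) : ar (cx a) (cx b) = (√(grm a b) : ℝ) := by
  rw [ar, cx_gram, Complex.sqrt_of_nonneg (by exact_mod_cast grm_nonneg a b)]
  simp

lemma LagF_cx {X : D → E3} {y : D} (hX : DifferentiableAt ℝ X y) (d1 d2 : D) :
    LagF d1 d2 (fun z => cx (X z)) y = (lagR d1 d2 X y : ℝ) := by
  rw [LagF, Lag, pd_cx hX, pd_cx hX, wt_cx, ar_cx, lagR]
  push_cast
  rfl

end

lemma normDet_E2 (L : E2 →L[ℝ] E3) : (L : E2 →ₗ[ℝ] E3).normDet = √(grm (L u1) (L u2)) := by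
  rw [normDet_eq_sqrt _ (EuclideanSpace.basisFun (Fin 2) ℝ), Matrix.det_fin_two]
  simp [Matrix.gram, grm, u1, u2, real_inner_comm, sq]

lemma indep_u : LinearIndependent ℝ ![u1, u2] := by
  rw [LinearIndependent.pair_iff]
  intro s t h
  have h0 := congrArg (fun v : E2 => v 0) h
  have h1 := congrArg (fun v : E2 => v 1) h
  simp [u1, u2] at h0 h1
  exact ⟨h0, h1⟩

/-- the Gaussian weighted Hausdorff measure -/
noncomputable def gam : Measure E3 := (μH[2] : Measure E3).withDensity fun x => ENNReal.ofReal (rho x)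

lemma gam_restrict {S : Set E3} (hS : MeasurableSet S) : gam.restrict S = gaussArea 2 S := by
  rw [gam, restrict_withDensity hS]
  simp only [gaussArea, rho, Nat.cast_ofNat]

lemma measurable_rho : Measurable fun x : E3 => ENNReal.ofReal (rho x) :=
  continuous_rho.measurable.ennreal_ofReal

lemma isJac_E2 : IsJac (volume : Measure E2) 2
    fun L : E2 →L[ℝ] E3 => cH 2 * (L : E2 →ₗ[ℝ] E3).normDet := by
  simpa using isJac_volume (U := E2) (V := E3) (m := 2) (by simp)

variable {M : Type*} [TopologicalSpace M] [ChartedSpace E2 M] [RSm E2 M] [T2Space M]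
  [CompactSpace M]

lemma polish : PolishSpace M := by
  have := ChartedSpace.secondCountable_of_sigmaCompact E2 M
  let := TopologicalSpace.metrizableSpaceMetric M
  infer_instance

/-- a real immersion of class `C^2` on the open set `Ω` -/
structure RImm (Ω : Set M) (X : M → E3) : Prop where
  opn : IsOpen Ω
  ck : ∀ x ∈ Ω, CkAt 2 X x
  inj : ∀ x ∈ Ω, ∀ e ∈ atlas E2 M, x ∈ e.source → Function.Injective (fderiv ℝ (cX e X) (e x))

variable {Ω B : Set M} {X F : M → E3} {e : OpenPartialHomeomorph M E2}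

lemma RImm.mono (h : RImm Ω X) {Ω' : Set M} (h' : IsOpen Ω') (hs : Ω' ⊆ Ω) : RImm Ω' X :=
  ⟨h', fun x hx => h.ck x (hs hx), fun x hx => h.inj x (hs hx)⟩

lemma RImm.cont (h : RImm Ω X) : ContinuousOn X Ω := fun x hx =>
  (h.ck x hx).continuousAt.continuousWithinAt

lemma RImm.imm (h : RImm Ω X) {x : M} (hx : x ∈ Ω) : Imm (fun z => cx (X z)) x := by
  refine ⟨fun e he hxe => cx.contDiff.contDiffAt.comp _ (h.ck x hx e he hxe), fun e he hxe => ?_⟩
  have h1 := gramF_cx ((h.ck x hx e he hxe).differentiableAt (by simp)) u1 u2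
  rw [show cX e (fun z => cx (X z)) = fun z => cx (cX e X z) from rfl, h1]
  exact Complex.ofReal_mem_slitPlane.2 (grm_pos (h.inj x hx e he hxe) indep_u)

lemma RImm.lag (h : RImm Ω X) {x : M} (hx : x ∈ Ω) (he : e ∈ atlas E2 M) (hxe : x ∈ e.source) :
    LagF u1 u2 (cX e fun z => cx (X z)) (e x) = (lagR u1 u2 (cX e X) (e x) : ℝ) :=
  LagF_cx ((h.ck x hx e he hxe).differentiableAt (by simp)) u1 u2

lemma RImm.lag_pos (h : RImm Ω X) {x : M} (hx : x ∈ Ω) (he : e ∈ atlas E2 M) (hxe : x ∈ e.source) :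
    0 < lagR u1 u2 (cX e X) (e x) :=
  mul_pos (rho_pos _) (Real.sqrt_pos.2 (grm_pos (h.inj x hx e he hxe) indep_u))

/-- the relative density is real -/
lemma RImm.lagM (hF : RImm Ω F) (h : RImm Ω X) {x : M} (hx : x ∈ Ω) (he : e ∈ atlas E2 M)
    (hxe : x ∈ e.source) : LagM (fun z => cx (F z)) (fun z => cx (X z)) x
      = (lagR u1 u2 (cX e X) (e x) / lagR u1 u2 (cX e F) (e x) : ℝ) := by
  have h1 := LagM_chart (hF.imm hx) ((h.imm hx).ck.of_le (by norm_num)) he hxe
  rw [hF.lag hx he hxe, h.lag hx he hxe] at h1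
  push_cast
  rw [eq_div_iff (by exact_mod_cast (hF.lag_pos hx he hxe).ne'), h1]

variable [MeasurableSpace M] [BorelSpace M]

lemma RImm.chart_data (h : RImm Ω X) (he : e ∈ atlas E2 M) (hB : MeasurableSet B)
    (hBs : B ⊆ e.source ∩ Ω) (hi : InjOn X B) :
    IsOpen (e.target ∩ e.symm ⁻¹' Ω) ∧ ContDiffOn ℝ 1 (cX e X) (e.target ∩ e.symm ⁻¹' Ω) ∧
      (∀ y ∈ e.target ∩ e.symm ⁻¹' Ω, Function.Injective (fderiv ℝ (cX e X) y)) ∧
      MeasurableSet (e '' B) ∧ e '' B ⊆ e.target ∩ e.symm ⁻¹' Ω ∧ InjOn (cX e X) (e '' B) ∧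
      cX e X '' (e '' B) = X '' B := by
  have : PolishSpace M := polish
  refine ⟨e.symm.isOpen_inter_preimage h.opn, fun y hy => ?_, fun y hy => ?_,
    hB.image_of_continuousOn_injOn (e.continuousOn.mono fun x hx => (hBs hx).1)
      (e.injOn.mono fun x hx => (hBs hx).1), ?_, ?_, ?_⟩
  · exact (((h.ck _ hy.2).at_target he hy.1).of_le (by norm_num)).contDiffWithinAt
  · have := h.inj _ hy.2 e he (e.map_target hy.1)
    rwa [e.right_inv hy.1] at this
  · rintro _ ⟨x, hx, rfl⟩
    exact ⟨e.map_source (hBs hx).1, by simpa [e.left_inv (hBs hx).1] using (hBs hx).2⟩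
  · rintro _ ⟨x, hx, rfl⟩ _ ⟨x', hx', rfl⟩ hh
    simp only [cX, e.left_inv (hBs hx).1, e.left_inv (hBs hx').1] at hh
    rw [hi hx hx' hh]
  · rw [image_image]
    exact image_congr fun x hx => by simp only [cX, e.left_inv (hBs hx).1]

lemma RImm.measurableSet_image (h : RImm Ω X) (hB : MeasurableSet B) (hBs : B ⊆ Ω)
    (hi : InjOn X B) : MeasurableSet (X '' B) := by
  have : PolishSpace M := polish
  exact hB.image_of_continuousOn_injOn (h.cont.mono hBs) hi

lemma RImm.lintegral_gam (h : RImm Ω X) (he : e ∈ atlas E2 M) (hB : MeasurableSet B)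
    (hBs : B ⊆ e.source ∩ Ω) (hi : InjOn X B) (G : E3 → ℝ≥0∞) :
    ∫⁻ x in X '' B, G x ∂gam
      = cH 2 * ∫⁻ y in e '' B, ENNReal.ofReal (lagR u1 u2 (cX e X) y) * G (cX e X y) := by
  obtain ⟨h1, h2, h3, h4, h5, h6, h7⟩ := h.chart_data he hB hBs hi
  rw [gam, setLIntegral_withDensity_eq_setLIntegral_mul_non_measurable _ measurable_rho _
    (h.measurableSet_image hB (fun x hx => (hBs hx).2) hi)
    (Eventually.of_forall fun _ => ENNReal.ofReal_lt_top), ← h7,
    isJac_E2.lintegral_image h1 h2 h3 h4 h5 h6, ← lintegral_const_mul' _ _ ENNReal.coe_ne_top]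
  refine lintegral_congr fun y => ?_
  rw [normDet_E2, lagR, ENNReal.ofReal_mul (cH_pos' 2).le, ENNReal.ofReal_mul (rho_pos _).le,
    ENNReal.ofReal_coe_nnreal, Pi.mul_apply]
  simp only [pd]
  ring

lemma RImm.integral_gam (h : RImm Ω X) (he : e ∈ atlas E2 M) (hB : MeasurableSet B)
    (hBs : B ⊆ e.source ∩ Ω) (hi : InjOn X B) {V : Type*} [NormedAddCommGroup V] [NormedSpace ℝ V]
    (G : E3 → V) : ∫ x in X '' B, G x ∂gam
      = (cH 2 : ℝ) • ∫ y in e '' B, lagR u1 u2 (cX e X) y • G (cX e X y) := by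
  obtain ⟨h1, h2, h3, h4, h5, h6, h7⟩ := h.chart_data he hB hBs hi
  rw [gam, setIntegral_withDensity_eq_setIntegral_toReal_smul measurable_rho
    (Eventually.of_forall fun _ => ENNReal.ofReal_lt_top) _
    (h.measurableSet_image hB (fun x hx => (hBs hx).2) hi), ← h7,
    isJac_E2.integral_image h1 h2 h3 h4 h5 h6, ← integral_smul]
  refine integral_congr_ae (Eventually.of_forall fun y => ?_)
  simp only [normDet_E2, lagR, ENNReal.toReal_ofReal (rho_pos _).le, pd, smul_smul]
  congr 1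
  ring

/-- the Gaussian area of `X`, normalised, as a measure on the parameter manifold -/
noncomputable def muX (Ω : Set M) (X : M → E3) : Measure M :=
  (cH 2)⁻¹ • (gam.comap (Ω.domRestrict X)).map Subtype.val

lemma RImm.emb (h : RImm Ω X) (hi : InjOn X Ω) : MeasurableEmbedding (Ω.domRestrict X) := by
  have : PolishSpace M := polish
  exact h.cont.measurableEmbedding h.opn.measurableSet hi

lemma range_domRestrict' (Ω : Set M) (X : M → E3) : range (Ω.domRestrict X) = X '' Ω := by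
  ext y
  simp

/-- integrals of ambient functions -/
theorem RImm.lintegral_muX (h : RImm Ω X) (hi : InjOn X Ω) (G : E3 → ℝ≥0∞) :
    cH 2 * ∫⁻ x, G (X x) ∂(muX Ω X) = ∫⁻ y, G y ∂(gaussArea 2 (X '' Ω)) := by
  rw [muX, lintegral_smul_measure,
    (MeasurableEmbedding.subtype_coe h.opn.measurableSet).lintegral_map,
    ← gam_restrict (h.measurableSet_image h.opn.measurableSet Subset.rfl hi),
    ← range_domRestrict', ← (h.emb hi).map_comap, (h.emb hi).lintegral_map,
    ENNReal.smul_def, smul_eq_mul, ← mul_assoc, ← ENNReal.coe_mul,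
    mul_inv_cancel₀ (cH_pos 2).ne', ENNReal.coe_one, one_mul]
  rfl

theorem RImm.integral_muX (h : RImm Ω X) (hi : InjOn X Ω) {V : Type*} [NormedAddCommGroup V]
    [NormedSpace ℝ V] (G : E3 → V) :
    (cH 2 : ℝ) • ∫ x, G (X x) ∂(muX Ω X) = ∫ y, G y ∂(gaussArea 2 (X '' Ω)) := by
  rw [muX, integral_smul_nnreal_measure,
    (MeasurableEmbedding.subtype_coe h.opn.measurableSet).integral_map,
    ← gam_restrict (h.measurableSet_image h.opn.measurableSet Subset.rfl hi),
    ← range_domRestrict', ← (h.emb hi).map_comap, (h.emb hi).integral_map,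
    NNReal.smul_def, smul_smul, ← NNReal.coe_mul, mul_inv_cancel₀ (cH_pos 2).ne', NNReal.coe_one,
    one_smul]
  rfl

theorem RImm.integrable_muX (h : RImm Ω X) (hi : InjOn X Ω) {V : Type*} [NormedAddCommGroup V]
    (G : E3 → V) :
    Integrable (fun x => G (X x)) (muX Ω X) ↔ Integrable G (gaussArea 2 (X '' Ω)) := by
  rw [muX, ENNReal.smul_def, integrable_smul_measure (by simpa using (cH_pos 2).ne')
    ENNReal.coe_ne_top, (MeasurableEmbedding.subtype_coe h.opn.measurableSet).integrable_map_iff,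
    ← gam_restrict (h.measurableSet_image h.opn.measurableSet Subset.rfl hi),
    ← range_domRestrict', ← (h.emb hi).map_comap, (h.emb hi).integrable_map_iff]
  rfl

theorem RImm.muX_univ (h : RImm Ω X) (hi : InjOn X Ω) :
    cH 2 * muX Ω X univ = gaussArea 2 (X '' Ω) univ := by
  simpa using h.lintegral_muX hi fun _ => 1

lemma ae_muX (hΩ : MeasurableSet Ω) (X : M → E3) : ∀ᵐ x ∂(muX Ω X), x ∈ Ω := by
  rw [muX]
  refine Measure.ae_smul_measure ?_ _
  exact (MeasurableEmbedding.subtype_coe hΩ).ae_map_iff.2 (Eventually.of_forall fun x => x.2)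

/-- functions on the manifold are functions on the image -/
lemma exists_ext {V : Type*} [Zero V] (hi : InjOn X Ω) (hB : B ⊆ Ω) (g : M → V) :
    ∃ G : E3 → V, (∀ x ∈ Ω, G (X x) = B.indicator g x) ∧ ∀ y, y ∉ X '' B → G y = 0 := by
  classical
  refine ⟨fun y => if h : y ∈ X '' B then g h.choose else 0, fun x hx => ?_,
    fun y hy => dif_neg hy⟩
  by_cases hxB : x ∈ B
  · have h1 : X x ∈ X '' B := mem_image_of_mem X hxB
    rw [indicator_of_mem hxB]
    simp only [dif_pos h1]
    rw [hi (hB h1.choose_spec.1) hx h1.choose_spec.2]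
  · rw [indicator_of_notMem hxB]
    refine dif_neg ?_
    rintro ⟨x', hx', e⟩
    exact hxB (hi (hB hx') hx e ▸ hx')

theorem RImm.lintegral_chart (h : RImm Ω X) (hi : InjOn X Ω) (he : e ∈ atlas E2 M)
    (hB : MeasurableSet B) (hBs : B ⊆ e.source ∩ Ω) (g : M → ℝ≥0∞) :
    ∫⁻ x in B, g x ∂(muX Ω X)
      = ∫⁻ y in e '' B, ENNReal.ofReal (lagR u1 u2 (cX e X) y) * g (e.symm y) := by
  have hBΩ : B ⊆ Ω := fun x hx => (hBs hx).2
  obtain ⟨G, hG, hG0⟩ := exists_ext hi hBΩ g
  have hm := h.measurableSet_image hB hBΩ (hi.mono hBΩ)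
  have h1 := h.lintegral_muX hi G
  rw [← gam_restrict (h.measurableSet_image h.opn.measurableSet Subset.rfl hi),
    ← setLIntegral_eq_of_support_subset (s := X '' B) (fun y hy => by_contra fun h' => hy (hG0 y h')),
    Measure.restrict_restrict hm, inter_eq_left.2 (image_mono hBΩ),
    h.lintegral_gam he hB hBs (hi.mono hBΩ),
    ENNReal.mul_right_inj (by simpa using (cH_pos 2).ne') ENNReal.coe_ne_top] at h1
  rw [← lintegral_indicator hB, ← lintegral_congr_ae
    ((ae_muX h.opn.measurableSet X).mono fun x hx => hG x hx), h1]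
  refine setLIntegral_congr_fun (h.chart_data he hB hBs (hi.mono hBΩ)).2.2.2.1 ?_
  rintro _ ⟨x, hx, rfl⟩
  simp only [cX, e.left_inv (hBs hx).1, hG x (hBΩ hx), indicator_of_mem hx]

theorem RImm.integral_chart (h : RImm Ω X) (hi : InjOn X Ω) (he : e ∈ atlas E2 M)
    (hB : MeasurableSet B) (hBs : B ⊆ e.source ∩ Ω) {V : Type*} [NormedAddCommGroup V]
    [NormedSpace ℝ V] (g : M → V) :
    ∫ x in B, g x ∂(muX Ω X) = ∫ y in e '' B, lagR u1 u2 (cX e X) y • g (e.symm y) := by
  have hBΩ : B ⊆ Ω := fun x hx => (hBs hx).2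
  obtain ⟨G, hG, hG0⟩ := exists_ext hi hBΩ g
  have hm := h.measurableSet_image hB hBΩ (hi.mono hBΩ)
  have hm' := h.measurableSet_image h.opn.measurableSet Subset.rfl hi
  have h1 := h.integral_muX hi G
  rw [← gam_restrict hm', setIntegral_eq_of_subset_of_forall_sdiff_eq_zero hm' (image_mono hBΩ)
    (fun y hy => hG0 y hy.2), h.integral_gam he hB hBs (hi.mono hBΩ)] at h1
  rw [← integral_indicator hB, ← integral_congr_ae
    ((ae_muX h.opn.measurableSet X).mono fun x hx => hG x hx),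
    smul_right_injective _ (cH_pos' 2).ne' h1]
  refine setIntegral_congr_fun (h.chart_data he hB hBs (hi.mono hBΩ)).2.2.2.1 ?_
  rintro _ ⟨x, hx, rfl⟩
  simp only [cX, e.left_inv (hBs hx).1, hG x (hBΩ hx), indicator_of_mem hx]

/-- **The Gaussian area on the parameter manifold.** -/
theorem RImm.isArea (h : RImm Ω X) (hi : InjOn X Ω) (hfin : gaussArea 2 (X '' Ω) univ ≠ ⊤) :
    IsArea Ω (fun z => cx (X z)) (muX Ω X) := by
  refine ⟨h.opn, ⟨?_⟩, fun x hx => h.imm hx, fun e he g hg => ?_⟩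
  · rw [← h.muX_univ hi] at hfin
    exact (ENNReal.lt_top_of_mul_ne_top_right hfin (by simpa using (cH_pos 2).ne'))
  · have hB : MeasurableSet (e.source ∩ Ω) := (e.open_source.inter h.opn).measurableSet
    obtain ⟨-, -, -, h4, h5, -, -⟩ := h.chart_data he hB Subset.rfl (hi.mono inter_subset_right)
    rw [← setIntegral_eq_integral_of_forall_compl_eq_zero hg, h.integral_chart hi he hB Subset.rfl,
      setIntegral_eq_of_subset_of_forall_sdiff_eq_zero e.open_target.measurableSet
        (h5.trans inter_subset_left)]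
    · refine setIntegral_congr_fun h4 ?_
      rintro _ ⟨x, hx, rfl⟩
      simp only [h.lag hx.2 he hx.1, Complex.real_smul, mul_comm]
    · intro y hy
      rw [hg, zero_mul]
      exact fun h' => hy.2 ⟨_, h', e.right_inv hy.1⟩

/-- **The area of an immersed surface is at most its action.** -/
theorem RImm.gaussArea_le (hF : RImm Ω F) (hi : InjOn F Ω) (h : RImm Ω X) {T : Set E3}
    (hT : MeasurableSet T) (hTX : T ⊆ X '' Ω) : gaussArea 2 T univ ≤ cH 2 * ∫⁻ x,
      ENNReal.ofReal (LagM (fun z => cx (F z)) (fun z => cx (X z)) x).re ∂(muX Ω F) := by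
  have := ChartedSpace.secondCountable_of_sigmaCompact E2 M
  have hloc : ∀ x ∈ Ω, ∃ t ∈ 𝓝 x, t ⊆ (chartAt E2 x).source ∩ Ω ∧ InjOn X t := by
    intro x hx
    have he := chart_mem_atlas E2 x
    have hs := mem_chart_source E2 x
    obtain ⟨t, ht, -, h2⟩ := exists_biLip ((h.ck x hx _ he hs).hasStrictFDerivAt (by simp))
      (h.inj x hx _ he hs) one_lt_two
    refine ⟨(chartAt E2 x).source ∩ Ω ∩ chartAt E2 x ⁻¹' t, inter_mem (inter_mem
      ((chartAt E2 x).open_source.mem_nhds hs) (h.opn.mem_nhds hx))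
      ((chartAt E2 x).continuousAt hs ht), inter_subset_left, fun a ha b hb hab => ?_⟩
    have h3 := h2 _ ha.2 _ hb.2
    simp only [cX, (chartAt E2 x).left_inv ha.1.1, (chartAt E2 x).left_inv hb.1.1, hab,
      dist_self, mul_zero, dist_le_zero] at h3
    exact (chartAt E2 x).injOn ha.1.1 hb.1.1 (h.inj x hx _ he hs h3)
  choose! t ht hts hti using hloc
  obtain ⟨A, hA, hAd, hAc, hAt⟩ := exists_partition ht
  rw [← gam_restrict hT, Measure.restrict_apply_univ]
  calc gam T ≤ gam (⋃ n, X '' A n) := measure_mono (hTX.trans (by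
        rw [← image_iUnion]; exact image_mono hAc))
    _ ≤ ∑' n, gam (X '' A n) := measure_iUnion_le _
    _ = ∑' n, cH 2 * ∫⁻ x in A n, ENNReal.ofReal
          (LagM (fun z => cx (F z)) (fun z => cx (X z)) x).re ∂(muX Ω F) := by
        refine tsum_congr fun n => ?_
        rcases hAt n with h0 | ⟨x, hx, hsub⟩
        · simp [h0]
        have he := chart_mem_atlas E2 x
        have hs := hsub.trans (hts x hx)
        rw [← setLIntegral_one, h.lintegral_gam he (hA n) hs ((hti x hx).mono hsub),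
          hF.lintegral_chart hi he (hA n) hs]
        congr 1
        refine setLIntegral_congr_fun
          (h.chart_data he (hA n) hs ((hti x hx).mono hsub)).2.2.2.1 ?_
        rintro _ ⟨z, hz, rfl⟩
        have hp := hF.lag_pos (hs hz).2 he (hs hz).1
        simp only [(chartAt E2 x).left_inv (hs hz).1, hF.lagM h (hs hz).2 he (hs hz).1,
          Complex.ofReal_re, mul_one]
        rw [← ENNReal.ofReal_mul hp.le, mul_div_cancel₀ _ hp.ne']
    _ ≤ _ := by
        rw [ENNReal.tsum_mul_left, ← lintegral_iUnion hA hAd]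
        exact mul_le_mul_right (setLIntegral_le_lintegral _ _) _

end Vale.Agent.P218GA
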