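import Vale.Agent.P218GA.Ends2
import Vale.Agent.P218GA.Chart

/-! Local parametrisations of a regular level set in three-space. -/

open Set Metric Filter Topology Module
open scoped ContDiff RealInnerProductSpace

namespace Vale.Agent.P218GA

open Vale.Agent.P218VA (E2)

/-- an injective linear map between spaces of the same dimension as an isomorphism -/
lemma exists_equiv {U V : Type*} [NormedAddCommGroup U] [NormedSpace ℝ U] [FiniteDimensional ℝ U]
    [NormedAddCommGroup V] [NormedSpace ℝ V] [FiniteDimensional ℝ V] {A : U →L[ℝ] V}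
    (hA : Function.Injective A) (hd : finrank ℝ U = finrank ℝ V) :
    ∃ e : U ≃L[ℝ] V, (e : U →L[ℝ] V) = A :=
  ⟨(LinearMap.linearEquivOfInjective (A : U →ₗ[ℝ] V) hA hd).toContinuousLinearEquiv, by
    ext v; rfl⟩

lemma IsChart.smooth_symm {w : E3 → ℝ} {ν₀ : E3} {Θ : OpenPartialHomeomorph E3 (ℝ × hyp ν₀)}
    (h : IsChart w ν₀ Θ) (hw : ContDiff ℝ ∞ w) {z : ℝ × hyp ν₀} (hz : z ∈ Θ.target) :
    ContDiffAt ℝ ∞ Θ.symm z := by
  have h1 : ContDiff ℝ ∞ Θ := by
    rw [show (Θ : E3 → ℝ × hyp ν₀) = fun x => (w x, (crd ν₀ x).2) from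
      funext fun x => Prod.ext (h.fst x) (h.snd x)]
    exact hw.prodMk (crd ν₀).contDiff.snd
  obtain ⟨e, he⟩ := exists_equiv (h.inj z hz) (crdE h.unit).toLinearEquiv.finrank_eq.symm
  have h2 : HasFDerivAt Θ.symm (e : ℝ × hyp ν₀ →L[ℝ] E3) z := by
    rw [he]
    exact ((h.cd.contDiffAt (Θ.open_target.mem_nhds hz)).differentiableAt one_ne_zero).hasFDerivAt
  refine Θ.contDiffAt_symm (f₀' := e.symm) hz ?_ h1.contDiffAt
  have h3 := Θ.symm.hasFDerivAt_symm (f' := e) (Θ.map_target hz)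
    (by rwa [Θ.symm_symm, Θ.right_inv hz])
  simpa using h3

lemma finrank_E2_hyp {ν : E3} (hν : ‖ν‖ = 1) : finrank ℝ E2 = finrank ℝ (hyp ν) := by
  rw [finrank_hyp (m := 2) (by simp) (by rintro rfl; simp at hν)]
  simp

/-- a local parametrisation of the level set through a given point -/
theorem exists_par {w : E3 → ℝ} (hw : ContDiff ℝ ∞ w) {x : E3} (hx : w x = 0)
    (hg : ‖gradient w x‖ = 1) : ∃ (O : Set E2) (ψ : E2 → E3), IsOpen O ∧ InjOn ψ O ∧
      x ∈ ψ '' O ∧ ∀ y ∈ O, w (ψ y) = 0 ∧ ContDiffAt ℝ ∞ ψ y ∧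
        Function.Injective (fderiv ℝ ψ y) := by
  obtain ⟨Θ, hxΘ, h⟩ := exists_chart (hw.of_le (by simp)) hg
  set A : E2 ≃L[ℝ] hyp (gradient w x) := ContinuousLinearEquiv.ofFinrankEq (finrank_E2_hyp hg)
  refine ⟨A ⁻¹' dom0 Θ, par0 Θ ∘ A, isOpen_dom0.preimage A.continuous,
    h.injOn_par0.comp A.injective.injOn fun _ hy => hy, ?_, fun y hy => ⟨h.w_symm hy, ?_, ?_⟩⟩
  · have e : Θ x = (0, (Θ x).2) := Prod.ext (by rw [h.fst]; exact hx) rfl
    refine ⟨A.symm (Θ x).2, ?_, ?_⟩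
    · change (0, A (A.symm _)) ∈ Θ.target
      rw [A.apply_symm_apply, ← e]
      exact Θ.map_source hxΘ
    · rw [Function.comp_apply, A.apply_symm_apply, par0, ← e, Θ.left_inv hxΘ]
  · exact ContDiffAt.comp (g := Θ.symm) (f := fun y => (0, A y)) y (h.smooth_symm hw hy)
      (contDiffAt_const.prodMk A.contDiff.contDiffAt)
  · rw [A.comp_right_fderiv]
    exact (h.inj_par0 hy).comp A.injective

/-- an immersion into the level set has a smooth local inverse -/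
theorem exists_inv {w : E3 → ℝ} (hw : ContDiff ℝ ∞ w) {ψ : E2 → E3} {y : E2}
    (hψ : ContDiffAt ℝ ∞ ψ y) (hi : Function.Injective (fderiv ℝ ψ y))
    (h0 : ∀ᶠ z in 𝓝 y, w (ψ z) = 0) (hg : ‖gradient w (ψ y)‖ = 1) :
    ∃ G : E3 → E2, ContDiffAt ℝ ∞ G (ψ y) ∧ G (ψ y) = y ∧
      ∀ᶠ x in 𝓝 (ψ y), w x = 0 → ψ (G x) = x := by
  have hc := exists_chart (hw.of_le (by simp)) hg
  obtain ⟨ν, hν⟩ : ∃ ν, ν = gradient w (ψ y) := ⟨_, rfl⟩
  rw [← hν] at hc hg
  obtain ⟨Θ, hxΘ, h⟩ := hc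
  set P : E3 →L[ℝ] hyp ν := (hyp ν).orthogonalProjectionOnto with hP
  have hd := (hψ.differentiableAt (by simp)).hasFDerivAt
  have h1 : (fderiv ℝ w (ψ y)).comp (fderiv ℝ ψ y) = 0 :=
    ((hw.differentiable (by simp) _).hasFDerivAt.comp y hd).unique
      ((hasFDerivAt_const (0 : ℝ) y).congr_of_eventuallyEq h0)
  have h2 : Function.Injective (P.comp (fderiv ℝ ψ y)) := by
    rw [injective_iff_map_eq_zero] at hi ⊢
    intro v hv
    refine hi v ((crdE hg).injective ?_)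
    rw [map_zero]
    refine Prod.ext ?_ hv
    change ⟪ν, _⟫ = 0
    rw [hν, inner_grad]
    exact congrArg (fun L => L v) h1
  obtain ⟨e, he⟩ := exists_equiv h2 (finrank_E2_hyp hg)
  have h3 : ContDiffAt ℝ ∞ (fun z => P (ψ z)) y := P.contDiff.contDiffAt.comp y hψ
  have h4 : HasFDerivAt (fun z => P (ψ z)) (e : E2 →L[ℝ] hyp ν) y := by
    rw [he]; exact P.hasFDerivAt.comp y hd
  have hG : ContDiffAt ℝ ∞ (fun x => h3.localInverse h4 (by simp) (P x)) (ψ y) :=
    (h3.to_localInverse h4 (by simp)).comp (ψ y) P.contDiff.contDiffAt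
  have hG0 : h3.localInverse h4 (by simp) (P (ψ y)) = y := h3.localInverse_apply_image h4 _
  refine ⟨_, hG, hG0, ?_⟩
  have h5 : Tendsto (fun x => h3.localInverse h4 (by simp) (P x)) (𝓝 (ψ y)) (𝓝 y) := by
    have := hG.continuousAt.tendsto
    rwa [hG0] at this
  have h6 := (h3.hasStrictFDerivAt' h4 (by simp)).eventually_right_inverse
  filter_upwards [h5.eventually h0, (hψ.continuousAt.tendsto.comp h5).eventually
    (Θ.open_source.mem_nhds hxΘ), Θ.open_source.mem_nhds hxΘ,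
    P.continuous.continuousAt.tendsto.eventually h6] with x a1 a2 a3 a4 hx
  refine Θ.injOn a2 a3 (Prod.ext ?_ ?_)
  · rw [h.fst, h.fst, hx]; exact a1
  · rw [h.snd, h.snd]; exact a4

end Vale.Agent.P218GA
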