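import Vale.Agent.P218GA.Jac

/-! Splitting of a Euclidean space along a unit vector; Jacobians of adapted linear maps. -/

open MeasureTheory Set Filter Topology Metric Module
open scoped ENNReal NNReal RealInnerProductSpace

namespace Vale.Agent.P218GA

set_option linter.unusedSectionVars false

variable {E : Type*} [NormedAddCommGroup E] [InnerProductSpace ℝ E] [FiniteDimensional ℝ E]

/-- the hyperplane orthogonal to `ν` -/
noncomputable abbrev hyp (ν : E) : Submodule ℝ E := (ℝ ∙ ν)ᗮ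

lemma mem_hyp {ν x : E} : x ∈ hyp ν ↔ ⟪ν, x⟫ = 0 :=
  Submodule.mem_orthogonal_singleton_iff_inner_right

lemma inner_hyp {ν : E} (q : hyp ν) : ⟪ν, (q : E)⟫ = 0 := mem_hyp.1 q.2

lemma finrank_hyp {m : ℕ} (hE : finrank ℝ E = m + 1) {ν : E} (hν : ν ≠ 0) :
    finrank ℝ (hyp ν) = m :=
  haveI := Fact.mk hE
  Submodule.finrank_orthogonal_span_singleton hν

lemma proj_hyp {ν : E} (hν : ‖ν‖ = 1) (x : E) :
    (hyp ν).starProjection x = x - ⟪ν, x⟫ • ν := by
  rw [Submodule.starProjection_orthogonal_val, Submodule.starProjection_unit_singleton ℝ hν]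

/-- the coordinates `(⟨ν, x⟩, P x)` -/
noncomputable def crd (ν : E) : E →L[ℝ] ℝ × hyp ν :=
  (innerSL ℝ ν).prod (hyp ν).orthogonalProjectionOnto

lemma crd_fst (ν x : E) : (crd ν x).1 = ⟪ν, x⟫ := rfl

lemma crd_snd (ν x : E) : ((crd ν x).2 : E) = (hyp ν).starProjection x := rfl

/-- the map `(t, q) ↦ t ν + q` -/
noncomputable def spl (ν : E) : ℝ × hyp ν →L[ℝ] E :=
  (ContinuousLinearMap.toSpanSingleton ℝ ν).coprod (hyp ν).subtypeL

lemma spl_apply (ν : E) (z : ℝ × hyp ν) : spl ν z = z.1 • ν + (z.2 : E) := rfl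

lemma spl_crd {ν : E} (hν : ‖ν‖ = 1) (x : E) : spl ν (crd ν x) = x := by
  rw [spl_apply, crd_fst, crd_snd, proj_hyp hν]
  abel

lemma crd_spl {ν : E} (hν : ‖ν‖ = 1) (z : ℝ × hyp ν) : crd ν (spl ν z) = z := by
  have h1 : ⟪ν, spl ν z⟫ = z.1 := by
    rw [spl_apply, inner_add_right, real_inner_smul_right, inner_hyp, real_inner_self_eq_norm_sq,
      hν]
    ring
  refine Prod.ext h1 (Subtype.ext ?_)
  rw [crd_snd, proj_hyp hν, h1, spl_apply]
  abel

/-- the coordinates as an isomorphism -/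
noncomputable def crdE {ν : E} (hν : ‖ν‖ = 1) : E ≃L[ℝ] ℝ × hyp ν :=
  ContinuousLinearEquiv.equivOfInverse (crd ν) (spl ν) (spl_crd hν) (crd_spl hν)

variable [MeasurableSpace E] [BorelSpace E]

lemma measurePreserving_crd {ν : E} (hν : ‖ν‖ = 1) :
    MeasurePreserving (crd ν) volume volume := by
  have h1 := Submodule.measurePreserving_measurableEquivProd (ℝ ∙ ν) (0 : E)
  rw [InnerProductSpace.euclideanHausdorffMeasure_eq_volume] at h1
  have h2 : MeasurePreserving (Prod.map (LinearIsometryEquiv.toSpanUnitSingleton ν hν).symm id)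
      (volume : Measure ((ℝ ∙ ν) × hyp ν)) (volume : Measure (ℝ × hyp ν)) :=
    (LinearIsometryEquiv.measurePreserving _).prod (MeasurePreserving.id _)
  have e : (crd ν : E → ℝ × hyp ν) = Prod.map (LinearIsometryEquiv.toSpanUnitSingleton ν hν).symm id
      ∘ Submodule.measurableEquivProd (ℝ ∙ ν) (0 : E) := ?_
  · rw [e]; exact h2.comp h1
  funext x
  refine Prod.ext ?_ (Subtype.ext ?_)
  · simp only [Function.comp_apply, Submodule.measurableEquivProd_apply, vsub_eq_sub, sub_zero,
      Prod.map_fst, crd_fst]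
    rw [eq_comm, LinearIsometryEquiv.symm_apply_eq]
    refine Subtype.ext ?_
    rw [Submodule.coe_orthogonalProjectionOnto_apply, Submodule.starProjection_unit_singleton ℝ hν]
    rfl
  · simp only [Function.comp_apply, Submodule.measurableEquivProd_apply, vsub_eq_sub, sub_zero,
      Prod.map_snd, id]
    rfl

lemma measurePreserving_spl {ν : E} (hν : ‖ν‖ = 1) :
    MeasurePreserving (spl ν) volume volume :=
  MeasurePreserving.symm (crdE hν).toHomeomorph.toMeasurableEquiv (measurePreserving_crd hν)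

section transport

variable {D D' V : Type*} [NormedAddCommGroup D] [NormedSpace ℝ D] [FiniteDimensional ℝ D]
  [NormedAddCommGroup D'] [NormedSpace ℝ D'] [FiniteDimensional ℝ D']
  [NormedAddCommGroup V] [NormedSpace ℝ V]
  [MeasurableSpace D] [BorelSpace D] [MeasurableSpace D'] [BorelSpace D']
  [MeasurableSpace V] [BorelSpace V]

/-- transport of a Jacobian along a measure preserving isomorphism -/
theorem IsJac.comp {μ : Measure D} {μ' : Measure D'} {d : ℝ} {J : (D' →L[ℝ] V) → ℝ}
    (hJ : IsJac μ' d J) (e : D' ≃L[ℝ] D) (he : MeasurePreserving e μ' μ) :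
    IsJac μ d fun L : D →L[ℝ] V => J (L.comp (e : D' →L[ℝ] D)) where
  nonneg := hJ.nonneg
  cont := hJ.cont.comp (by fun_prop)
  pos L hL := hJ.pos _ (hL.comp e.injective)
  image L hL s := by
    have h := hJ.image (L.comp (e : D' →L[ℝ] D)) (hL.comp e.injective) (e ⁻¹' s)
    have e1 : (L.comp (e : D' →L[ℝ] D)) '' (e ⁻¹' s) = L '' s := by
      rw [ContinuousLinearMap.coe_comp, image_comp, ContinuousLinearEquiv.coe_coe,
        image_preimage_eq _ e.surjective]
    have e2 : μ' (e ⁻¹' s) = μ s :=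
      MeasurePreserving.measure_preimage_equiv (f := e.toHomeomorph.toMeasurableEquiv) he s
    rwa [e1, e2] at h

end transport

/-- the Jacobian on the split space -/
noncomputable def jacS (m : ℕ) (ν₀ : E) (L : ℝ × hyp ν₀ →L[ℝ] E) : ℝ :=
  cH (m + 1) * ((L.comp (crd ν₀) : E →L[ℝ] E) : E →ₗ[ℝ] E).normDet

lemma isJac_split {m : ℕ} (hE : finrank ℝ E = m + 1) {ν₀ : E} (hν₀ : ‖ν₀‖ = 1) :
    IsJac (volume : Measure (ℝ × hyp ν₀)) ((m + 1 : ℕ) : ℝ) (jacS m ν₀) :=
  (isJac_volume hE).comp (crdE hν₀) (measurePreserving_crd hν₀)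

/-- the Jacobian of a map which respects the heights is the Jacobian along the hyperplane -/
theorem jacS_eq {m : ℕ} (hE : finrank ℝ E = m + 1) {ν₀ ν : E} (hν₀ : ‖ν₀‖ = 1) (hν : ‖ν‖ = 1)
    {L : ℝ × hyp ν₀ →L[ℝ] E} (hL : Function.Injective L) (hh : ∀ z, ⟪ν, L z⟫ = z.1) :
    jacS m ν₀ L = cH (m + 1) * ((L.comp (ContinuousLinearMap.inr ℝ ℝ (hyp ν₀)) :
      hyp ν₀ →L[ℝ] E) : hyp ν₀ →ₗ[ℝ] E).normDet := by
  have h0 : ν₀ ≠ 0 := by rintro rfl; simp at hν₀
  have h0' : ν ≠ 0 := by rintro rfl; simp at hν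
  set L₂ : hyp ν₀ →L[ℝ] E := L.comp (ContinuousLinearMap.inr ℝ ℝ (hyp ν₀)) with hL₂
  have hmem : ∀ q, (L₂ : hyp ν₀ →ₗ[ℝ] E) q ∈ hyp ν := fun q => mem_hyp.2 (hh _)
  set M : hyp ν₀ →ₗ[ℝ] hyp ν := (L₂ : hyp ν₀ →ₗ[ℝ] E).codRestrict _ hmem with hM
  set B : Set (hyp ν₀) := closedBall 0 1 with hB
  set s : Set (ℝ × hyp ν₀) := Icc (0 : ℝ) 1 ×ˢ B with hs
  have hsc : IsCompact s := isCompact_Icc.prod (isCompact_closedBall _ _)
  have h1 := (isJac_split hE hν₀).image L hL s
  have hvs : (volume : Measure (ℝ × hyp ν₀)) s = volume B := by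
    rw [hs, Measure.volume_eq_prod, Measure.prod_prod]
    simp
  have hBpos : 0 < (volume : Measure (hyp ν₀)) B := measure_closedBall_pos _ _ one_pos
  have hBfin : (volume : Measure (hyp ν₀)) B ≠ ⊤ := (isCompact_closedBall _ _).measure_lt_top.ne
  have hLs : IsCompact (L '' s) := hsc.image L.continuous
  have h2 : (volume : Measure E) (L '' s) = ENNReal.ofReal M.normDet * volume B := by
    rw [← (measurePreserving_spl hν).measure_preimage hLs.measurableSet.nullMeasurableSet,
      Measure.volume_eq_prod,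
      Measure.prod_apply ((spl ν).continuous.measurable hLs.measurableSet)]
    set τ : hyp ν := (crd ν (L (1, 0))).2 with hτ
    have hτ' : L (1, 0) = ν + τ := by
      have := spl_crd hν (L (1, 0))
      rw [spl_apply, crd_fst, hh, one_smul] at this
      exact this.symm
    have hLz : ∀ z : ℝ × hyp ν₀, L z = z.1 • ν + ((z.1 • τ + M z.2 : hyp ν) : E) := by
      intro z
      have e : z = z.1 • ((1 : ℝ), (0 : hyp ν₀)) + (0, z.2) := by simp
      conv_lhs => rw [e, map_add, map_smul, hτ']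
      simp only [smul_add, Submodule.coe_add, Submodule.coe_smul, add_assoc]
      rfl
    have hsec : ∀ t : ℝ, (volume : Measure (hyp ν)) (Prod.mk t ⁻¹' (spl ν ⁻¹' (L '' s)))
        = (Icc (0 : ℝ) 1).indicator (fun _ => ENNReal.ofReal M.normDet * volume B) t := by
      intro t
      have hchar : ∀ q : hyp ν, spl ν (t, q) ∈ L '' s ↔
          t ∈ Icc (0 : ℝ) 1 ∧ -(t • τ) + q ∈ M '' B := by
        intro q
        constructor
        · rintro ⟨z, hz, hzq⟩
          have e1 : spl ν (z.1, z.1 • τ + M z.2) = spl ν (t, q) := by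
            rw [← hzq, hLz z]; rfl
          have e2 := congrArg (crd ν) e1
          rw [crd_spl hν, crd_spl hν] at e2
          obtain ⟨e3, e4⟩ := Prod.ext_iff.1 e2
          simp only at e3 e4
          refine ⟨e3 ▸ hz.1, z.2, hz.2, ?_⟩
          rw [← e4, e3]; abel
        · rintro ⟨ht, b, hb, hbq⟩
          refine ⟨(t, b), ⟨ht, hb⟩, ?_⟩
          rw [hLz, spl_apply, hbq]
          simp
      by_cases ht : t ∈ Icc (0 : ℝ) 1
      · rw [indicator_of_mem ht]
        have e : Prod.mk t ⁻¹' (spl ν ⁻¹' (L '' s)) = (fun q => -(t • τ) + q) ⁻¹' (M '' B) := by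
          ext q
          simp only [mem_preimage]
          rw [hchar q]
          simp [ht]
        rw [e, measure_preimage_add]
        have h3 := M.euclideanHausdorffMeasure_image_eq_normDet_mul_volume B
        rw [finrank_hyp hE h0, ← finrank_hyp hE h0',
          InnerProductSpace.euclideanHausdorffMeasure_eq_volume] at h3
        exact h3
      · rw [indicator_of_notMem ht]
        have e : Prod.mk t ⁻¹' (spl ν ⁻¹' (L '' s)) = ∅ := by
          ext q
          simp only [mem_preimage, mem_empty_iff_false, iff_false]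
          rw [hchar q]
          exact fun h => ht h.1
        rw [e, measure_empty]
    simp_rw [hsec]
    rw [lintegral_indicator measurableSet_Icc, setLIntegral_const]
    simp
  rw [hausdorff_eq_smul, ← hE, InnerProductSpace.euclideanHausdorffMeasure_eq_volume, hE,
    Measure.smul_apply, h2, hvs, ENNReal.smul_def, smul_eq_mul, ← mul_assoc,
    ← ENNReal.ofReal_coe_nnreal, ← ENNReal.ofReal_mul (cH _).coe_nonneg] at h1
  have h4 := (ENNReal.mul_left_inj hBpos.ne' hBfin).1 h1
  rw [ENNReal.ofReal_eq_ofReal_iff (mul_nonneg (cH _).coe_nonneg M.normDet_nonneg)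
    ((isJac_split hE hν₀).pos L hL).le] at h4
  rw [← h4, hM, LinearMap.normDet_codRestrict]

end Vale.Agent.P218GA
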