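import Vale.Agent.P218GA.Div
import Vale.Agent.P218.H313.K

/-! Approximate tangent planes of a regular level set. -/

open MeasureTheory Set Filter Topology Metric Module
open scoped ENNReal NNReal RealInnerProductSpace

namespace Vale.Agent.P218GA

set_option linter.unusedSectionVars false

open Vale.Agent.P214 (IsApproxTangent)
open Vale.Agent.P218.H63 (lap)
open Vale.Agent.P218.H313 (Slice ker om)

variable {E : Type*} [NormedAddCommGroup E] [InnerProductSpace ℝ E] [FiniteDimensional ℝ E]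
  [MeasurableSpace E] [BorelSpace E]
variable {m : ℕ} {w : E → ℝ} {ν₀ : E} {Θ : OpenPartialHomeomorph E (ℝ × hyp ν₀)}

/-- the Jacobian of the parametrisation of the level set -/
noncomputable def jac0 (m : ℕ) (Θ : OpenPartialHomeomorph E (ℝ × hyp ν₀)) (q : hyp ν₀) : ℝ :=
  cH m * ((fderiv ℝ (par0 Θ) q : hyp ν₀ →L[ℝ] E) : hyp ν₀ →ₗ[ℝ] E).normDet

/-- integrals over a plane -/
lemma integral_plane {T : Submodule ℝ E} (hT : finrank ℝ T = m) (f : E → ℝ) :
    ∫ y in (T : Set E), f y ∂μH[m] = ∫ p : T, cH m * f p := by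
  have h := (isJac_volume (U := T) (V := E) hT).integral_image (f := T.subtypeL) isOpen_univ
    T.subtypeL.contDiff.contDiffOn (fun q _ => by
      rw [ContinuousLinearMap.fderiv]; exact Subtype.val_injective)
    MeasurableSet.univ Subset.rfl Subtype.val_injective.injOn f
  have e : T.subtypeL '' univ = (T : Set E) := by
    rw [image_univ]; exact Subtype.range_coe
  rw [e, Measure.restrict_univ] at h
  rw [h]
  congr 1
  ext p
  rw [ContinuousLinearMap.fderiv]
  change ((cH m : ℝ) * T.subtype.normDet) • f p = _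
  rw [LinearMap.normDet_subtype, mul_one, smul_eq_mul]

namespace IsChart

variable (h : IsChart w ν₀ Θ)
include h

lemma cont_jac0 (hE : finrank ℝ E = m + 1) : ContinuousOn (jac0 m Θ) (dom0 Θ) :=
  (isJac_volume (U := hyp ν₀) (V := E) (h.finrank_eq hE)).cont.comp_continuousOn
    (h.cd_par0.continuousOn_fderiv_of_isOpen isOpen_dom0 le_rfl)

/-- surface integrals in the parametrisation -/
lemma integral_par0 (hE : finrank ℝ E = m + 1) (hw : Continuous w) {g : E → ℝ}
    (hgs : ∀ x, x ∉ Θ.source → g x = 0) :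
    ∫ x, g x ∂(area m w) = ∫ q in dom0 Θ, jac0 m Θ q * g (par0 Θ q) := by
  have h2 := (isJac_volume (U := hyp ν₀) (V := E) (h.finrank_eq hE)).integral_image isOpen_dom0
    h.cd_par0 (fun q hq => h.inj_par0 hq) isOpen_dom0.measurableSet Subset.rfl h.injOn_par0 g
  have h3 : par0 Θ '' dom0 Θ = {x | w x = 0} ∩ Θ.source := by
    rw [← h.image_par0 Subset.rfl, Θ.image_source_eq_target]
    rfl
  have h4 : ∫ x in {x | w x = 0}, g x ∂μH[m] = ∫ x in {x | w x = 0} ∩ Θ.source, g x ∂μH[m] :=
    setIntegral_eq_of_subset_of_forall_sdiff_eq_zero (measurableSet_zero hw) inter_subset_left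
      fun x hx => hgs x fun h' => hx.2 ⟨hx.1, h'⟩
  rw [area, h4, ← h3, h2]
  rfl

lemma crd_par0 {q : hyp ν₀} (hq : q ∈ dom0 Θ) : (crd ν₀ (par0 Θ q)).2 = q := by
  rw [← h.snd, par0, Θ.right_inv hq]

lemma norm_sub_le {q q' : hyp ν₀} (hq : q ∈ dom0 Θ) (hq' : q' ∈ dom0 Θ) :
    ‖q - q'‖ ≤ ‖par0 Θ q - par0 Θ q'‖ := by
  have e : ((q - q' : hyp ν₀) : E) = (hyp ν₀).starProjection (par0 Θ q - par0 Θ q') := by
    rw [← crd_snd, map_sub, Prod.snd_sub, h.crd_par0 hq, h.crd_par0 hq']
  rw [Submodule.coe_norm, e]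
  exact Submodule.norm_starProjection_apply_le _ _

/-- at the centre of the chart the parametrisation is tangent to the inclusion -/
lemma fderiv_centre {q : hyp ν₀} (hq : q ∈ dom0 Θ) (hν : gradient w (par0 Θ q) = ν₀) :
    fderiv ℝ (par0 Θ) q = (hyp ν₀).subtypeL := by
  have hd : HasFDerivAt (par0 Θ) (fderiv ℝ (par0 Θ) q) q :=
    ((h.cd_par0.contDiffAt (isOpen_dom0.mem_nhds hq)).differentiableAt one_ne_zero).hasFDerivAt
  have h1 := (((ContinuousLinearMap.snd ℝ ℝ (hyp ν₀)).comp (crd ν₀)).hasFDerivAt.comp q hd)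
  have h2 : HasFDerivAt (((ContinuousLinearMap.snd ℝ ℝ (hyp ν₀)).comp (crd ν₀)) ∘ par0 Θ)
      (ContinuousLinearMap.id ℝ (hyp ν₀)) q := by
    refine (hasFDerivAt_id q).congr_of_eventuallyEq ?_
    filter_upwards [isOpen_dom0.mem_nhds hq] with q' hq'
    exact h.crd_par0 hq'
  have h3 := h1.unique h2
  ext1 v
  have h4 : (crd ν₀ (fderiv ℝ (par0 Θ) q v)).2 = v := congrArg (fun L => L v) h3
  have h5 : (crd ν₀ (fderiv ℝ (par0 Θ) q v)).1 = 0 := by
    have := h.hgt (0, q) hq (0, v)
    rw [show gradient w (Θ.symm (0, q)) = ν₀ from hν] at this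
    rw [crd_fst, h.fderiv_par0 hq]
    exact this
  rw [← spl_crd h.unit (fderiv ℝ (par0 Θ) q v), spl_apply, h4, h5, zero_smul, zero_add]
  rfl

end IsChart

/-- **Approximate tangent planes.** -/
theorem tendsto_blowup (hE : finrank ℝ E = m + 1) (hw : ContDiff ℝ 1 w) {x : E} (hx : w x = 0)
    (h1 : ‖gradient w x‖ = 1) {f : E → ℝ} (hf : Continuous f) (hfc : HasCompactSupport f) :
    Tendsto (fun r : ℝ => (∫ y, f (r⁻¹ • (y - x)) ∂(area m w)) / r ^ m) (𝓝[>] 0)
      (𝓝 (∫ y in (hyp (gradient w x) : Set E), f y ∂μH[m])) := by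
  obtain ⟨ν, hν⟩ : ∃ ν, gradient w x = ν := ⟨_, rfl⟩
  have hex := exists_chart hw h1
  rw [hν] at hex ⊢
  obtain ⟨Θ, hxΘ, h⟩ := hex
  set q₀ : hyp ν := (Θ x).2 with hq₀
  have e0 : Θ x = (0, q₀) := Prod.ext (by rw [h.fst]; exact hx) rfl
  have hq : q₀ ∈ dom0 Θ := by
    change (0, q₀) ∈ Θ.target
    rw [← e0]; exact Θ.map_source hxΘ
  have e1 : par0 Θ q₀ = x := by rw [par0, ← e0, Θ.left_inv hxΘ]
  have hD := h.fderiv_centre hq (by rw [e1, hν])
  have hJ0 : jac0 m Θ q₀ = cH m := by
    rw [jac0, hD]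
    change (cH m : ℝ) * (hyp ν).subtype.normDet = _
    rw [LinearMap.normDet_subtype, mul_one]
  have hJc : ContinuousAt (jac0 m Θ) q₀ :=
    (h.cont_jac0 hE).continuousAt (isOpen_dom0.mem_nhds hq)
  obtain ⟨R, hR0, hR⟩ := hfc.isCompact.isBounded.subset_closedBall_lt 0 0
  have hfR : ∀ y, R < ‖y‖ → f y = 0 := fun y hy => image_eq_zero_of_notMem_tsupport fun h' => by
    have := hR h'
    rw [mem_closedBall_zero_iff] at this
    linarith
  obtain ⟨B, hB⟩ := hf.bounded_above_of_compact_support hfc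
  obtain ⟨ρ, hρ0, hρ⟩ := nhds_basis_closedBall.mem_iff.1 (Θ.open_source.mem_nhds hxΘ)
  obtain ⟨σ, hσ0, hσ⟩ := nhds_basis_closedBall.mem_iff.1
    (hJc.norm.eventually (eventually_lt_nhds (lt_add_one ‖jac0 m Θ q₀‖)))
  set F : ℝ → hyp ν → ℝ := fun r p => (dom0 Θ).indicator
    (fun q => jac0 m Θ q * f (r⁻¹ • (par0 Θ q - x))) (q₀ + r • p) with hF
  have e2 : ∀ r, 0 < r → R * r < ρ →
      (∫ y, f (r⁻¹ • (y - x)) ∂(area m w)) / r ^ m = ∫ p, F r p := by
    intro r hr hrρ
    rw [h.integral_par0 hE hw.continuous, ← integral_indicator isOpen_dom0.measurableSet,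
      ← integral_add_left_eq_self _ q₀]
    · have := Measure.integral_comp_smul (volume : Measure (hyp ν)) (fun p => (dom0 Θ).indicator
        (fun q => jac0 m Θ q * f (r⁻¹ • (par0 Θ q - x))) (q₀ + p)) r
      simp only [hF]
      rw [this, h.finrank_eq hE, abs_of_pos (by positivity), smul_eq_mul]
      ring
    · intro y hy
      refine hfR _ ?_
      have h2 : ρ < ‖y - x‖ := lt_of_not_ge fun h' => hy (hρ (mem_closedBall_iff_norm.2 h'))
      rw [norm_smul, norm_inv, Real.norm_eq_abs, abs_of_pos hr, inv_mul_eq_div, lt_div_iff₀ hr]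
      linarith
  rw [integral_plane (h.finrank_eq hE)]
  have hev : ∀ᶠ r : ℝ in 𝓝[>] 0, 0 < r ∧ R * r < ρ ∧ R * r < σ := by
    filter_upwards [Ioo_mem_nhdsGT (lt_min (div_pos hρ0 hR0) (div_pos hσ0 hR0))] with r hr
    have h2 := lt_min_iff.1 hr.2
    rw [lt_div_iff₀' hR0, lt_div_iff₀' hR0] at h2
    exact ⟨hr.1, h2⟩
  refine Tendsto.congr' (hev.mono fun r hr => (e2 r hr.1 hr.2.1).symm) ?_
  refine tendsto_integral_filter_of_dominated_convergence
    ((closedBall (0 : hyp ν) R).indicator fun _ => (‖jac0 m Θ q₀‖ + 1) * B) ?_ ?_ ?_ ?_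
  · refine Eventually.of_forall fun r => ?_
    have hc : Continuous fun p : hyp ν => q₀ + r • p := by fun_prop
    have hO : IsOpen ((fun p : hyp ν => q₀ + r • p) ⁻¹' dom0 Θ) := isOpen_dom0.preimage hc
    have e3 : F r = ((fun p : hyp ν => q₀ + r • p) ⁻¹' dom0 Θ).indicator
        ((fun q => jac0 m Θ q * f (r⁻¹ • (par0 Θ q - x))) ∘ fun p : hyp ν => q₀ + r • p) := by
      ext p
      rw [indicator_comp_right]
    rw [e3, aestronglyMeasurable_indicator_iff hO.measurableSet]
    refine ContinuousOn.aestronglyMeasurable ?_ hO.measurableSet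
    exact ((h.cont_jac0 hE).mul (hf.comp_continuousOn
      ((h.cd_par0.continuousOn.sub continuousOn_const).const_smul _))).comp hc.continuousOn
      fun p hp => hp
  · filter_upwards [hev] with r hr
    refine Eventually.of_forall fun p => ?_
    have hB0 : 0 ≤ B := (norm_nonneg _).trans (hB 0)
    by_cases hp : q₀ + r • p ∈ dom0 Θ
    · simp only [hF, indicator_of_mem hp]
      by_cases hpR : p ∈ closedBall (0 : hyp ν) R
      · rw [indicator_of_mem hpR, norm_mul]
        refine mul_le_mul (le_of_lt (hσ ?_)) (hB _) (norm_nonneg _) (by positivity)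
        rw [mem_closedBall_zero_iff] at hpR
        rw [mem_closedBall_iff_norm, add_sub_cancel_left, norm_smul, Real.norm_eq_abs,
          abs_of_pos hr.1]
        nlinarith [hr.1, hr.2.2]
      · rw [indicator_of_notMem hpR, hfR, mul_zero, norm_zero]
        rw [mem_closedBall_zero_iff, not_le] at hpR
        have h2 := h.norm_sub_le hp hq
        rw [add_sub_cancel_left, e1, norm_smul, Real.norm_eq_abs, abs_of_pos hr.1] at h2
        rw [norm_smul, norm_inv, Real.norm_eq_abs, abs_of_pos hr.1, inv_mul_eq_div,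
          lt_div_iff₀ hr.1]
        nlinarith [hr.1]
    · simp only [hF, indicator_of_notMem hp, norm_zero]
      exact indicator_nonneg (fun _ _ => by positivity) _
  · exact (integrable_indicator_iff measurableSet_closedBall).2
      (integrableOn_const (isCompact_closedBall _ _).measure_lt_top.ne)
  · refine Eventually.of_forall fun p => ?_
    have hc : Tendsto (fun r : ℝ => q₀ + r • p) (𝓝[>] 0) (𝓝 q₀) := by
      have h2 : Continuous fun r : ℝ => q₀ + r • p := by fun_prop
      simpa using (h2.tendsto 0).mono_left (nhdsWithin_le_nhds (s := Ioi 0))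
    have hd : HasFDerivAt (par0 Θ) (hyp ν).subtypeL q₀ := by
      rw [← hD]
      exact ((h.cd_par0.contDiffAt (isOpen_dom0.mem_nhds hq)).differentiableAt
        one_ne_zero).hasFDerivAt
    have h2 := (hd.hasLineDerivAt p).tendsto_slope_zero_right
    rw [e1] at h2
    have h3 := (hJc.tendsto.comp hc).mul ((hf.tendsto _).comp h2)
    rw [hJ0] at h3
    refine h3.congr' ?_
    filter_upwards [hc.eventually (isOpen_dom0.mem_nhds hq)] with r hr
    have hr' : q₀ + r • p ∈ dom0 Θ := hr
    simp only [hF, indicator_of_mem hr', Function.comp]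

theorem isApproxTangent (hE : finrank ℝ E = m + 1) (hw : ContDiff ℝ 1 w) {x : E} (hx : w x = 0)
    (h1 : ‖gradient w x‖ = 1) : IsApproxTangent m (area m w) x 1 (hyp (gradient w x)) := by
  refine ⟨finrank_hyp hE fun h0 => ?_, fun f hf hfc => ?_⟩
  · rw [h0, norm_zero] at h1
    exact zero_ne_one h1
  · simpa using tendsto_blowup hE hw hx h1 hf hfc

lemma integral_ker_plane {T : Submodule ℝ E} (hT : finrank ℝ T = m) :
    ∫ y in (T : Set E), ker y ∂μH[m] = om m := by
  have h := Vale.Agent.P218.H313.lintegral_ker_plane hT one_pos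
  simp only [inv_one, one_smul, one_pow, one_mul] at h
  rw [integral_eq_lintegral_of_nonneg_ae (Eventually.of_forall Vale.Agent.P218.H313.ker_nonneg)
    Vale.Agent.P218.H313.continuous_ker.aestronglyMeasurable, h, ENNReal.toReal_ofReal]
  exact integral_nonneg Vale.Agent.P218.H313.ker_nonneg

/-- the zero set of a signed distance function is a slice -/
theorem IsTube.slice {δ C : ℝ} (h : IsTube w δ C) (hE : finrank ℝ E = m + 1) :
    Slice m (area m w) (fun x => hyp (gradient w x)) fun x => -lap w x • gradient w x := by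
  refine ⟨h.mc hE, ?_⟩
  filter_upwards [ae_area h.smooth.continuous] with x hx c hc
  have h1 := tendsto_blowup hE h.cd1 hx (h.unit x hx) Vale.Agent.P218.H313.continuous_ker
    Vale.Agent.P218.H313.ker_compact
  rw [integral_ker_plane (isApproxTangent hE h.cd1 hx (h.unit x hx)).1] at h1
  exact (h1.eventually (lt_mem_nhds hc)).mono fun r hr => hr.le

end Vale.Agent.P218GA
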